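import Claimed.Agent.R255.Cl.Dich.Ops
import Claimed.Agent.R255.Iso.Grid

/-!
# Row 255 (BR paper), chapter DICHOTOMY (P4.6-P4.8), package DC-NS      (architect helper40; prefix `dc_`)
Plan and vocabulary: `Cl/DichDefs.lean`.  The owner of the package edits ONLY this file.  Do not change the statements without asking helper40.
-/

set_option autoImplicit false

namespace Claimed.Agent.R255

open Filter Topology
open Classical

/-- the depth-`d` prefix of an angle is within `ε^d` -/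
theorem dc_sin_trep (ε d x : ℝ) (h0 : 0 < ε) : |Real.sin (x - trep ε d x)| ≤ ε ^ d := by
  have h1 := ig_trep_le ε d x
  have h2 := ig_lt_trep ε d x
  have h3 := ig_msh_le ε d h0
  have h4 : |x - trep ε d x| ≤ ε ^ d := by
    rw [abs_le]
    constructor <;> [skip; skip]
    · have : 0 < ε ^ d := Real.rpow_pos_of_pos h0 d
      linarith
    · linarith
  exact le_trans Real.abs_sin_le_abs h4

/-- change of the aspect of a normalised system (`dc_reshape`, `tl_tau_mono`, `tl_tau_lip`) -/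
theorem dc_ns_reshape : ∃ C : ℝ, ∀ γ ε e e' δ : ℝ, 0 < γ → γ < 1 → 0 < ε → ε < 1 → 0 ≤ e → 0 ≤ e' →
    NS γ ε e δ → NS γ ε e' (δ + 4 * |e' - e| + C / lg ε) := by
  obtain ⟨C₁, hC₁⟩ := dc_reshape 1
  obtain ⟨C₂, hC₂⟩ := tl_tau_lip 1
  refine ⟨|C₁| + |C₂|, fun γ ε e e' δ hγ0 hγ1 h0 h1 he he' hNS => ?_⟩
  obtain ⟨S, G, hB, -, hL, hD⟩ := hNS
  have hl : 0 < lg ε := tl_lg_pos h0 h1
  set L' := 1 + max e e' with hL'
  have hLab : S.IsLabel 1 ε 1 L' G (rd 0 e) :=
    tl_label_mono S 1 1 ε 1 1 (1 + e) L' h0 h1 le_rfl (by rw [hL']; linarith [le_max_left e e']) le_rfl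
      LV G (rd 0 e) hL
  obtain ⟨G', hT', -, -, -, hLab', hD'⟩ := hC₁ S γ ε 1 L' 0 e 0 e' LV G (rd 0 e) hγ0 hγ1 h0 h1 zero_le_one hLab
    (fun g => ⟨rfl, rfl⟩) le_rfl he' (by rw [hL']; linarith [le_max_right e e'])
  -- the label at the horizon `1 + e'`
  have hLab'' : S.IsLabel 1 ε 1 (1 + e') G' (rd 0 e') := by
    intro ω hω
    obtain ⟨a1, a2, -, a4, a5, a6⟩ := hLab' ω hω
    exact ⟨a1, a2, by show e' + 1 ≤ 1 + e'; linarith, a4, a5, a6⟩
  refine ⟨S, G', hB, hT', hLab'', ?_⟩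
  -- comparison of the root suprema
  have hτ1 : S.tau γ ε (1 + e') ≤ S.tau γ ε (1 + e) + 2 * |e' - e| + |C₂| / lg ε := by
    rcases le_total e' e with h | h
    · have := tl_tau_mono S 1 γ ε (1 + e') (1 + e) hB hγ0 hγ1 h0 h1 (by linarith) (by linarith)
      have h2 : 0 ≤ |C₂| / lg ε := by positivity
      have h3 : 0 ≤ |e' - e| := abs_nonneg _
      linarith
    · have := hC₂ S γ ε (1 + e) (e' - e) hB hγ0 hγ1 h0 h1 (by linarith) (by linarith)
      have h2 : C₂ / lg ε ≤ |C₂| / lg ε := div_le_div_of_nonneg_right (le_abs_self _) hl.le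
      rw [abs_of_nonneg (by linarith : 0 ≤ e' - e)]
      have h3 : 1 + e + (e' - e) = 1 + e' := by ring
      rw [h3] at this
      linarith
  have h5 : C₁ / lg ε ≤ |C₁| / lg ε := div_le_div_of_nonneg_right (le_abs_self _) hl.le
  have h6 : (|C₁| + |C₂|) / lg ε = |C₁| / lg ε + |C₂| / lg ε := add_div _ _ _
  unfold CSys.deficit at hD hD' ⊢
  simp only [sub_self, abs_zero, zero_add] at hD'
  rw [h6]
  linarith

/-- LOCALISATION IN NORMAL FORM (L4.5 + selection of the best cell + refinement to enlargement `1` + change of the small parameter).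
`ζ = H(R_d | T, C_r)/ℓ` is the conditional entropy of the depth-`d` orientation cell of the label itself. -/
theorem dc_ns_of_loc (γ K B Lmax tmin ν : ℝ) (hγ0 : 0 < γ) (hγ1 : γ < 1) (ht : 0 < tmin) (hν : 0 < ν) :
    ∃ ε₀ : ℝ, 0 < ε₀ ∧ ε₀ < 1 ∧ ∀ (S : CSys) (ε r t L b a d : ℝ) (G : S.Ω → LV), 0 < ε → ε < ε₀ →
      S.Bdd B → S.IsLabel K ε t L G (rd b a) → L ≤ Lmax → (r = 0 ∨ tmin ≤ r) → r + tmin ≤ t →
      0 ≤ d → d ≤ a - b →
      NS γ (ε ^ (t - r)) ((a - b - d) / (t - r))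
        ((S.deficit γ ε t L G (rd b a)
          + 2 * S.P.entC (ori ε d G) (FLaw.pair S.T (S.Ct ε r)) / lg ε + ν) / (t - r)) := by
  obtain ⟨K', hK'⟩ := tl_loc_label (max K 1)
  obtain ⟨C, hC⟩ := dc_reshape K'
  obtain ⟨ε₁, h10, h11, hdef⟩ := tl_loc_deficit γ (max K 1) B Lmax tmin (ν / 2) hγ0 hγ1 ht (by positivity)
  obtain ⟨ε₂, h20, -, herr⟩ := dc_small_err C (ν / 2) (by positivity)
  refine ⟨min ε₁ ε₂, lt_min h10 h20, lt_of_le_of_lt (min_le_left _ _) h11, ?_⟩
  intro S ε r t L b a d G h0 hε hB hlab hL hr hrt hd0 hd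
  have hε1 : ε < ε₁ := lt_of_lt_of_le hε (min_le_left _ _)
  have hε2 : ε < ε₂ := lt_of_lt_of_le hε (min_le_right _ _)
  have h1 : ε < 1 := lt_trans hε1 h11
  have hl : 0 < lg ε := tl_lg_pos h0 h1
  have hr0 : 0 ≤ r := by
    rcases hr with rfl | h
    · exact le_rfl
    · linarith
  have hh : 0 < t - r := by linarith
  set p : LocPar := ⟨b, d, r⟩ with hp
  set th : S.Ω → ℝ := fun ω => (G ω).1.th with hth
  have hlab1 : S.IsLabel (max K 1) ε t L G (rd b a) :=
    tl_label_mono S K (max K 1) ε t t L L h0 h1 le_rfl le_rfl (le_max_left _ _) LV G (rd b a) hlab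
  have hshape : ∀ g, (rd b a g).b = b ∧ (rd b a g).a = a := fun g => ⟨rfl, rfl⟩
  have hsin : ∀ ω, 0 < S.P.p ω →
      |Real.sin ((rd b a (G ω)).th - trep ε p.d (th ω))| ≤ max K 1 * ε ^ p.d := by
    intro ω _
    have h2 := dc_sin_trep ε d (G ω).1.th h0
    have h3 : 0 < ε ^ d := Real.rpow_pos_of_pos h0 d
    calc |Real.sin ((G ω).1.th - trep ε d (G ω).1.th)| ≤ ε ^ d := h2
      _ = 1 * ε ^ d := (one_mul _).symm
      _ ≤ max K 1 * ε ^ d := mul_le_mul_of_nonneg_right (le_max_right _ _) h3.le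
  obtain ⟨geo', hgeo', hloc⟩ := hK' S ε t L b a p th LV G (rd b a) h0 h1 hlab1 hshape rfl hd0 hd hr0
    (by show r ≤ t; linarith) hsin
  have havg := hdef S ε t L b a p th LV G (rd b a) geo' h0 hε1 hB hlab1 hL hshape rfl hd0 hd hr
    (by show r ≤ t; linarith) hsin hgeo'
  -- the orientation cell is a function of the label
  have hz : S.P.entC (fun ω => tcell ε p.d (th ω)) G = 0 :=
    ent_entC_eq_zero S.P _ G (fun ω ω' _ _ h => by simp only [hth, h])
  rw [hz, zero_div, add_zero] at havg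
  obtain ⟨ω₀, hω₀, hle⟩ := dc_exists_le_ev S.P (fun ω =>
    (S.loc ε p th (S.J ε p th ω)).deficit γ ε (t - p.r) (a - b - p.d + t - p.r) G (geo' (S.J ε p th ω)))
  set j := S.J ε p th ω₀ with hj
  set S' := S.loc ε p th j with hS'
  have hB' : S'.Bdd 1 := tl_loc_bdd S ε p th h0 h1 (hlab ω₀ hω₀).1 hd0 hr0 ω₀ hω₀
  have hlab' := hloc ω₀ hω₀
  obtain ⟨G', hT', -, -, -, hLab', hD'⟩ := hC S' γ ε (t - r) (a - b - d + t - r) 0 (a - b - d) 0 (a - b - d) LV G
    (geo' j) hγ0 hγ1 h0 h1 hh.le hlab' (hgeo' j) le_rfl (by linarith) (by linarith)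
  have e1 : (t - r) / (t - r) = 1 := div_self hh.ne'
  have e2 : (a - b - d + t - r) / (t - r) = 1 + (a - b - d) / (t - r) := by
    field_simp
    ring
  have e3 : (fun g : LV => (rd 0 (a - b - d) g).scale (t - r)) = rd 0 ((a - b - d) / (t - r)) := by
    funext g
    simp [rd, Geo.scale]
  refine ⟨S', G', hB', hT', ?_, ?_⟩
  · have := tl_isLabel_rpow S' 1 ε (t - r) (t - r) (a - b - d + t - r) h0 h1 hh LV G' _ hLab'
    rwa [e1, e2, e3] at this
  · have s1 := tl_score_rpow S' γ ε (t - r) (t - r) h0 h1 hh LV G' (rd 0 (a - b - d))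
    have s2 := tl_tau_rpow S' γ ε (t - r) (a - b - d + t - r) h0 h1 hh
    rw [e1, e3] at s1
    rw [e2] at s2
    have herr' := herr ε h0 hε2
    have key : S'.deficit γ ε (t - r) (a - b - d + t - r) G' (rd 0 (a - b - d)) ≤
        S.deficit γ ε t L G (rd b a)
          + 2 * S.P.entC (ori ε d G) (FLaw.pair S.T (S.Ct ε r)) / lg ε + ν := by
      simp only [sub_self, abs_zero, add_zero, mul_zero] at hD'
      have h7 : S'.deficit γ ε (t - r) (a - b - d + t - r) G (geo' j) ≤ _ := le_trans hle havg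
      have h8 : (fun ω => tcell ε p.d (th ω)) = ori ε d G := rfl
      rw [h8] at h7
      linarith
    unfold CSys.deficit at key ⊢
    rw [s1, s2, le_div_iff₀ hh]
    have : (beta γ * 1 + S'.tau γ ε (a - b - d + t - r) / (t - r)
        - S'.score γ ε (t - r) G' (rd 0 (a - b - d)) / (t - r)) * (t - r)
        = beta γ * (t - r) + S'.tau γ ε (a - b - d + t - r) - S'.score γ ε (t - r) G' (rd 0 (a - b - d)) := by
      field_simp
    rw [this]
    exact key

end Claimed.Agent.R255
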