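import Claimed.Agent.R255.Cl.Dich.Canon
import Claimed.Agent.R255.Cl.Dich.Ns

/-!
# Row 255 (BR paper), chapter DICHOTOMY (P4.6-P4.8), package DC-GROW      (architect helper40; prefix `dc_`)
Plan and vocabulary: `Cl/DichDefs.lean`.  The owner of the package edits ONLY this file (helper lemmas above the contracts, or in `Cl/Dich/Grow/*.lean`).  Do not change the statements without asking helper40.
-/

set_option autoImplicit false

namespace Claimed.Agent.R255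

open Filter Topology
open Classical

/-- `NS` is monotone in the bound of the deficit -/
theorem dc_grow_ns_mono {γ ε e δ δ' : ℝ} (h : NS γ ε e δ) (hδ : δ ≤ δ') : NS γ ε e δ' := by
  obtain ⟨S, G, h1, h2, h3, h4⟩ := h
  exact ⟨S, G, h1, h2, h3, h4.trans hδ⟩

/-- imposing the shape a read-out already has -/
theorem dc_grow_geo_eta (g : Geo) (b a : ℝ) (hb : g.b = b) (ha : g.a = a) :
    ({ g with b := b, a := a } : Geo) = g := by
  subst hb
  subst ha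
  rfl

theorem dc_grow_lg_pos {ε : ℝ} (h0 : 0 < ε) (h1 : ε < 1) : 0 < lg ε := by
  unfold lg
  exact Real.log_pos ((one_lt_div h0).2 h1)

/-- finite core: the canonical observation on the matched plane as an `LV`-valued label of shape `(i, i + m t)`: its deficit, and its orientation cell is a function of the slope prefix. -/
theorem dc_grow_core (m RB : ℝ) (hm : 0 ≤ m) : ∃ K₁ : ℝ, ∀ (S : CSys) (γ ε i t L : ℝ) (R : S.Ω → ℝ),
    0 < ε → ε < 1 → (∀ ω, |R ω| ≤ RB) → 0 ≤ i → 0 ≤ t → i + (1 + m) * t ≤ L →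
    ∃ G : S.Ω → LV, S.IsLabel K₁ ε t L G (rd i (i + m * t)) ∧
      S.deficit γ ε t L G (rd i (i + m * t)) =
        beta γ * t + S.tau γ ε L - (2 * i + (1 - γ) * m * t
          - S.P.mi S.T (S.mO m ε (plane m i t) R) / lg ε + 2 * S.St ε t) ∧
      ∀ (β : Type) (Y : S.Ω → β),
        S.P.entC (ori ε (m * t) G) Y ≤ S.P.entC (fun ω => tcell ε (m * t) (R ω)) Y := by
  obtain ⟨K₁, hK⟩ := dc_canon_label m RB hm
  refine ⟨K₁, fun S γ ε i t L R h0 h1 hR hi ht hL => ?_⟩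
  obtain ⟨geo, hgeo, hlab⟩ := hK S ε i t L R h0 h1 hR hi ht hL
  obtain ⟨G, hG1, hG2⟩ := dc_toLV S _ (S.mO m ε (plane m i t) R) geo
  have hrd : ∀ ω, rd i (i + m * t) (G ω) = geo (S.mO m ε (plane m i t) R ω) := by
    intro ω
    unfold rd
    rw [hG1 ω]
    exact dc_grow_geo_eta _ _ _ (hgeo _).1 (hgeo _).2.1
  have hth : ∀ ω, (G ω).1.th = Real.arctan (crep ε (m * t) (tcell ε (m * t) (R ω))) := by
    intro ω
    rw [hG1 ω, (hgeo _).2.2]
    rfl
  refine ⟨G, ?_, ?_, ?_⟩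
  · intro ω hω
    rw [hrd ω]
    exact hlab ω hω
  · unfold CSys.deficit CSys.score
    have hw : (fun ω => wt γ (rd i (i + m * t) (G ω))) =
        fun _ => (1 + γ) * i + (1 - γ) * (i + m * t) := rfl
    have hmi : S.P.mi S.T G = S.P.mi S.T (S.mO m ε (plane m i t) R) :=
      ent_mi_congr S.P _ _ _ _ (fun _ _ _ _ => Iff.rfl) (fun ω ω' _ _ => hG2 ω ω')
    rw [hw, ent_ev_const, hmi]
    ring
  · intro β Y
    refine ent_entC_mono S.P _ _ Y fun ω ω' _ _ hX _ => ?_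
    unfold ori
    rw [hth ω, hth ω']
    have hX' : tcell ε (m * t) (R ω) = tcell ε (m * t) (R ω') := hX
    rw [hX']

/-- **(4.10)**.  If no `κ` works, then for every `κ > 0` there are `u, h, η` with `H(R_{m(u+h)} | T, C_u)/ℓ < κ h - η` `𝓤`-a.e.;
`dc_ns_of_loc` for the label `O(plane m (b t) t)`, `t = u + h`, `r = u`, `d = m t` (`dc_canon_label`, `dc_toLV`; its orientation cell is a function of `R_{mt}`) gives `NS γ (ε^h) 0 (2κ + o(1))`: `0 ∈ AspSet γ`, against `m > 0`. -/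
theorem dc_growth {γ m : ℝ} (h0 : 0 < γ) (h1 : γ < 1) (hm : 0 < m) (hl : IsLeast (AspSet γ) m)
    (M : Matched γ m) (hs : ∀ u, 0 < u → u < 1 → M.SatAt u) :
    ∃ κ : ℝ, 0 < κ ∧ ∀ u h, 0 < u → 0 < h → u + h < 1 → ∀ η, 0 < η →
      ∀ᶠ n in uf, κ * h - η ≤ M.Q.seqHC (M.Rd (m * (u + h))) (M.Q.pr2 M.Q.T (M.Q.C u)) n := by
  by_contra hcon
  have key : (0 : ℝ) ∈ AspSet γ := by
    refine ⟨le_refl 0, fun δ hδ ε₀ hε₀ => ?_⟩
    have hex : ∃ u h, 0 < u ∧ 0 < h ∧ u + h < 1 ∧ ∃ η, 0 < η ∧ ¬ ∀ᶠ n in uf,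
        δ / 2 * h - η ≤ M.Q.seqHC (M.Rd (m * (u + h))) (M.Q.pr2 M.Q.T (M.Q.C u)) n := by
      by_contra hno
      refine hcon ⟨δ / 2, by positivity, fun u h hu hh huh η hη => ?_⟩
      by_contra hne
      exact hno ⟨u, h, hu, hh, huh, η, hη, hne⟩
    obtain ⟨u, h, hu, hh, huh, η, hη, hne⟩ := hex
    have hev := (uf_em _).resolve_left hne
    have ht0 : 0 < u + h := by linarith
    obtain ⟨K₁, hK⟩ := dc_grow_core m M.RB hm.le
    obtain ⟨ε₁, hε₁0, -, hloc⟩ :=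
      dc_ns_of_loc γ K₁ M.Q.B (1 + m) (min u h) η h0 h1 (lt_min hu hh) hη
    have e1 : ∀ᶠ n in uf, M.Q.ε n < ε₁ := M.Q.lim.eventually (Iio_mem_nhds hε₁0)
    have e2 : ∀ᶠ n in uf, (M.Q.ε n) ^ h < ε₀ := by
      have hlim : Tendsto (fun n => (M.Q.ε n) ^ h) uf (𝓝 ((0 : ℝ) ^ h)) :=
        M.Q.lim.rpow_const (Or.inr hh.le)
      rw [Real.zero_rpow hh.ne'] at hlim
      exact hlim.eventually (Iio_mem_nhds hε₀)
    have e4 := (hs (u + h) ht0 huh).eventually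
      (Ioi_mem_nhds (by linarith : beta γ * (u + h) - η < beta γ * (u + h)))
    have := uf_neBot
    obtain ⟨n, hn1, hn2, hn3, hn4, hn5⟩ := (e1.and (e2.and (M.Q.bdd.and (e4.and hev)))).exists
    have hp0 := (M.Q.pos n).1
    have hp1 := (M.Q.pos n).2
    obtain ⟨G, hG1, hG2, hG3⟩ := hK (M.Q.S n) γ (M.Q.ε n) (M.b (u + h)) (u + h) (1 + m) (M.R n)
      hp0 hp1 (M.Rbd n) (M.b_nonneg _ ht0 huh) ht0.le (M.b_top _ ht0 huh)
    have hNS := hloc (M.Q.S n) (M.Q.ε n) u (u + h) (1 + m) (M.b (u + h))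
      (M.b (u + h) + m * (u + h)) (m * (u + h)) G hp0 hn1 hn3 hG1 le_rfl
      (Or.inr (min_le_left _ _)) (by linarith [min_le_right u h]) (by positivity) (by linarith)
    have hth : u + h - u = h := by ring
    have hz : (M.b (u + h) + m * (u + h) - M.b (u + h) - m * (u + h)) / h = 0 := by
      have : M.b (u + h) + m * (u + h) - M.b (u + h) - m * (u + h) = 0 := by ring
      rw [this, zero_div]
    rw [hth, hz] at hNS
    refine ⟨(M.Q.ε n) ^ h, Real.rpow_pos_of_pos hp0 _, hn2, Real.rpow_lt_one hp0.le hp1 hh, ?_⟩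
    refine dc_grow_ns_mono hNS ?_
    rw [div_le_iff₀ hh]
    have hlg : 0 < lg (M.Q.ε n) := dc_grow_lg_pos hp0 hp1
    have h5 : (M.Q.S n).P.entC (fun ω => tcell (M.Q.ε n) (m * (u + h)) (M.R n ω))
        (FLaw.pair (M.Q.S n).T ((M.Q.S n).Ct (M.Q.ε n) u)) / lg (M.Q.ε n) < δ / 2 * h - η :=
      not_le.1 hn5
    have h6 := hG3 _ (FLaw.pair (M.Q.S n).T ((M.Q.S n).Ct (M.Q.ε n) u))
    have h7 : 2 * (M.Q.S n).P.entC (ori (M.Q.ε n) (m * (u + h)) G)
        (FLaw.pair (M.Q.S n).T ((M.Q.S n).Ct (M.Q.ε n) u)) / lg (M.Q.ε n) ≤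
        2 * ((M.Q.S n).P.entC (fun ω => tcell (M.Q.ε n) (m * (u + h)) (M.R n ω))
        (FLaw.pair (M.Q.S n).T ((M.Q.S n).Ct (M.Q.ε n) u)) / lg (M.Q.ε n)) := by
      rw [mul_div_assoc]
      exact mul_le_mul_of_nonneg_left (div_le_div_of_nonneg_right h6 hlg.le) (by norm_num)
    have h4 : beta γ * (u + h) - η < 2 * M.b (u + h) + (1 - γ) * m * (u + h)
        - (M.Q.S n).P.mi (M.Q.S n).T
            ((M.Q.S n).mO m (M.Q.ε n) (plane m (M.b (u + h)) (u + h)) (M.R n)) / lg (M.Q.ε n)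
        + 2 * (M.Q.S n).St (M.Q.ε n) (u + h) - (M.Q.S n).tau γ (M.Q.ε n) (1 + m) := hn4
    rw [hG2]
    linarith
  have := hl.2 key
  linarith

end Claimed.Agent.R255
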