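import Claimed.Agent.R255.Cl.Dich.Ops
import Claimed.Agent.R255.Cl.ToolsSeq
import Claimed.Agent.R255.Iso.Grid

/-!
# Row 255 (BR paper), chapter DICHOTOMY (P4.6-P4.8), package DC-ISO      (architect helper40; prefix `dc_`)
Plan and vocabulary: `Cl/DichDefs.lean`.  The owner of the package edits ONLY this file (helper lemmas above the contracts, or in `Cl/Dich/Iso/*.lean`).  Do not change the statements without asking helper40.

CUT (helper243).  Finite level: `S.iO ε u` = the canonical observation `O_u` on one system, `isoGeo ε` = its read-out at depth one (shape `(0,0)`, frame `0`, enlargement `1`).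
 `dc_cell_fin`   grid count
 `dc_iso_label`  `O_1` is a label
 `dc_iso_amb`    bounded ambiguity `H(O_1 | G) ≤ log 1944`
 `dc_iso_alph`   alphabet of `C_1`
 `dc_iso_dfc_eq`, `dc_iso_dfc_le`  the deficit of `O_1`
 then `dc_iso_pre`, `dc_sel_iso` (via `ts_master`), `dc_iso`.
-/

set_option autoImplicit false

namespace Claimed.Agent.R255

open Filter Topology
open Classical

/-- the canonical isotropic observation `O_u` on one system -/
noncomputable def CSys.iO (S : CSys) (ε u : ℝ) : S.Ω → ℤ × ℤ × ℤ :=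
  fun ω => iObs ε u (S.V (S.T ω)) (S.A (S.T ω)) (S.c ω)

/-- the read-out of `O_1`: shape `(0,0)`, frame `0` -/
noncomputable def isoGeo (ε : ℝ) (j : ℤ × ℤ × ℤ) : Geo :=
  ⟨0, 0, crep ε 1 j.1, 0, (0, 0), (crep ε 1 j.2.1, crep ε 1 j.2.2)⟩

theorem dc_iso_defs_forced : True := by
  have := @CSys.iO.eq_1
  have := @isoGeo.eq_1
  trivial

/-- The cells of depth `d` met by an interval of radius `r`. -/
theorem dc_cell_fin (ε d x₀ r : ℝ) (hr : 0 ≤ r) :
    ∃ F : Finset ℤ, (F.card : ℝ) ≤ 2 * r / msh ε d + 2 ∧ ∀ x, |x - x₀| ≤ r → tcell ε d x ∈ F := by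
  have hm := ig_msh_pos ε d
  refine ⟨Finset.Icc (tcell ε d (x₀ - r)) (tcell ε d (x₀ + r)), ?_, ?_⟩
  · rw [Int.card_Icc]
    have h1 := ig_cell_le ε d (x₀ + r)
    have h2 := ig_lt_cell ε d (x₀ - r)
    have h3 : ((tcell ε d (x₀ + r) : ℝ) - tcell ε d (x₀ - r) - 1) * msh ε d ≤ 2 * r := by nlinarith
    have h4 : (tcell ε d (x₀ + r) : ℝ) - tcell ε d (x₀ - r) - 1 ≤ 2 * r / msh ε d := by
      rw [le_div_iff₀ hm]; exact h3
    have h5 : 0 ≤ 2 * r / msh ε d := by positivity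
    rcases le_total 0 (tcell ε d (x₀ + r) + 1 - tcell ε d (x₀ - r)) with h | h
    · have h6 : (((tcell ε d (x₀ + r) + 1 - tcell ε d (x₀ - r)).toNat : ℕ) : ℝ) =
          ((tcell ε d (x₀ + r) + 1 - tcell ε d (x₀ - r) : ℤ) : ℝ) := by
        have := Int.toNat_of_nonneg h
        exact_mod_cast this
      rw [h6]
      push_cast
      linarith
    · rw [Int.toNat_of_nonpos h]
      simp only [Nat.cast_zero]
      linarith
  · intro x hx
    rw [abs_le] at hx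
    have hp : (0 : ℝ) ≤ 2 ^ (tlev ε d) := by positivity
    rw [Finset.mem_Icc]
    constructor
    · exact Int.floor_le_floor (mul_le_mul_of_nonneg_right (by linarith [hx.1]) hp)
    · exact Int.floor_le_floor (mul_le_mul_of_nonneg_right (by linarith [hx.2]) hp)

theorem dc_crep_cell (ε d x : ℝ) : crep ε d (tcell ε d x) = trep ε d x := rfl

/-- distance to the representative -/
theorem dc_trep_abs (ε d x : ℝ) (h0 : 0 < ε) : |x - trep ε d x| ≤ ε ^ d := by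
  have h1 := ig_trep_le ε d x
  have h2 := ig_lt_trep ε d x
  have h3 := ig_msh_le ε d h0
  rw [abs_le]
  constructor <;> linarith [Real.rpow_pos_of_pos h0 d]

/-- `O_1` is a label of shape `(0,0)`, duration and horizon one, enlargement one. -/
theorem dc_iso_label (S : CSys) (ε : ℝ) (h0 : 0 < ε) (hB : S.Bdd 1) :
    S.IsLabel 1 ε 1 1 (S.iO ε 1) (isoGeo ε) := by
  intro ω hω
  obtain ⟨hV1, hV2, -, -, -⟩ := hB ω hω
  refine ⟨le_refl _, le_refl _, by simp [isoGeo], ?_, ⟨?_, ?_⟩, ⟨?_, ?_⟩⟩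
  · rw [one_mul]
    exact dc_trep_abs ε 1 (S.c ω) h0
  · simpa [isoGeo, ip, tang] using hV1
  · simpa [isoGeo, ip, nrm] using hV2
  · have := dc_trep_abs ε 1 ((S.A (S.T ω)).1 + trep ε 1 (S.c ω) * (S.V (S.T ω)).1) h0
    simpa [isoGeo, ip, tang, CSys.iO, iObs, dc_crep_cell] using this
  · have := dc_trep_abs ε 1 ((S.A (S.T ω)).2 + trep ε 1 (S.c ω) * (S.V (S.T ω)).2) h0
    simpa [isoGeo, ip, nrm, CSys.iO, iObs, dc_crep_cell] using this

/-- a vector from its coordinates in a frame -/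
theorem dc_frame_abs (w : ℝ × ℝ) (th r : ℝ) (h1 : |ip w (tang th)| ≤ r) (h2 : |ip w (nrm th)| ≤ r) :
    |w.1| ≤ 2 * r ∧ |w.2| ≤ 2 * r := by
  have hc := Real.abs_cos_le_one th
  have hs := Real.abs_sin_le_one th
  have hcs := Real.cos_sq_add_sin_sq th
  have e1 : w.1 = ip w (tang th) * Real.cos th - ip w (nrm th) * Real.sin th := by
    simp only [ip, tang, nrm]
    linear_combination (- w.1) * hcs
  have e2 : w.2 = ip w (tang th) * Real.sin th + ip w (nrm th) * Real.cos th := by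
    simp only [ip, tang, nrm]
    linear_combination (- w.2) * hcs
  have hr : 0 ≤ r := (abs_nonneg _).trans h1
  have m1 : |ip w (tang th) * Real.cos th| ≤ r := by
    rw [abs_mul]; exact (mul_le_mul h1 hc (abs_nonneg _) hr).trans (by rw [mul_one])
  have m2 : |ip w (nrm th) * Real.sin th| ≤ r := by
    rw [abs_mul]; exact (mul_le_mul h2 hs (abs_nonneg _) hr).trans (by rw [mul_one])
  have m3 : |ip w (tang th) * Real.sin th| ≤ r := by
    rw [abs_mul]; exact (mul_le_mul h1 hs (abs_nonneg _) hr).trans (by rw [mul_one])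
  have m4 : |ip w (nrm th) * Real.cos th| ≤ r := by
    rw [abs_mul]; exact (mul_le_mul h2 hc (abs_nonneg _) hr).trans (by rw [mul_one])
  constructor
  · rw [e1]; exact (abs_sub _ _).trans (by linarith)
  · rw [e2]; exact (abs_add_le _ _).trans (by linarith)

/-- Bounded ambiguity. -/
theorem dc_iso_amb (S : CSys) (ε : ℝ) (h0 : 0 < ε) (h1 : ε < 1) (hB : S.Bdd 1) (G : S.Ω → LV)
    (hG : S.IsLabel 1 ε 1 1 G (rd 0 0)) : S.P.entC (S.iO ε 1) G ≤ Real.log 1944 := by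
  refine ent_entC_le_log_nval S.P _ _ ?_
  intro ω₀
  have hm := ig_msh_pos ε 1
  have hme : ε ≤ 2 * msh ε 1 := by
    have := ig_le_msh ε 1 h0 h1 zero_le_one
    rwa [Real.rpow_one] at this
  obtain ⟨F1, hF1, hm1⟩ := dc_cell_fin ε 1 (rd 0 0 (G ω₀)).tc ε h0.le
  obtain ⟨F2, hF2, hm2⟩ := dc_cell_fin ε 1 (rd 0 0 (G ω₀)).xc.1 (4 * ε) (by positivity)
  obtain ⟨F3, hF3, hm3⟩ := dc_cell_fin ε 1 (rd 0 0 (G ω₀)).xc.2 (4 * ε) (by positivity)
  have c1 : (F1.card : ℝ) ≤ 6 := by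
    refine hF1.trans ?_
    have : 2 * ε / msh ε 1 ≤ 4 := by rw [div_le_iff₀ hm]; linarith
    linarith
  have c2 : (F2.card : ℝ) ≤ 18 := by
    refine hF2.trans ?_
    have : 2 * (4 * ε) / msh ε 1 ≤ 16 := by rw [div_le_iff₀ hm]; linarith
    linarith
  have c3 : (F3.card : ℝ) ≤ 18 := by
    refine hF3.trans ?_
    have : 2 * (4 * ε) / msh ε 1 ≤ 16 := by rw [div_le_iff₀ hm]; linarith
    linarith
  refine ⟨F1 ×ˢ (F2 ×ˢ F3), ?_, ?_⟩
  · rw [Finset.card_product, Finset.card_product]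
    push_cast
    have c23 : (F2.card : ℝ) * F3.card ≤ 18 * 18 :=
      mul_le_mul c2 c3 (Nat.cast_nonneg _) (by norm_num)
    calc (F1.card : ℝ) * ((F2.card : ℝ) * F3.card) ≤ 6 * (18 * 18) :=
          mul_le_mul c1 c23 (by positivity) (by norm_num)
      _ = 1944 := by norm_num
  · intro ω hω _ hGω
    have hω' : 0 < S.P.p ω := lt_of_le_of_ne (S.P.nonneg ω) (Ne.symm hω)
    obtain ⟨hV1, hV2, -, -, -⟩ := hB ω hω'
    obtain ⟨-, -, -, hc, -, hx1, hx2⟩ := hG ω hω'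
    rw [hGω] at hc hx1 hx2
    have e1 : (rd 0 0 (G ω₀)).b + 1 = 1 := by simp [rd]
    have e2 : (rd 0 0 (G ω₀)).a + 1 = 1 := by simp [rd]
    rw [e1, one_mul, Real.rpow_one] at hx1
    rw [e2, one_mul, Real.rpow_one] at hx2
    rw [one_mul, Real.rpow_one] at hc
    obtain ⟨w1, w2⟩ := dc_frame_abs _ _ _ hx1 hx2
    have ht := dc_trep_abs ε 1 (S.c ω) h0
    rw [Real.rpow_one] at ht
    have hd : |trep ε 1 (S.c ω) - (rd 0 0 (G ω₀)).tc| ≤ 2 * ε := by
      have : trep ε 1 (S.c ω) - (rd 0 0 (G ω₀)).tc =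
          (S.c ω - (rd 0 0 (G ω₀)).tc) - (S.c ω - trep ε 1 (S.c ω)) := by ring
      rw [this]
      exact (abs_sub _ _).trans (by linarith)
    have p1 : |(trep ε 1 (S.c ω) - (rd 0 0 (G ω₀)).tc) * (S.V (S.T ω)).1| ≤ 2 * ε := by
      rw [abs_mul]
      exact (mul_le_mul hd hV1 (abs_nonneg _) (by positivity)).trans (by rw [mul_one])
    have p2 : |(trep ε 1 (S.c ω) - (rd 0 0 (G ω₀)).tc) * (S.V (S.T ω)).2| ≤ 2 * ε := by
      rw [abs_mul]
      exact (mul_le_mul hd hV2 (abs_nonneg _) (by positivity)).trans (by rw [mul_one])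
    simp only [Finset.mem_product, CSys.iO, iObs]
    refine ⟨hm1 _ hc, hm2 _ ?_, hm3 _ ?_⟩
    · have : (S.A (S.T ω)).1 + trep ε 1 (S.c ω) * (S.V (S.T ω)).1 - (rd 0 0 (G ω₀)).xc.1 =
          (S.A (S.T ω) + (rd 0 0 (G ω₀)).tc • S.V (S.T ω) - (rd 0 0 (G ω₀)).xc).1 +
            (trep ε 1 (S.c ω) - (rd 0 0 (G ω₀)).tc) * (S.V (S.T ω)).1 := by
        simp only [Prod.fst_sub, Prod.fst_add, Prod.smul_fst, smul_eq_mul]
        ring
      rw [this]
      exact (abs_add_le _ _).trans (by linarith)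
    · have : (S.A (S.T ω)).2 + trep ε 1 (S.c ω) * (S.V (S.T ω)).2 - (rd 0 0 (G ω₀)).xc.2 =
          (S.A (S.T ω) + (rd 0 0 (G ω₀)).tc • S.V (S.T ω) - (rd 0 0 (G ω₀)).xc).2 +
            (trep ε 1 (S.c ω) - (rd 0 0 (G ω₀)).tc) * (S.V (S.T ω)).2 := by
        simp only [Prod.snd_sub, Prod.snd_add, Prod.smul_snd, smul_eq_mul]
        ring
      rw [this]
      exact (abs_add_le _ _).trans (by linarith)

/-- The alphabet of `C_1`. -/
theorem dc_iso_alph (S : CSys) (ε : ℝ) (h0 : 0 < ε) (h1 : ε ≤ 1 / 5) (hB : S.Bdd 1) :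
    ∃ F : Finset ℤ, (F.card : ℝ) ≤ ε ^ (-(2 : ℝ)) ∧ ∀ ω, 0 < S.P.p ω → S.Ct ε 1 ω ∈ F := by
  obtain ⟨F, hF, hm⟩ := dc_cell_fin ε 1 0 1 zero_le_one
  refine ⟨F, hF.trans ?_, fun ω hω => hm _ ?_⟩
  · have hmp := ig_msh_pos ε 1
    have hme : ε ≤ 2 * msh ε 1 := by
      have := ig_le_msh ε 1 h0 (by linarith) zero_le_one
      rwa [Real.rpow_one] at this
    have a1 : 2 * 1 / msh ε 1 ≤ 4 / ε := by
      rw [div_le_div_iff₀ hmp h0]; linarith
    have a2 : ε ^ (-(2 : ℝ)) = 1 / ε ^ 2 := by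
      rw [Real.rpow_neg h0.le, one_div]
      congr 1
      exact_mod_cast Real.rpow_natCast ε 2
    have a3 : 4 / ε + 2 ≤ 1 / ε ^ 2 := by
      rw [le_div_iff₀ (by positivity)]
      have : (4 / ε + 2) * ε ^ 2 = 4 * ε + 2 * ε ^ 2 := by field_simp
      rw [this]
      nlinarith
    rw [a2]
    linarith
  · rw [sub_zero]
    exact (hB ω hω).2.2.2.2

/-- the deficit of `O_1` -/
theorem dc_iso_dfc_eq (S : CSys) (γ ε : ℝ) :
    S.deficit γ ε 1 1 (S.iO ε 1) (isoGeo ε) =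
      beta γ - (- (S.P.mi S.T (S.iO ε 1) / lg ε) + 2 * (S.P.entC (S.Ct ε 1) S.T / lg ε) - S.tau γ ε 1) := by
  have e : S.P.ev (fun ω => wt γ (isoGeo ε (S.iO ε 1 ω))) = 0 := by
    have : (fun ω => wt γ (isoGeo ε (S.iO ε 1 ω))) = fun _ => (0 : ℝ) := by
      funext ω
      simp [wt, isoGeo]
    rw [this, ent_ev_const]
  unfold CSys.deficit CSys.score CSys.St
  rw [e]
  ring

/-- comparison with an arbitrary label of shape `(0,0)` -/
theorem dc_iso_dfc_le (S : CSys) (γ ε : ℝ) (h0 : 0 < ε) (h1 : ε < 1) (hB : S.Bdd 1) (G : S.Ω → LV)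
    (hG : S.IsLabel 1 ε 1 1 G (rd 0 0)) :
    S.deficit γ ε 1 1 (S.iO ε 1) (isoGeo ε) ≤ S.deficit γ ε 1 1 G (rd 0 0) + Real.log 1944 / lg ε := by
  have hl := tl_lg_pos h0 h1
  have e : S.P.ev (fun ω => wt γ (isoGeo ε (S.iO ε 1 ω))) = 0 := by
    have : (fun ω => wt γ (isoGeo ε (S.iO ε 1 ω))) = fun _ => (0 : ℝ) := by
      funext ω
      simp [wt, isoGeo]
    rw [this, ent_ev_const]
  have e' : S.P.ev (fun ω => wt γ (rd 0 0 (G ω))) = 0 := by
    have : (fun ω => wt γ (rd 0 0 (G ω))) = fun _ => (0 : ℝ) := by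
      funext ω
      simp [wt, rd]
    rw [this, ent_ev_const]
  have m1 : S.P.mi S.T (S.iO ε 1) ≤ S.P.mi S.T (FLaw.pair (S.iO ε 1) G) :=
    ent_mi_mono S.P S.T _ _ fun ω ω' _ _ h => (Prod.mk.inj h).1
  have m2 := ent_mi_chain S.P S.T (S.iO ε 1) G
  have m3 := ent_miC_le_right S.P S.T (S.iO ε 1) G
  have m4 := dc_iso_amb S ε h0 h1 hB G hG
  have m5 : S.P.mi S.T (S.iO ε 1) / lg ε ≤ S.P.mi S.T G / lg ε + Real.log 1944 / lg ε := by
    rw [← add_div]
    exact div_le_div_of_nonneg_right (by linarith) hl.le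
  unfold CSys.deficit CSys.score
  rw [e, e']
  linarith

/-- `ℓ → ∞` along a sequence -/
theorem dc_lg_tendsto (Q : CSeq) : Tendsto (fun n => lg (Q.ε n)) uf atTop := by
  have h1 : Tendsto Q.ε uf (𝓝[>] 0) :=
    tendsto_nhdsWithin_iff.2 ⟨Q.lim, Eventually.of_forall fun n => (Q.pos n).1⟩
  have h2 : Tendsto (fun n => (Q.ε n)⁻¹) uf atTop := tendsto_inv_nhdsGT_zero.comp h1
  have h3 := Real.tendsto_log_atTop.comp h2
  refine h3.congr fun n => ?_
  simp [lg]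

/-- the saturation expression is `β` minus the deficit of `O_1` -/
theorem dc_iso_expr (Q : CSeq) (γ : ℝ) (n : ℕ) :
    - Q.seqI Q.T (Q.O 1) n + 2 * Q.seqHC (Q.C 1) Q.T n - Q.seqTau γ 1 n =
      beta γ - (Q.S n).deficit γ (Q.ε n) 1 1 ((Q.S n).iO (Q.ε n) 1) (isoGeo (Q.ε n)) := by
  rw [dc_iso_dfc_eq, sub_sub_cancel]
  rfl

/-- saturation in terms of the deficit -/
theorem dc_iso_sat_iff (Q : CSeq) (γ : ℝ) :
    Tendsto (fun n => - Q.seqI Q.T (Q.O 1) n + 2 * Q.seqHC (Q.C 1) Q.T n - Q.seqTau γ 1 n) uf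
        (𝓝 (beta γ)) ↔
      Tendsto (Q.dfc γ 1 1 (Q.O 1) (fun n => isoGeo (Q.ε n))) uf (𝓝 0) := by
  have e : (fun n => - Q.seqI Q.T (Q.O 1) n + 2 * Q.seqHC (Q.C 1) Q.T n - Q.seqTau γ 1 n) =
      fun n => beta γ - Q.dfc γ 1 1 (Q.O 1) (fun n => isoGeo (Q.ε n)) n := by
    funext n
    exact dc_iso_expr Q γ n
  rw [e]
  constructor
  · intro h
    have := (tendsto_const_nhds (x := beta γ)).sub h
    simpa using this
  · intro h
    have := (tendsto_const_nhds (x := beta γ)).sub h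
    simpa using this

/-- a saturated isotropic sequence with the canonical observation `O_1 = (C_1, [A + C_1 V]_1)`.
The `n`-th system realises `NS γ ε 0 (1/(n+1))`, `ε < 1/(n+1)`.  `H(O_1 | G) ≤ C` (bounded ambiguity), so `I(T;O_1) ≤ I(T;G) + C`; `O_1` is itself a label of shape `(0,0)`, duration and horizon `1` (enlargement `≤ 3`), so its deficit is `≥ -o(1)` (`dc_deficit_ge`). -/
theorem dc_iso_pre (γ : ℝ) (h0 : 0 < γ) (h1 : γ < 1) (hz : (0 : ℝ) ∈ AspSet γ) :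
    ∃ Q : CSeq, (∀ᶠ n in uf, (Q.S n).Bdd 1) ∧
      Tendsto (fun n => - Q.seqI Q.T (Q.O 1) n + 2 * Q.seqHC (Q.C 1) Q.T n - Q.seqTau γ 1 n) uf
        (𝓝 (beta γ)) := by
  have hch : ∀ n : ℕ, ∃ ε : ℝ, 0 < ε ∧ ε < 1 / ((n : ℝ) + 1) ∧ ε < 1 ∧ NS γ ε 0 (1 / ((n : ℝ) + 1)) :=
    fun n => hz.2 _ (by positivity) _ (by positivity)
  choose ε hε0 hεn hε1 hNS using hch
  choose S G hB _hTh hL hD using hNS
  have hlim : Tendsto ε atTop (𝓝 0) :=
    squeeze_zero (fun n => (hε0 n).le) (fun n => (hεn n).le) tendsto_one_div_add_atTop_nhds_zero_nat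
  let Q : CSeq := ⟨ε, S, fun n => ⟨hε0 n, hε1 n⟩, hlim.mono_left uf_le_atTop, 1, Eventually.of_forall hB⟩
  refine ⟨Q, Eventually.of_forall hB, (dc_iso_sat_iff Q γ).2 ?_⟩
  have hup : ∀ n, Q.dfc γ 1 1 (Q.O 1) (fun n => isoGeo (Q.ε n)) n ≤
      1 / ((n : ℝ) + 1) + Real.log 1944 / lg (Q.ε n) := by
    intro n
    have hL' : (S n).IsLabel 1 (ε n) 1 1 (G n) (rd 0 0) := by
      have := hL n
      rwa [add_zero] at this
    have hD' : (S n).deficit γ (ε n) 1 1 (G n) (rd 0 0) ≤ 1 / ((n : ℝ) + 1) := by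
      have := hD n
      rwa [add_zero] at this
    have := dc_iso_dfc_le (S n) γ (ε n) (hε0 n) (hε1 n) (hB n) (G n) hL'
    exact this.trans (by linarith)
  have hupl : Tendsto (fun n : ℕ => 1 / ((n : ℝ) + 1) + Real.log 1944 / lg (Q.ε n)) uf (𝓝 0) := by
    have a := (tendsto_one_div_add_atTop_nhds_zero_nat (𝕜 := ℝ)).mono_left uf_le_atTop
    have b : Tendsto (fun n : ℕ => Real.log 1944 / lg (Q.ε n)) uf (𝓝 0) :=
      (dc_lg_tendsto Q).const_div_atTop _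
    simpa using a.add b
  refine tendsto_order.2 ⟨fun a ha => ?_, fun a ha => ?_⟩
  · obtain ⟨ε₀, hε₀, -, hge⟩ := dc_deficit_ge γ 1 1 1 1 (- a / 2) h0 h1 one_pos (by linarith)
    have hev : ∀ᶠ n in uf, Q.ε n < ε₀ := Q.lim.eventually_lt_const hε₀
    filter_upwards [hev] with n hn
    have := hge (S n) (ε n) 1 1 _ ((S n).iO (ε n) 1) (isoGeo (ε n)) (hε0 n) hn (hB n)
      (Or.inr le_rfl) le_rfl le_rfl (dc_iso_label (S n) (ε n) (hε0 n) (hB n))
    have h2 : a < - (- a / 2) := by linarith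
    exact lt_of_lt_of_le h2 this
  · filter_upwards [hupl.eventually_lt_const ha] with n hn
    exact lt_of_le_of_lt (hup n) hn

/-- selection for the isotropic extremiser: bins of the surprise of `C_1` given `T` (mesh `→ 0` slowly), then cap classes (`tl_cap_regularize`, functions of `T`: they do not change `P(C_1 | T)`); a typical cell keeps the saturation (`tl_split_deficit` + `dc_deficit_ge` + Markov) -/
theorem dc_sel_iso (γ : ℝ) (h0 : 0 < γ) (h1 : γ < 1) (Q : CSeq) (hB : ∀ᶠ n in uf, (Q.S n).Bdd 1)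
    (hs : Tendsto (fun n => - Q.seqI Q.T (Q.O 1) n + 2 * Q.seqHC (Q.C 1) Q.T n - Q.seqTau γ 1 n) uf
      (𝓝 (beta γ))) : ∃ s : ℝ, Nonempty (Iso γ s) := by
  have hA : Q.Alph (Q.C 1) 2 := by
    have hev : ∀ᶠ n in uf, Q.ε n < 1 / 5 := Q.lim.eventually_lt_const (by norm_num)
    filter_upwards [hev, hB] with n hn hBn
    exact dc_iso_alph (Q.S n) (Q.ε n) (Q.pos n).1 hn.le hBn
  have hLab : Q.IsLab 1 1 1 (Q.O 1) (fun n => isoGeo (Q.ε n)) := by
    filter_upwards [hB] with n hBn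
    exact dc_iso_label (Q.S n) (Q.ε n) (Q.pos n).1 hBn
  have hTT : Q.toHC Q.T Q.T 0 := by
    have : Q.seqHC Q.T Q.T = fun _ => (0 : ℝ) := by
      funext n
      unfold CSeq.seqHC FLaw.entC
      rw [ent_pair_self, sub_self, zero_div]
    unfold CSeq.toHC
    rw [this]
    exact tendsto_const_nhds
  obtain ⟨E, hH, hC, hS, -⟩ := ts_master γ h0 h1 Q 1 zero_le_one (fun _ _ => ℤ) (fun _ n => (Q.S n).ι)
    (fun _ => Q.C 1) (fun _ => Q.T) (fun _ => 2) (fun _ => hA) (fun _ => 1) (fun _ => 1) (fun _ => 1)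
    (fun _ => one_pos) (fun _ => le_rfl) (fun _ _ => ℤ × ℤ × ℤ) (fun _ => Q.O 1)
    (fun _ n => isoGeo (Q.ε n)) (fun _ => hLab) (fun _ => (dc_iso_sat_iff Q γ).1 hs)
    (fun _ n => (Q.S n).ι) (fun _ n => (Q.S n).ι) (fun _ => Q.T) (fun _ => Q.T) (fun _ => hTT)
  obtain ⟨d, hd⟩ := hH 0
  exact ⟨d, ⟨⟨Q.condOn E, (dc_iso_sat_iff (Q.condOn E) γ).2 (hS 0), hd, hC⟩⟩⟩

theorem dc_iso (γ : ℝ) (h0 : 0 < γ) (h1 : γ < 1) (hz : (0 : ℝ) ∈ AspSet γ) : ∃ s : ℝ, Nonempty (Iso γ s) := by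
  obtain ⟨Q, hB, hs⟩ := dc_iso_pre γ h0 h1 hz
  exact dc_sel_iso γ h0 h1 Q hB hs

end Claimed.Agent.R255
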