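import Claimed.Agent.R255.Cl.Dich.Canon
import Claimed.Agent.R255.Cl.Dich.MExt.Hom

/-!
# Row 255 (BR paper), chapter DICHOTOMY (P4.6-P4.8), package DC-MEXT      (architect helper40; prefix `dc_`)
Plan and vocabulary: `Cl/DichDefs.lean`.  The owner of the package edits ONLY this file (helper lemmas above the contracts, or in `Cl/Dich/MExt/*.lean`).  Do not change the statements without asking helper40.
-/

set_option autoImplicit false

namespace Claimed.Agent.R255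

open Filter Topology
open Classical

/-- the matched plane is admissible -/
theorem dc_mxs_plane_adm (m i u : ℝ) (h0 : 0 < u) (h1 : u < 1) : (plane m i u).Adm m := by
  show (i + u) - i ≤ u ∧ (i + m * u) - i ≤ m * u ∧ (i + (1 + m) * u) - (i + m * u) ≤ u ∧
    (i + (1 + m) * u) - (i + u) ≤ m * u ∧ 0 < u ∧ u < 1
  exact ⟨by linarith, by linarith, by linarith, by linarith, h0, h1⟩

/-- entropy form of `dc_mobs_lip` -/
theorem dc_mxs_entC (m : ℝ) (hm : 0 ≤ m) : ∃ C : ℝ, ∀ (S : CSys) (ε ν : ℝ) (z z' : Cfg) (R : S.Ω → ℝ),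
    0 < ε → ε < 1 → z.Adm m → 0 ≤ ν → |z.LX - z'.LX| ≤ ν → |z.LY - z'.LY| ≤ ν → |z.LW - z'.LW| ≤ ν →
    |z.LZ - z'.LZ| ≤ ν → |z.v - z'.v| ≤ ν →
    S.P.entC (S.mO m ε z R) (S.mO m ε z' R) ≤ C * ν * lg ε + C := by
  obtain ⟨C, hC⟩ := dc_mobs_lip m hm
  refine ⟨C, fun S ε ν z z' R h0 h1 hz hν a1 a2 a3 a4 a5 => ?_⟩
  obtain ⟨N, hN, hcard⟩ := hC S ε ν z z' R h0 h1 hz hν a1 a2 a3 a4 a5
  have hV : S.P.NVal (fun _ => True) (S.mO m ε z R) (S.mO m ε z' R) (Real.exp (C * ν * lg ε + C)) := by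
    intro ω₀
    refine ⟨(Finset.univ.filter (fun ω => S.mO m ε z' R ω = S.mO m ε z' R ω₀)).image (S.mO m ε z R),
      (hcard _).trans hN, fun ω _ _ hA => ?_⟩
    exact Finset.mem_image_of_mem _ (Finset.mem_filter.2 ⟨Finset.mem_univ _, hA⟩)
  have := ent_entC_le_log_nval S.P _ _ hV
  rwa [Real.log_exp] at this

/-- `I(T;B) - I(T;A) ≤ H(B|A)` -/
theorem dc_mxs_mi_le {Ω α β δ : Type} [Fintype Ω] (P : FLaw Ω) (T : Ω → δ) (A : Ω → α) (B : Ω → β) :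
    P.mi T B - P.mi T A ≤ P.entC B A := by
  have a1 := ent_submod P T A B
  have a2 := ent_le_pair_left P (FLaw.pair T A) B
  have a3 := ent_pair_comm P A B
  show (P.ent T + P.ent B - P.ent (FLaw.pair T B)) - (P.ent T + P.ent A - P.ent (FLaw.pair T A))
    ≤ P.ent (FLaw.pair B A) - P.ent A
  linarith

/-- `b` is Lipschitz on `(0,1)` -/
theorem dc_mxs_b_lip {γ m : ℝ} (M : Matched γ m) (u u' : ℝ) (h0 : 0 < u) (h1 : u < 1)
    (h0' : 0 < u') (h1' : u' < 1) : |M.b u - M.b u'| ≤ (1 + m) * |u - u'| := by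
  rcases le_total u u' with h | h
  · have a1 := M.b_anti u u' h0 h h1'
    have a2 := M.b_lip u u' h0 h h1'
    rw [abs_of_nonneg (by linarith), abs_of_nonpos (by linarith)]
    linarith
  · have a1 := M.b_anti u' u h0' h h1
    have a2 := M.b_lip u' u h0' h h1
    rw [abs_of_nonpos (by linarith), abs_of_nonneg (by linarith)]
    linarith

/-- the time entropy is Lipschitz up to `log 2 / ℓ` -/
theorem dc_mxs_St_lip (S : CSys) (ε u u' : ℝ) (e0 : 0 < ε) (e1 : ε < 1) (h0 : 0 < u) (h0' : 0 < u') :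
    |S.St ε u - S.St ε u'| ≤ |u - u'| + Real.log 2 / lg ε := by
  have hl := tl_tau_lg_pos e0 e1
  have h2 : 0 ≤ Real.log 2 / lg ε := div_nonneg (Real.log_nonneg (by norm_num)) hl.le
  rcases le_total u u' with h | h
  · have a1 := tl_St_mono S ε u u' e0 e1 h
    have a2 := tl_St_incr S ε u u' e0 e1 h0.le h
    rw [abs_of_nonpos (by linarith), abs_of_nonpos (by linarith)]
    linarith
  · have a1 := tl_St_mono S ε u' u e0 e1 h
    have a2 := tl_St_incr S ε u' u e0 e1 h0'.le h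
    rw [abs_of_nonneg (by linarith), abs_of_nonneg (by linarith)]
    linarith

/-- the information of the contact observation is Lipschitz in the duration up to `C / ℓ` -/
theorem dc_mxs_mi_lip {γ m : ℝ} (hm : 0 < m) : ∃ C : ℝ, 0 ≤ C ∧ ∀ (M : Matched γ m) (u u' : ℝ), 0 < u → u < 1 →
    0 < u' → u' < 1 → ∀ n, |M.Q.seqI M.Q.T (M.O (plane m (M.b u) u)) n
      - M.Q.seqI M.Q.T (M.O (plane m (M.b u') u')) n| ≤ C * |u - u'| + C / lg (M.Q.ε n) := by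
  obtain ⟨C, hC⟩ := dc_mxs_entC m hm.le
  refine ⟨|C| * (2 * (1 + m)) + |C|, by positivity, fun M u u' h0 h1 h0' h1' n => ?_⟩
  obtain ⟨e0, e1⟩ := M.Q.pos n
  have hl := tl_tau_lg_pos e0 e1
  have hb := dc_mxs_b_lip M u u' h0 h1 h0' h1'
  have hb' : |M.b u' - M.b u| ≤ (1 + m) * |u - u'| := by rwa [abs_sub_comm]
  have hd : 0 ≤ |u - u'| := abs_nonneg _
  have hd' : |u' - u| = |u - u'| := abs_sub_comm _ _
  have hν : 0 ≤ 2 * (1 + m) * |u - u'| := by positivity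
  have key : ∀ (x y v v' : ℝ), |x - y| ≤ (1 + m) * |u - u'| → |v - v'| = |u - u'| →
      |x - y| ≤ 2 * (1 + m) * |u - u'| ∧ |(x + v) - (y + v')| ≤ 2 * (1 + m) * |u - u'| ∧
      |(x + m * v) - (y + m * v')| ≤ 2 * (1 + m) * |u - u'| ∧
      |(x + (1 + m) * v) - (y + (1 + m) * v')| ≤ 2 * (1 + m) * |u - u'| ∧
      |v - v'| ≤ 2 * (1 + m) * |u - u'| := by
    intro x y v v' hxy hv
    have hmd : 0 ≤ m * |u - u'| := by positivity
    refine ⟨by nlinarith, ?_, ?_, ?_, by rw [hv]; nlinarith⟩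
    · have : (x + v) - (y + v') = (x - y) + (v - v') := by ring
      rw [this]
      refine (abs_add_le _ _).trans ?_
      rw [hv]
      nlinarith
    · have : (x + m * v) - (y + m * v') = (x - y) + m * (v - v') := by ring
      rw [this]
      refine (abs_add_le _ _).trans ?_
      rw [abs_mul, hv, abs_of_pos hm]
      nlinarith
    · have : (x + (1 + m) * v) - (y + (1 + m) * v') = (x - y) + (1 + m) * (v - v') := by ring
      rw [this]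
      refine (abs_add_le _ _).trans ?_
      rw [abs_mul, hv, abs_of_pos (by linarith : (0 : ℝ) < 1 + m)]
      nlinarith
  obtain ⟨k1, k2, k3, k4, k5⟩ := key (M.b u) (M.b u') u u' hb rfl
  obtain ⟨j1, j2, j3, j4, j5⟩ := key (M.b u') (M.b u) u' u hb' hd'
  have E1 := hC (M.Q.S n) (M.Q.ε n) (2 * (1 + m) * |u - u'|) (plane m (M.b u) u) (plane m (M.b u') u') (M.R n)
    e0 e1 (dc_mxs_plane_adm m _ u h0 h1) hν k1 k2 k3 k4 k5
  have E2 := hC (M.Q.S n) (M.Q.ε n) (2 * (1 + m) * |u - u'|) (plane m (M.b u') u') (plane m (M.b u) u) (M.R n)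
    e0 e1 (dc_mxs_plane_adm m _ u' h0' h1') hν j1 j2 j3 j4 j5
  have E3 := dc_mxs_mi_le (M.Q.S n).P (M.Q.S n).T ((M.Q.S n).mO m (M.Q.ε n) (plane m (M.b u') u') (M.R n))
    ((M.Q.S n).mO m (M.Q.ε n) (plane m (M.b u) u) (M.R n))
  have E3' := dc_mxs_mi_le (M.Q.S n).P (M.Q.S n).T ((M.Q.S n).mO m (M.Q.ε n) (plane m (M.b u) u) (M.R n))
    ((M.Q.S n).mO m (M.Q.ε n) (plane m (M.b u') u') (M.R n))
  have E4 : |(M.Q.S n).P.mi (M.Q.S n).T ((M.Q.S n).mO m (M.Q.ε n) (plane m (M.b u) u) (M.R n))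
      - (M.Q.S n).P.mi (M.Q.S n).T ((M.Q.S n).mO m (M.Q.ε n) (plane m (M.b u') u') (M.R n))|
      ≤ C * (2 * (1 + m) * |u - u'|) * lg (M.Q.ε n) + C := by
    rw [abs_le]
    constructor <;> linarith
  show |(M.Q.S n).P.mi (M.Q.S n).T ((M.Q.S n).mO m (M.Q.ε n) (plane m (M.b u) u) (M.R n)) / lg (M.Q.ε n)
    - (M.Q.S n).P.mi (M.Q.S n).T ((M.Q.S n).mO m (M.Q.ε n) (plane m (M.b u') u') (M.R n)) / lg (M.Q.ε n)| ≤ _
  rw [← sub_div, abs_div, abs_of_pos hl, div_le_iff₀ hl]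
  refine E4.trans ?_
  have c1 : C ≤ |C| := le_abs_self C
  have c0 : 0 ≤ |C| := abs_nonneg C
  have t1 : C * (2 * (1 + m) * |u - u'|) * lg (M.Q.ε n) ≤ |C| * (2 * (1 + m) * |u - u'|) * lg (M.Q.ε n) :=
    mul_le_mul_of_nonneg_right (mul_le_mul_of_nonneg_right c1 hν) hl.le
  have t2 : ((|C| * (2 * (1 + m)) + |C|) * |u - u'| + (|C| * (2 * (1 + m)) + |C|) / lg (M.Q.ε n)) * lg (M.Q.ε n)
      = (|C| * (2 * (1 + m)) + |C|) * |u - u'| * lg (M.Q.ε n) + (|C| * (2 * (1 + m)) + |C|) := by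
    field_simp
  rw [t2]
  have t3 : 0 ≤ |C| * |u - u'| * lg (M.Q.ε n) := by positivity
  have t4 : 0 ≤ |C| * (2 * (1 + m)) := by positivity
  nlinarith

/-- dyadic times `< 1` are dense in `(0,1)` -/
theorem dc_mxs_dense (u δ : ℝ) (h0 : 0 < u) (h1 : u < 1) (hδ : 0 < δ) :
    ∃ u' ∈ Dy, 0 < u' ∧ u' < 1 ∧ |u - u'| < δ := by
  obtain ⟨k, hk⟩ := exists_pow_lt_of_lt_one (lt_min hδ h0) (by norm_num : (1 / 2 : ℝ) < 1)
  have hk1 : (1 / 2 : ℝ) ^ k < δ := hk.trans_le (min_le_left _ _)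
  have hk2 : (1 / 2 : ℝ) ^ k < u := hk.trans_le (min_le_right _ _)
  have hp : (0 : ℝ) < 2 ^ k := by positivity
  have hinv : (1 / 2 : ℝ) ^ k = 1 / 2 ^ k := by rw [div_pow, one_pow]
  rw [hinv] at hk1 hk2
  have hu2 : 1 < u * 2 ^ k := by rwa [div_lt_iff₀ hp] at hk2
  have f1 : (⌊u * 2 ^ k⌋₊ : ℝ) ≤ u * 2 ^ k := Nat.floor_le (by positivity)
  have f2 : u * 2 ^ k < (⌊u * 2 ^ k⌋₊ : ℝ) + 1 := Nat.lt_floor_add_one _
  have f3 : 0 < ⌊u * 2 ^ k⌋₊ := Nat.floor_pos.2 hu2.le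
  have f3' : (0 : ℝ) < (⌊u * 2 ^ k⌋₊ : ℝ) := by exact_mod_cast f3
  have f4 : (⌊u * 2 ^ k⌋₊ : ℝ) / 2 ^ k ≤ u := by rwa [div_le_iff₀ hp]
  have f5 : ⌊u * 2 ^ k⌋₊ ≤ 2 ^ k := by
    have : (⌊u * 2 ^ k⌋₊ : ℝ) ≤ ((2 ^ k : ℕ) : ℝ) := by
      push_cast
      nlinarith
    exact_mod_cast this
  refine ⟨(⌊u * 2 ^ k⌋₊ : ℝ) / 2 ^ k, ⟨k, ⌊u * 2 ^ k⌋₊, f3, f5, rfl⟩, by positivity, by linarith, ?_⟩
  rw [abs_of_nonneg (by linarith)]
  have f6 : u - (⌊u * 2 ^ k⌋₊ : ℝ) / 2 ^ k < 1 / 2 ^ k := by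
    rw [sub_lt_iff_lt_add, ← add_div, lt_div_iff₀ hp]
    linarith
  linarith

/-- saturation at all real durations (`dc_mobs_lip`, `b` Lipschitz, `tl_St_incr`, `dc_canon_label`, `dc_deficit_ge`) -/
theorem dc_sat_ext {γ m : ℝ} (h0 : 0 < γ) (h1 : γ < 1) (hm : 0 < m) (M : Matched γ m) (hM : M.Pre) :
    ∀ u, 0 < u → u < 1 → M.SatAt u := by
  intro u hu0 hu1
  obtain ⟨C, hC0, hC⟩ := dc_mxs_mi_lip (γ := γ) hm
  show Tendsto (fun n => 2 * M.b u + (1 - γ) * m * u - M.Q.seqI M.Q.T (M.O (plane m (M.b u) u)) n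
    + 2 * M.Q.seqHC (M.Q.C u) M.Q.T n - M.Q.seqTau γ (1 + m) n) uf (𝓝 (beta γ * u))
  rw [Metric.tendsto_nhds]
  intro η hη
  have hK : 0 < 2 * (1 + m) + (1 - γ) * m + C + 2 + |beta γ| := by
    have : 0 ≤ (1 - γ) * m := mul_nonneg (by linarith) hm.le
    positivity
  obtain ⟨u', hD, hu0', hu1', hclose⟩ := dc_mxs_dense u (η / (4 * (2 * (1 + m) + (1 - γ) * m + C + 2 + |beta γ|)))
    hu0 hu1 (by positivity)
  have s1 : Tendsto (fun n => 2 * M.b u' + (1 - γ) * m * u' - M.Q.seqI M.Q.T (M.O (plane m (M.b u') u')) n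
    + 2 * M.Q.seqHC (M.Q.C u') M.Q.T n - M.Q.seqTau γ (1 + m) n) uf (𝓝 (beta γ * u')) := (hM u' hD hu1').1
  have s2 := (Metric.tendsto_nhds.1 s1) (η / 4) (by positivity)
  obtain ⟨ε₀, he0, -, hε⟩ := dc_small_err (C + 2 * Real.log 2) (η / 4) (by positivity)
  have s3 : ∀ᶠ n in uf, M.Q.ε n < ε₀ := M.Q.lim.eventually (Iio_mem_nhds he0)
  filter_upwards [s2, s3] with n a b
  obtain ⟨e0, e1⟩ := M.Q.pos n
  have hl := tl_tau_lg_pos e0 e1
  have g1 := hC M u u' hu0 hu1 hu0' hu1' n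
  have g2 := dc_mxs_b_lip M u u' hu0 hu1 hu0' hu1'
  have g3 : |M.Q.seqHC (M.Q.C u) M.Q.T n - M.Q.seqHC (M.Q.C u') M.Q.T n| ≤ |u - u'| + Real.log 2 / lg (M.Q.ε n) :=
    dc_mxs_St_lip (M.Q.S n) (M.Q.ε n) u u' e0 e1 hu0 hu0'
  have g4 := hε (M.Q.ε n) e0 b
  rw [add_div, mul_div_assoc] at g4
  have g5 : (2 * (1 + m) + (1 - γ) * m + C + 2 + |beta γ|) * |u - u'| < η / 4 := by
    rw [lt_div_iff₀ (by positivity)] at hclose
    linarith
  have g6 : |(1 - γ) * m * u - (1 - γ) * m * u'| = (1 - γ) * m * |u - u'| := by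
    rw [← mul_sub, abs_mul, abs_of_nonneg (mul_nonneg (by linarith) hm.le)]
  have g7 : |beta γ * u' - beta γ * u| = |beta γ| * |u - u'| := by
    rw [← mul_sub, abs_mul, abs_sub_comm]
  rw [Real.dist_eq] at a ⊢
  rw [abs_lt] at a ⊢
  rw [abs_le] at g1 g2 g3
  have g6' := abs_le.1 g6.le
  have g7' := abs_le.1 g7.le
  constructor <;> nlinarith [g1.1, g1.2, g2.1, g2.2, g3.1, g3.2, g6'.1, g6'.2, g7'.1, g7'.2, a.1, a.2]

/-- the dyadic times are dense from below in `(0, 1)` -/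
theorem dc_mx_dy_below (u δ : ℝ) (h0 : 0 < u) (h1 : u < 1) (hδ : 0 < δ) :
    ∃ u' ∈ Dy, u' ≤ u ∧ u - u' < δ ∧ 0 < u' ∧ u' < 1 := by
  obtain ⟨k, hk⟩ := exists_pow_lt_of_lt_one (lt_min hδ h0) (by norm_num : (1 / 2 : ℝ) < 1)
  have hk1 : (1 / 2 : ℝ) ^ k < δ := hk.trans_le (min_le_left _ _)
  have hk2 : (1 / 2 : ℝ) ^ k < u := hk.trans_le (min_le_right _ _)
  have hp : (0 : ℝ) < 2 ^ k := by positivity
  have e : (1 / 2 : ℝ) ^ k = 1 / 2 ^ k := by rw [div_pow, one_pow]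
  rw [e] at hk1 hk2
  have hu2 : 1 < u * 2 ^ k := by rwa [div_lt_iff₀ hp] at hk2
  have hfl : (⌊u * 2 ^ k⌋₊ : ℝ) ≤ u * 2 ^ k := Nat.floor_le (by positivity)
  have hfl2 : u * 2 ^ k < (⌊u * 2 ^ k⌋₊ : ℝ) + 1 := Nat.lt_floor_add_one _
  have hj0 : 0 < ⌊u * 2 ^ k⌋₊ := Nat.floor_pos.2 hu2.le
  have hj0' : (0 : ℝ) < (⌊u * 2 ^ k⌋₊ : ℝ) := by exact_mod_cast hj0
  have hle : (⌊u * 2 ^ k⌋₊ : ℝ) / 2 ^ k ≤ u := by rwa [div_le_iff₀ hp]
  refine ⟨(⌊u * 2 ^ k⌋₊ : ℝ) / 2 ^ k, ⟨k, ⌊u * 2 ^ k⌋₊, hj0, ?_, rfl⟩, hle, ?_, by positivity,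
    lt_of_le_of_lt hle h1⟩
  · have : (⌊u * 2 ^ k⌋₊ : ℝ) ≤ ((2 ^ k : ℕ) : ℝ) := by
      push_cast
      nlinarith
    exact_mod_cast this
  · have : u < (⌊u * 2 ^ k⌋₊ : ℝ) / 2 ^ k + 1 / 2 ^ k := by
      rw [← add_div, lt_div_iff₀ hp]
      exact hfl2
    linarith

/-- refining a dyadic prefix from depth `d'` to depth `d` costs at most `(d - d') ℓ + log 2` -/
theorem dc_mx_refine {Ω : Type} [Fintype Ω] (P : FLaw Ω) {β : Type} (R : Ω → ℝ) (X : Ω → β) (ε d' d : ℝ)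
    (h0 : 0 < ε) (h1 : ε < 1) (hd' : 0 ≤ d') (h : d' ≤ d) :
    P.entC (fun ω => tcell ε d (R ω)) X ≤
      P.entC (fun ω => tcell ε d' (R ω)) X + (d - d') * lg ε + Real.log 2 := by
  have hlam := tl_logb_pos h0 h1
  have hmn := tl_tlev_mono h0 h1 h
  have a1 : P.entC (fun ω => tcell ε d (R ω)) X ≤
      P.entC (FLaw.pair (fun ω => tcell ε d' (R ω)) (fun ω => tcell ε d (R ω))) X :=
    ent_entC_mono P _ _ X fun ω ω' _ _ hc _ => congrArg Prod.snd hc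
  rw [ent_entC_chain] at a1
  have hN : P.NVal (fun _ => True) (fun ω => tcell ε d (R ω))
      (FLaw.pair (fun ω => tcell ε d' (R ω)) X) ((2 : ℝ) ^ (tlev ε d - tlev ε d')) := by
    intro ω₀
    refine ⟨Finset.Ico (tcell ε d' (R ω₀) * 2 ^ (tlev ε d - tlev ε d'))
      ((tcell ε d' (R ω₀) + 1) * 2 ^ (tlev ε d - tlev ε d')), ?_, ?_⟩
    · rw [Int.card_Ico]
      have e : (tcell ε d' (R ω₀) + 1) * 2 ^ (tlev ε d - tlev ε d') -
          tcell ε d' (R ω₀) * 2 ^ (tlev ε d - tlev ε d') = ((2 ^ (tlev ε d - tlev ε d') : ℕ) : ℤ) := by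
        push_cast
        ring
      rw [e, Int.toNat_natCast]
      push_cast
      exact le_refl _
    · intro ω _ _ hA
      have hr : tcell ε d' (R ω) = tcell ε d' (R ω₀) := congrArg Prod.fst hA
      rw [← hr, Finset.mem_Ico]
      exact tl_cell_range (R ω) hmn
  have e1 := ent_entC_le_log_nval P _ _ hN
  rw [Real.log_pow] at e1
  have e2 : ((tlev ε d - tlev ε d' : ℕ) : ℝ) ≤ (d - d') * Real.logb 2 (1 / ε) + 1 := by
    rw [Nat.cast_sub hmn]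
    have b1 : (tlev ε d : ℝ) < d * Real.logb 2 (1 / ε) + 1 :=
      Nat.ceil_lt_add_one (mul_nonneg (hd'.trans h) hlam.le)
    have b2 : d' * Real.logb 2 (1 / ε) ≤ (tlev ε d' : ℝ) := Nat.le_ceil _
    linarith
  have e3 := mul_le_mul_of_nonneg_right e2 (Real.log_pos (by norm_num : (1 : ℝ) < 2)).le
  rw [add_mul, mul_assoc, tl_logb_mul_log, one_mul] at e3
  linarith

/-- prediction at all real durations (`C_u` refines `C_{u'}` for dyadic `u' ≤ u`; refining the slope prefix costs `m (u - u')`) -/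
theorem dc_pred_ext {γ m : ℝ} (hm : 0 < m) (M : Matched γ m) (hM : M.Pre) :
    ∀ u, 0 < u → u < 1 → M.PredAt u := by
  intro u hu0 hu1
  unfold Matched.PredAt CSeq.toHC
  rw [Metric.tendsto_nhds]
  intro η hη
  obtain ⟨u', hDy, hle, hclose, hu'0, hu'1⟩ := dc_mx_dy_below u (η / (3 * m)) hu0 hu1 (by positivity)
  have hP : M.PredAt u' := (hM u' hDy hu'1).2
  unfold Matched.PredAt CSeq.toHC at hP
  rw [Metric.tendsto_nhds] at hP
  obtain ⟨ε₀, hε₀, -, hsmall⟩ := dc_small_err (Real.log 2) (η / 3) (by positivity)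
  have hev : ∀ᶠ n in uf, M.Q.ε n < ε₀ := M.Q.lim.eventually (Iio_mem_nhds hε₀)
  filter_upwards [hP (η / 3) (by positivity), hev] with n h1 h2
  obtain ⟨e0, e1⟩ := M.Q.pos n
  have hl : 0 < lg (M.Q.ε n) := tl_tau_lg_pos e0 e1
  have h3 := hsmall (M.Q.ε n) e0 h2
  rw [Real.dist_eq, sub_zero] at h1 ⊢
  have hnn : 0 ≤ M.Q.seqHC (M.Rd (m * u)) (M.Q.pr2 M.Q.T (M.Q.C u)) n :=
    div_nonneg (ent_entC_nonneg _ _ _) hl.le
  rw [abs_of_nonneg hnn]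
  have h4 := le_abs_self (M.Q.seqHC (M.Rd (m * u')) (M.Q.pr2 M.Q.T (M.Q.C u')) n)
  have key : M.Q.seqHC (M.Rd (m * u)) (M.Q.pr2 M.Q.T (M.Q.C u)) n ≤
      M.Q.seqHC (M.Rd (m * u')) (M.Q.pr2 M.Q.T (M.Q.C u')) n + m * (u - u') + Real.log 2 / lg (M.Q.ε n) := by
    unfold CSeq.seqHC
    have a1 := dc_mx_refine (M.Q.S n).P (M.R n) (M.Q.pr2 M.Q.T (M.Q.C u) n) (M.Q.ε n) (m * u') (m * u) e0 e1
      (by positivity) (mul_le_mul_of_nonneg_left hle hm.le)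
    have a2 : (M.Q.S n).P.entC (fun ω => tcell (M.Q.ε n) (m * u') (M.R n ω)) (M.Q.pr2 M.Q.T (M.Q.C u) n) ≤
        (M.Q.S n).P.entC (fun ω => tcell (M.Q.ε n) (m * u') (M.R n ω)) (M.Q.pr2 M.Q.T (M.Q.C u') n) := by
      refine ent_entC_anti _ _ _ _ fun ω ω' _ _ hc => ?_
      have c1 : (M.Q.S n).T ω = (M.Q.S n).T ω' := congrArg Prod.fst hc
      have c2 : (M.Q.S n).Ct (M.Q.ε n) u ω = (M.Q.S n).Ct (M.Q.ε n) u ω' := congrArg Prod.snd hc
      exact Prod.ext c1 (tl_Ct_det (M.Q.S n) e0 e1 hle c2)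
    have a3 : (M.Q.S n).P.entC (M.Rd (m * u) n) (M.Q.pr2 M.Q.T (M.Q.C u) n) ≤
        (M.Q.S n).P.entC (M.Rd (m * u') n) (M.Q.pr2 M.Q.T (M.Q.C u') n) + (m * u - m * u') * lg (M.Q.ε n)
          + Real.log 2 := by
      have := a1.trans (add_le_add_left (add_le_add_left a2 _) _)
      exact this
    have a4 := div_le_div_of_nonneg_right a3 hl.le
    rw [add_div, add_div, mul_div_assoc, div_self hl.ne', mul_one] at a4
    linarith
  have h5 : m * (u - u') < η / 3 := by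
    have := mul_lt_mul_of_pos_left hclose hm
    have e : m * (η / (3 * m)) = η / 3 := by field_simp
    linarith
  linarith

/-- homogeneity at all real admissible symbols (L2.9 (2)): rational admissible symbols are dense in the admissible ones; `sur(Y_z|X) - sur(Y_z'|X) = sur(Y_z|Y_z',X) - sur(Y_z'|Y_z,X)`, tail of a conditional surprise with at most `N` values: `P(sur > log N + t) ≤ e^(-t)` -/
theorem dc_hom_ext {γ m : ℝ} (hm : 0 < m) (M : Matched γ m)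
    (h : ∀ zs zs' : List Sym, (∀ z ∈ zs, z.Adm m ∧ z.IsQ) → (∀ z ∈ zs', z.Adm m ∧ z.IsQ) → M.HomAt zs zs') :
    ∀ zs zs' : List Sym, (∀ z ∈ zs, z.Adm m) → (∀ z ∈ zs', z.Adm m) → M.HomAt zs zs' :=
  dc_hx_main hm M h

end Claimed.Agent.R255
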