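import Claimed.Agent.R255.Cl.Dich.Ops
import Claimed.Agent.R255.Ent.Restr

/-!
# Row 255 (BR paper), chapter DICHOTOMY (P4.6-P4.8), package DC-CANON      (architect helper40; prefix `dc_`)
Plan and vocabulary: `Cl/DichDefs.lean`.  The owner of the package edits ONLY this file (helper lemmas above the contracts, or in `Cl/Dich/Canon/*.lean`).  Do not change the statements without asking helper40.
-/

set_option autoImplicit false

namespace Claimed.Agent.R255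

open Filter Topology
open Classical

/-! # TOOLKIT (helper63; prefix `dc_cn_`): cells, counting, angles, entropy from counting.  All PROVED; use freely. -/

/-! ## toolkit: dyadic cells -/

/-- `2^(tlev ε d) = ` at least `ε^(-d)`: cells of depth `d` have length at most `ε^d` (all real `d`) -/
theorem dc_cn_len_le {ε : ℝ} (h0 : 0 < ε) (h1 : ε < 1) (d : ℝ) : 1 / (2 : ℝ) ^ (tlev ε d) ≤ ε ^ d := by
  have hl := tl_logb_pos h0 h1
  have a2 : d * Real.logb 2 (1 / ε) ≤ (tlev ε d : ℝ) := Nat.le_ceil _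
  have e1 : ε ^ d = (2 : ℝ) ^ (-(d * Real.logb 2 (1 / ε))) := by
    have : ε = (2 : ℝ) ^ (-Real.logb 2 (1 / ε)) := by
      rw [Real.rpow_neg (by norm_num), Real.rpow_logb (by norm_num) (by norm_num) (by positivity)]
      simp
    conv_lhs => rw [this]
    rw [← Real.rpow_mul (by norm_num)]
    congr 1
    ring
  rw [e1, one_div, ← Real.rpow_natCast, ← Real.rpow_neg (by norm_num)]
  exact Real.rpow_le_rpow_of_exponent_le (by norm_num) (by linarith)

/-- cells of depth `d ≥ 0` have length at least `ε^d / 2` -/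
theorem dc_cn_lev_le {ε : ℝ} (h0 : 0 < ε) (h1 : ε < 1) {d : ℝ} (hd : 0 ≤ d) :
    (2 : ℝ) ^ (tlev ε d) ≤ 2 * ε ^ (-d) := by
  have hl := tl_logb_pos h0 h1
  have a1 : (tlev ε d : ℝ) < d * Real.logb 2 (1 / ε) + 1 := Nat.ceil_lt_add_one (mul_nonneg hd hl.le)
  have e1 : ε ^ (-d) = (2 : ℝ) ^ (d * Real.logb 2 (1 / ε)) := by
    have : ε = (2 : ℝ) ^ (-Real.logb 2 (1 / ε)) := by
      rw [Real.rpow_neg (by norm_num), Real.rpow_logb (by norm_num) (by norm_num) (by positivity)]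
      simp
    conv_lhs => rw [this]
    rw [← Real.rpow_mul (by norm_num)]
    congr 1
    ring
  rw [e1, ← Real.rpow_natCast]
  calc (2 : ℝ) ^ ((tlev ε d : ℕ) : ℝ) ≤ (2 : ℝ) ^ (d * Real.logb 2 (1 / ε) + 1) :=
        Real.rpow_le_rpow_of_exponent_le (by norm_num) a1.le
    _ = 2 * (2 : ℝ) ^ (d * Real.logb 2 (1 / ε)) := by
        rw [Real.rpow_add (by norm_num), Real.rpow_one]; ring

/-- negative depths are depth zero -/
theorem dc_cn_tlev_max {ε : ℝ} (h0 : 0 < ε) (h1 : ε < 1) (d : ℝ) : tlev ε d = tlev ε (max d 0) := by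
  have hl := tl_logb_pos h0 h1
  rcases le_total 0 d with h | h
  · rw [max_eq_left h]
  · rw [max_eq_right h]
    unfold tlev
    rw [zero_mul, Nat.ceil_zero, Nat.ceil_eq_zero]
    exact mul_nonpos_of_nonpos_of_nonneg h hl.le

/-- `0 ≤ c - trep ε d c ≤ ε^d` -/
theorem dc_cn_trep {ε : ℝ} (h0 : 0 < ε) (h1 : ε < 1) (d c : ℝ) :
    0 ≤ c - trep ε d c ∧ c - trep ε d c ≤ ε ^ d := by
  have hp : (0 : ℝ) < 2 ^ (tlev ε d) := by positivity
  have a1 := Int.floor_le (c * 2 ^ (tlev ε d))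
  have a2 := Int.lt_floor_add_one (c * 2 ^ (tlev ε d))
  have hlen := dc_cn_len_le h0 h1 d
  unfold trep tcell
  constructor
  · rw [sub_nonneg, div_le_iff₀ hp]
    exact a1
  · refine le_trans ?_ hlen
    rw [sub_le_iff_le_add, ← add_div, le_div_iff₀ hp]
    linarith

theorem dc_cn_trep_abs {ε : ℝ} (h0 : 0 < ε) (h1 : ε < 1) (d c : ℝ) : |c - trep ε d c| ≤ ε ^ d := by
  obtain ⟨a, b⟩ := dc_cn_trep h0 h1 d c
  rw [abs_of_nonneg a]
  exact b

/-- `trep` is the representative of the cell index -/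
theorem dc_cn_crep (ε d c : ℝ) : crep ε d (tcell ε d c) = trep ε d c := rfl

/-- two points of one cell -/
theorem dc_cn_same {ε : ℝ} (h0 : 0 < ε) (h1 : ε < 1) {d c c' : ℝ} (h : tcell ε d c = tcell ε d c') :
    |c - c'| ≤ ε ^ d := by
  obtain ⟨a, b⟩ := dc_cn_trep h0 h1 d c
  obtain ⟨a', b'⟩ := dc_cn_trep h0 h1 d c'
  have e : trep ε d c = trep ε d c' := by unfold trep; rw [h]
  rw [abs_le]
  constructor <;> linarith

/-! ## toolkit: counting -/

/-- the number of dyadic cells met by a set of diameter `ℓ` -/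
theorem dc_cn_count {α : Type} (s : Finset α) (f : α → ℝ) (k : ℕ) {ℓ : ℝ} (hℓ : 0 ≤ ℓ)
    (h : ∀ x ∈ s, ∀ y ∈ s, |f x - f y| ≤ ℓ) :
    ((s.image (fun x => ⌊f x * 2 ^ k⌋)).card : ℝ) ≤ 2 * (ℓ * 2 ^ k) + 3 := by
  have hp : (0 : ℝ) < 2 ^ k := by positivity
  rcases s.eq_empty_or_nonempty with rfl | ⟨x₀, hx₀⟩
  · simp only [Finset.image_empty, Finset.card_empty, Nat.cast_zero]
    positivity
  · have hsub : s.image (fun x => ⌊f x * 2 ^ k⌋) ⊆
        Finset.Icc (⌊f x₀ * 2 ^ k⌋ - ⌈ℓ * 2 ^ k⌉) (⌊f x₀ * 2 ^ k⌋ + ⌈ℓ * 2 ^ k⌉) := by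
      intro j hj
      obtain ⟨x, hx, rfl⟩ := Finset.mem_image.1 hj
      obtain ⟨b1, b2⟩ := abs_le.1 (h x hx x₀ hx₀)
      have c1 : f x * 2 ^ k ≤ f x₀ * 2 ^ k + ℓ * 2 ^ k := by nlinarith
      have c2 : f x₀ * 2 ^ k - ℓ * 2 ^ k ≤ f x * 2 ^ k := by nlinarith
      have c3 : ℓ * 2 ^ k ≤ (⌈ℓ * 2 ^ k⌉ : ℝ) := Int.le_ceil _
      rw [Finset.mem_Icc]
      constructor
      · rw [Int.le_floor]
        push_cast
        have := Int.floor_le (f x₀ * 2 ^ k)
        linarith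
      · have d1 : ⌊f x * 2 ^ k⌋ ≤ ⌊f x₀ * 2 ^ k + (⌈ℓ * 2 ^ k⌉ : ℝ)⌋ := Int.floor_le_floor (by linarith)
        rwa [Int.floor_add_intCast] at d1
    have hc := Finset.card_le_card hsub
    rw [Int.card_Icc] at hc
    have hceil : (0 : ℤ) ≤ ⌈ℓ * 2 ^ k⌉ := Int.ceil_nonneg (by positivity)
    have e : (⌊f x₀ * 2 ^ k⌋ + ⌈ℓ * 2 ^ k⌉ + 1 - (⌊f x₀ * 2 ^ k⌋ - ⌈ℓ * 2 ^ k⌉)).toNat
        = (2 * ⌈ℓ * 2 ^ k⌉ + 1).toNat := by congr 1; ring
    rw [e] at hc
    have hc' : ((s.image (fun x => ⌊f x * 2 ^ k⌋)).card : ℝ) ≤ ((2 * ⌈ℓ * 2 ^ k⌉ + 1).toNat : ℝ) := by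
      exact_mod_cast hc
    have e2 : (((2 * ⌈ℓ * 2 ^ k⌉ + 1).toNat : ℤ) : ℝ) = 2 * (⌈ℓ * 2 ^ k⌉ : ℝ) + 1 := by
      rw [Int.toNat_of_nonneg (by omega)]
      push_cast
      ring
    have e3 : ((2 * ⌈ℓ * 2 ^ k⌉ + 1).toNat : ℝ) = 2 * (⌈ℓ * 2 ^ k⌉ : ℝ) + 1 := by
      rw [← e2]; norm_cast
    have c4 : (⌈ℓ * 2 ^ k⌉ : ℝ) < ℓ * 2 ^ k + 1 := Int.ceil_lt_add_one _
    rw [e3] at hc'
    linarith

/-- the number of cells of depth `d ≥ 0` met by a set of diameter `c ε^(d - ν)` -/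
theorem dc_cn_cells {α : Type} (s : Finset α) (f : α → ℝ) {ε d ν c : ℝ} (h0 : 0 < ε) (h1 : ε < 1)
    (hd : 0 ≤ d) (hν : 0 ≤ ν) (hc : 0 ≤ c) (h : ∀ x ∈ s, ∀ y ∈ s, |f x - f y| ≤ c * ε ^ (d - ν)) :
    ((s.image (fun x => tcell ε d (f x))).card : ℝ) ≤ (4 * c + 3) * ε ^ (-ν) := by
  have hp : 0 < ε ^ (d - ν) := Real.rpow_pos_of_pos h0 _
  have h2 := dc_cn_count s f (tlev ε d) (mul_nonneg hc hp.le) h
  have h3 := dc_cn_lev_le h0 h1 hd
  have h4 : ε ^ (d - ν) * ε ^ (-d) = ε ^ (-ν) := by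
    rw [← Real.rpow_add h0]; congr 1; ring
  have h5 : (1 : ℝ) ≤ ε ^ (-ν) := Real.one_le_rpow_of_pos_of_le_one_of_nonpos h0 h1.le (by linarith)
  have h6 : c * ε ^ (d - ν) * 2 ^ (tlev ε d) ≤ c * ε ^ (d - ν) * (2 * ε ^ (-d)) :=
    mul_le_mul_of_nonneg_left h3 (mul_nonneg hc hp.le)
  have h7 : c * ε ^ (d - ν) * (2 * ε ^ (-d)) = 2 * c * ε ^ (-ν) := by
    rw [← h4]; ring
  unfold tcell
  nlinarith

/-- sequential counting -/
theorem dc_cn_pair {α β γ : Type} [DecidableEq β] [DecidableEq γ] (s : Finset α) (f : α → β) (g : α → γ)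
    {N M : ℝ} (hM : 0 ≤ M) (hf : ((s.image f).card : ℝ) ≤ N)
    (hg : ∀ t : Finset α, t ⊆ s → (∀ x ∈ t, ∀ y ∈ t, f x = f y) → ((t.image g).card : ℝ) ≤ M) :
    ((s.image (fun x => (f x, g x))).card : ℝ) ≤ N * M := by
  have key : (s.image (fun x => (f x, g x))).card ≤ ∑ b ∈ s.image f, ((s.filter (fun x => f x = b)).image g).card := by
    have hsub : s.image (fun x => (f x, g x)) ⊆
        ((s.image f).sigma (fun b => (s.filter (fun x => f x = b)).image g)).image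
          (fun p => (p.1, p.2)) := by
      intro p hp
      obtain ⟨x, hx, rfl⟩ := Finset.mem_image.1 hp
      refine Finset.mem_image.2 ⟨⟨f x, g x⟩, ?_, rfl⟩
      rw [Finset.mem_sigma]
      exact ⟨Finset.mem_image_of_mem f hx, Finset.mem_image.2 ⟨x, Finset.mem_filter.2 ⟨hx, rfl⟩, rfl⟩⟩
    refine (Finset.card_le_card hsub).trans (Finset.card_image_le.trans ?_)
    rw [Finset.card_sigma]
  have h2 : ((∑ b ∈ s.image f, ((s.filter (fun x => f x = b)).image g).card : ℕ) : ℝ)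
      ≤ ∑ _b ∈ s.image f, M := by
    push_cast
    refine Finset.sum_le_sum fun b _ => hg _ (Finset.filter_subset _ _) fun x hx y hy => ?_
    rw [(Finset.mem_filter.1 hx).2, (Finset.mem_filter.1 hy).2]
  rw [Finset.sum_const, nsmul_eq_mul] at h2
  calc ((s.image (fun x => (f x, g x))).card : ℝ)
      ≤ ((∑ b ∈ s.image f, ((s.filter (fun x => f x = b)).image g).card : ℕ) : ℝ) := by exact_mod_cast key
    _ ≤ ((s.image f).card : ℝ) * M := h2
    _ ≤ N * M := mul_le_mul_of_nonneg_right hf hM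

/-! ## toolkit: angles -/

theorem dc_cn_sin_tri (x y z : ℝ) : |Real.sin (x - z)| ≤ |Real.sin (x - y)| + |Real.sin (y - z)| := by
  have e : x - z = (x - y) + (y - z) := by ring
  rw [e, Real.sin_add]
  have a1 := Real.abs_cos_le_one (y - z)
  have a2 := Real.abs_cos_le_one (x - y)
  calc |Real.sin (x - y) * Real.cos (y - z) + Real.cos (x - y) * Real.sin (y - z)|
      ≤ |Real.sin (x - y) * Real.cos (y - z)| + |Real.cos (x - y) * Real.sin (y - z)| := abs_add_le _ _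
    _ = |Real.sin (x - y)| * |Real.cos (y - z)| + |Real.cos (x - y)| * |Real.sin (y - z)| := by
        rw [abs_mul, abs_mul]
    _ ≤ |Real.sin (x - y)| * 1 + 1 * |Real.sin (y - z)| := by
        gcongr
    _ = _ := by ring

theorem dc_cn_sin_arctan_sub (r r' : ℝ) :
    Real.sin (Real.arctan r - Real.arctan r') = (r - r') / (Real.sqrt (1 + r ^ 2) * Real.sqrt (1 + r' ^ 2)) := by
  rw [Real.sin_sub, Real.sin_arctan, Real.cos_arctan, Real.sin_arctan, Real.cos_arctan]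
  have h1 : Real.sqrt (1 + r ^ 2) ≠ 0 := (Real.sqrt_pos.2 (by positivity)).ne'
  have h2 : Real.sqrt (1 + r' ^ 2) ≠ 0 := (Real.sqrt_pos.2 (by positivity)).ne'
  field_simp

/-- slopes in a bounded range are controlled by the sine of the angle difference -/
theorem dc_cn_slope_le {r r' RB : ℝ} (h : |r| ≤ RB) (h' : |r'| ≤ RB) :
    |r - r'| ≤ (1 + RB ^ 2) * |Real.sin (Real.arctan r - Real.arctan r')| := by
  rw [dc_cn_sin_arctan_sub, abs_div]
  have p1 : 0 < Real.sqrt (1 + r ^ 2) := Real.sqrt_pos.2 (by positivity)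
  have p2 : 0 < Real.sqrt (1 + r' ^ 2) := Real.sqrt_pos.2 (by positivity)
  have q1 : Real.sqrt (1 + r ^ 2) ≤ Real.sqrt (1 + RB ^ 2) :=
    Real.sqrt_le_sqrt (by have := sq_le_sq' (by linarith [(abs_le.1 h).1]) (abs_le.1 h).2; linarith)
  have q2 : Real.sqrt (1 + r' ^ 2) ≤ Real.sqrt (1 + RB ^ 2) :=
    Real.sqrt_le_sqrt (by have := sq_le_sq' (by linarith [(abs_le.1 h').1]) (abs_le.1 h').2; linarith)
  have q3 : Real.sqrt (1 + r ^ 2) * Real.sqrt (1 + r' ^ 2) ≤ 1 + RB ^ 2 := by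
    calc Real.sqrt (1 + r ^ 2) * Real.sqrt (1 + r' ^ 2)
        ≤ Real.sqrt (1 + RB ^ 2) * Real.sqrt (1 + RB ^ 2) := mul_le_mul q1 q2 p2.le (Real.sqrt_nonneg _)
      _ = 1 + RB ^ 2 := Real.mul_self_sqrt (by positivity)
  rw [abs_of_pos (mul_pos p1 p2), mul_div_assoc', le_div_iff₀ (mul_pos p1 p2)]
  have := abs_nonneg (r - r')
  nlinarith

/-- the sine of the angle difference is at most the difference of the slopes -/
theorem dc_cn_sin_le_slope (r r' : ℝ) : |Real.sin (Real.arctan r - Real.arctan r')| ≤ |r - r'| := by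
  rw [dc_cn_sin_arctan_sub, abs_div]
  have p1 : 1 ≤ Real.sqrt (1 + r ^ 2) := by
    rw [Real.le_sqrt' (by norm_num)]; nlinarith [sq_nonneg r]
  have p2 : 1 ≤ Real.sqrt (1 + r' ^ 2) := by
    rw [Real.le_sqrt' (by norm_num)]; nlinarith [sq_nonneg r']
  have p3 : 1 ≤ Real.sqrt (1 + r ^ 2) * Real.sqrt (1 + r' ^ 2) := by nlinarith
  rw [abs_of_pos (show 0 < Real.sqrt (1 + r ^ 2) * Real.sqrt (1 + r' ^ 2) by linarith)]
  exact div_le_self (abs_nonneg _) p3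

theorem dc_cn_tang_arctan (r : ℝ) :
    tang (Real.arctan r) = (1 / Real.sqrt (1 + r ^ 2), r / Real.sqrt (1 + r ^ 2)) := by
  unfold tang
  rw [Real.sin_arctan, Real.cos_arctan]

theorem dc_cn_nrm_arctan (r : ℝ) :
    nrm (Real.arctan r) = (- (r / Real.sqrt (1 + r ^ 2)), 1 / Real.sqrt (1 + r ^ 2)) := by
  unfold nrm
  rw [Real.sin_arctan, Real.cos_arctan]

/-- rotation of the normal: `n(φ) = cos(φ - θ) n(θ) - sin(φ - θ) t(θ)` -/
theorem dc_cn_ip_nrm_rot (z : ℝ × ℝ) (φ θ : ℝ) :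
    ip z (nrm φ) = Real.cos (φ - θ) * ip z (nrm θ) - Real.sin (φ - θ) * ip z (tang θ) := by
  unfold ip nrm tang
  simp only []
  rw [Real.cos_sub, Real.sin_sub]
  have h := Real.sin_sq_add_cos_sq θ
  linear_combination (-(z.1 * Real.sin φ) + z.2 * Real.cos φ) * (-h)

/-- the row functional `(-r, 1)` is `√(1+r²)` times the normal of the frame `arctan r` -/
theorem dc_cn_row (z : ℝ × ℝ) (r : ℝ) :
    z.2 - r * z.1 = Real.sqrt (1 + r ^ 2) * ip z (nrm (Real.arctan r)) := by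
  rw [dc_cn_nrm_arctan]
  unfold ip
  simp only []
  have h1 : Real.sqrt (1 + r ^ 2) ≠ 0 := (Real.sqrt_pos.2 (by positivity)).ne'
  field_simp
  ring

/-- a point of a rectangle, measured by the row functional of a slope `r` -/
theorem dc_cn_row_le {K ε b a th r RB σ : ℝ} {z : ℝ × ℝ} (hz : InRect K ε b a th z) (hr : |r| ≤ RB)
    (hσ : |Real.sin (Real.arctan r - th)| ≤ σ) :
    |z.2 - r * z.1| ≤ (1 + RB ^ 2) * (K * ε ^ a + σ * (K * ε ^ b)) := by
  rw [dc_cn_row, dc_cn_ip_nrm_rot z _ th, abs_mul]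
  have p0 : 0 ≤ Real.sqrt (1 + r ^ 2) := Real.sqrt_nonneg _
  have q1 : Real.sqrt (1 + r ^ 2) ≤ 1 + RB ^ 2 := by
    rw [Real.sqrt_le_left (by positivity)]
    have := sq_le_sq' (by linarith [(abs_le.1 hr).1]) (abs_le.1 hr).2
    nlinarith [sq_nonneg RB, sq_nonneg (RB ^ 2)]
  have a1 := Real.abs_cos_le_one (Real.arctan r - th)
  have hb : 0 ≤ K * ε ^ b := (abs_nonneg _).trans hz.1
  have ha : 0 ≤ K * ε ^ a := (abs_nonneg _).trans hz.2
  have hs0 : 0 ≤ σ := (abs_nonneg _).trans hσ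
  have a2 : |Real.cos (Real.arctan r - th) * ip z (nrm th) - Real.sin (Real.arctan r - th) * ip z (tang th)|
      ≤ K * ε ^ a + σ * (K * ε ^ b) := by
    calc _ ≤ |Real.cos (Real.arctan r - th) * ip z (nrm th)| + |Real.sin (Real.arctan r - th) * ip z (tang th)| :=
          abs_sub _ _
      _ = |Real.cos (Real.arctan r - th)| * |ip z (nrm th)| + |Real.sin (Real.arctan r - th)| * |ip z (tang th)| := by
          rw [abs_mul, abs_mul]
      _ ≤ 1 * (K * ε ^ a) + σ * (K * ε ^ b) := by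
          gcongr
          · exact hz.2
          · exact hz.1
      _ = _ := by ring
  rw [abs_of_nonneg p0]
  exact mul_le_mul q1 a2 (abs_nonneg _) (by positivity)

/-- the coordinates of a point of a rectangle -/
theorem dc_cn_coord_le {K ε b a th : ℝ} {z : ℝ × ℝ} (hz : InRect K ε b a th z) :
    |z.1| ≤ K * ε ^ b + K * ε ^ a ∧ |z.2| ≤ K * ε ^ b + K * ε ^ a := by
  have e1 : z.1 = Real.cos th * ip z (tang th) - Real.sin th * ip z (nrm th) := by
    unfold ip tang nrm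
    simp only []
    linear_combination (-z.1) * (Real.sin_sq_add_cos_sq th)
  have e2 : z.2 = Real.sin th * ip z (tang th) + Real.cos th * ip z (nrm th) := by
    unfold ip tang nrm
    simp only []
    linear_combination (-z.2) * (Real.sin_sq_add_cos_sq th)
  have c1 := Real.abs_cos_le_one th
  have s1 := Real.abs_sin_le_one th
  have hb : 0 ≤ K * ε ^ b := (abs_nonneg _).trans hz.1
  have ha : 0 ≤ K * ε ^ a := (abs_nonneg _).trans hz.2
  constructor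
  · rw [e1]
    calc _ ≤ |Real.cos th * ip z (tang th)| + |Real.sin th * ip z (nrm th)| := abs_sub _ _
      _ = |Real.cos th| * |ip z (tang th)| + |Real.sin th| * |ip z (nrm th)| := by rw [abs_mul, abs_mul]
      _ ≤ 1 * (K * ε ^ b) + 1 * (K * ε ^ a) := by
          gcongr
          · exact hz.1
          · exact hz.2
      _ = _ := by ring
  · rw [e2]
    calc _ ≤ |Real.sin th * ip z (tang th)| + |Real.cos th * ip z (nrm th)| := abs_add_le _ _
      _ = |Real.sin th| * |ip z (tang th)| + |Real.cos th| * |ip z (nrm th)| := by rw [abs_mul, abs_mul]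
      _ ≤ 1 * (K * ε ^ b) + 1 * (K * ε ^ a) := by
          gcongr
          · exact hz.1
          · exact hz.2
      _ = _ := by ring

/-! ## toolkit: entropy from counting -/

/-- bounded ambiguity from a count on finite sets -/
theorem dc_cn_nval {Ω α β : Type} [Fintype Ω] [DecidableEq β] (P : FLaw Ω) (E : Ω → Prop) (B : Ω → β)
    (A : Ω → α) (N : ℝ)
    (h : ∀ t : Finset Ω, (∀ x ∈ t, P.p x ≠ 0 ∧ E x) → (∀ x ∈ t, ∀ y ∈ t, A x = A y) →
      ((t.image B).card : ℝ) ≤ N) : P.NVal E B A N := by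
  intro ω₀
  refine ⟨(Finset.univ.filter (fun ω => P.p ω ≠ 0 ∧ E ω ∧ A ω = A ω₀)).image B, ?_, ?_⟩
  · refine h _ (fun x hx => ?_) (fun x hx y hy => ?_)
    · have := (Finset.mem_filter.1 hx).2
      exact ⟨this.1, this.2.1⟩
    · rw [(Finset.mem_filter.1 hx).2.2.2, (Finset.mem_filter.1 hy).2.2.2]
  · intro ω h1 h2 h3
    exact Finset.mem_image.2 ⟨ω, Finset.mem_filter.2 ⟨Finset.mem_univ _, h1, h2, h3⟩, rfl⟩

/-- `log (c ε^(-ν)) = log c + ν ℓ` -/
theorem dc_cn_log {ε c : ℝ} (h0 : 0 < ε) (hc : 0 < c) (ν : ℝ) :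
    Real.log (c * ε ^ (-ν)) = Real.log c + ν * lg ε := by
  rw [Real.log_mul hc.ne' (Real.rpow_pos_of_pos h0 _).ne', Real.log_rpow h0]
  unfold lg
  rw [one_div, Real.log_inv]
  ring

/-- final arithmetic of the ambiguity bounds -/
theorem dc_cn_final {H l ν c₁ c₂ D pr C : ℝ} (hl : 0 < l) (hpr0 : 0 ≤ pr) (hpr1 : pr ≤ 1) (hc2 : 0 ≤ c₂)
    (h : H ≤ Real.log 2 + (c₁ + ν * l) + pr * (c₂ + D * l)) (hC1 : Real.log 2 + c₁ + c₂ ≤ C) (hC2 : D ≤ C) :
    H / l ≤ ν + C / l + C * pr := by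
  rw [div_le_iff₀ hl]
  have e : (ν + C / l + C * pr) * l = ν * l + C + C * pr * l := by
    field_simp
  rw [e]
  have a1 : pr * c₂ ≤ c₂ := by nlinarith
  have a2 : pr * (D * l) ≤ C * pr * l := by
    have : D * (pr * l) ≤ C * (pr * l) := mul_le_mul_of_nonneg_right hC2 (by positivity)
    nlinarith
  nlinarith

/-- all cells of depth `d ≥ 0` of a bounded variable -/
theorem dc_cn_cells_all {α : Type} (s : Finset α) (f : α → ℝ) {ε d M : ℝ} (h0 : 0 < ε) (h1 : ε < 1)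
    (hd : 0 ≤ d) (hM : 0 ≤ M) (h : ∀ x ∈ s, |f x| ≤ M) :
    ((s.image (fun x => tcell ε d (f x))).card : ℝ) ≤ (8 * M + 3) * ε ^ (-d) := by
  have := dc_cn_cells s f (c := 2 * M) h0 h1 hd hd (by positivity) (fun x hx y hy => by
    rw [sub_self, Real.rpow_zero, mul_one]
    have a := abs_le.1 (h x hx)
    have b := abs_le.1 (h y hy)
    rw [abs_le]
    constructor <;> linarith)
  calc _ ≤ (4 * (2 * M) + 3) * ε ^ (-d) := this
    _ = _ := by ring

/-! # THE CONTRACTS -/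

/-- the canonical observation on a system with a slope observation -/
noncomputable def CSys.mO (S : CSys) (m ε : ℝ) (z : Cfg) (R : S.Ω → ℝ) : S.Ω → ℤ × ℤ × ℤ × ℤ × ℤ × ℤ :=
  fun ω => mObs m ε z (S.V (S.T ω)) (S.A (S.T ω)) (S.c ω) (R ω)

/-- the row frame `(1,0), (-r,1)` versus the orthogonal frame of angle `arctan r` -/
theorem dc_cl_rect (r dX dW p q K : ℝ) (hX : |dX| ≤ p) (hW : |dW| ≤ q) (hqp : q ≤ p) (hK : |r| + 2 ≤ K) :
    |ip (dX, dW + r * dX) (tang (Real.arctan r))| ≤ K * p ∧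
      |ip (dX, dW + r * dX) (nrm (Real.arctan r))| ≤ K * q := by
  have hq : 0 ≤ q := (abs_nonneg _).trans hW
  have hp : 0 ≤ p := hq.trans hqp
  obtain ⟨s, hs⟩ : ∃ s : ℝ, s = Real.sqrt (1 + r ^ 2) := ⟨_, rfl⟩
  have hs2 : s ^ 2 = 1 + r ^ 2 := by rw [hs]; exact Real.sq_sqrt (by positivity)
  have hs0 : 0 ≤ s := by rw [hs]; exact Real.sqrt_nonneg _
  have hs1 : 1 ≤ s := by nlinarith [sq_nonneg r]
  have hspos : 0 < s := by linarith
  have hsr : s ≤ 1 + |r| := by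
    have h1 : s ^ 2 ≤ (1 + |r|) ^ 2 := by
      rw [hs2]
      nlinarith [abs_nonneg r, sq_abs r]
    exact (pow_le_pow_iff_left₀ hs0 (by positivity) (by norm_num)).1 h1
  have hrs : |r| ≤ s := by
    have h1 : |r| ^ 2 ≤ s ^ 2 := by
      rw [hs2, sq_abs]
      linarith
    exact (pow_le_pow_iff_left₀ (abs_nonneg r) hs0 (by norm_num)).1 h1
  rw [dc_cn_tang_arctan, dc_cn_nrm_arctan, ← hs]
  unfold ip
  simp only
  constructor
  · have e : dX * (1 / s) + (dW + r * dX) * (r / s) = s * dX + r / s * dW := by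
      have : s * dX = s ^ 2 * dX / s := by field_simp
      rw [this, hs2]
      field_simp
      ring
    rw [e]
    have h1 : |s * dX| ≤ s * p := by
      rw [abs_mul, abs_of_pos hspos]
      exact mul_le_mul_of_nonneg_left hX hs0
    have h2 : |r / s * dW| ≤ p := by
      rw [abs_mul, abs_div, abs_of_pos hspos]
      have h3 : |r| / s ≤ 1 := (div_le_one hspos).2 hrs
      calc |r| / s * |dW| ≤ 1 * q := mul_le_mul h3 hW (abs_nonneg _) zero_le_one
        _ ≤ p := by linarith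
    calc |s * dX + r / s * dW| ≤ |s * dX| + |r / s * dW| := abs_add_le _ _
      _ ≤ s * p + p := add_le_add h1 h2
      _ = (s + 1) * p := by ring
      _ ≤ K * p := mul_le_mul_of_nonneg_right (by linarith) hp
  · have e : dX * -(r / s) + (dW + r * dX) * (1 / s) = dW / s := by
      field_simp
      ring
    rw [e, abs_div, abs_of_pos hspos]
    have hK1 : 1 ≤ K := by linarith [abs_nonneg r]
    calc |dW| / s ≤ |dW| := div_le_self (abs_nonneg _) hs1
      _ ≤ q := hW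
      _ ≤ K * q := le_mul_of_one_le_left hq hK1

/-- the read-out of the canonical observation of shape `(B, A)` at duration `v` -/
noncomputable def dc_cl_geo (m ε B A v : ℝ) (j : ℤ × ℤ × ℤ × ℤ × ℤ × ℤ) : Geo :=
  Geo.mk B A (crep ε v j.1) (Real.arctan (crep ε (m * v) j.2.1))
    (crep ε B j.2.2.1, crep ε A j.2.2.2.2.1 + crep ε (m * v) j.2.1 * crep ε B j.2.2.1)
    (crep ε (B + v) j.2.2.2.1, crep ε (A + v) j.2.2.2.2.2 + crep ε (m * v) j.2.1 * crep ε (B + v) j.2.2.2.1)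

/-- data-level compatibility of the canonical read-out -/
theorem dc_cl_compat (m RB : ℝ) (hm : 0 ≤ m) (ε B A v L : ℝ) (h0 : 0 < ε) (h1 : ε < 1) (hB : 0 ≤ B)
    (hBA : B ≤ A) (hv : 0 ≤ v) (hL : A + v ≤ L) (V X : ℝ × ℝ) (c R : ℝ) (hR : |R| ≤ RB) :
    (dc_cl_geo m ε B A v (mObs m ε ⟨B, B + v, A, A + v, v⟩ V X c R)).Compat
      (2 * (|RB| + 2)) ε v L V X c := by
  obtain ⟨tc, htc⟩ : ∃ tc, tc = trep ε v c := ⟨_, rfl⟩
  obtain ⟨r, hr⟩ : ∃ r, r = trep ε (m * v) R := ⟨_, rfl⟩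
  have hmu : 0 ≤ m * v := mul_nonneg hm hv
  have hK1 : (1 : ℝ) ≤ 2 * (|RB| + 2) := by linarith [abs_nonneg RB]
  have hrK : |r| + 2 ≤ 2 * (|RB| + 2) := by
    have h2 := dc_cn_trep_abs h0 h1 (m * v) R
    rw [← hr] at h2
    have h3 : ε ^ (m * v) ≤ 1 := Real.rpow_le_one h0.le h1.le hmu
    have h4 : |r| ≤ |R| + |R - r| := by
      have := abs_sub_abs_le_abs_sub r R
      rw [abs_sub_comm] at this
      linarith
    have h5 : |R| ≤ |RB| := hR.trans (le_abs_self RB)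
    linarith [abs_nonneg RB]
  show Geo.Compat (Geo.mk B A (trep ε v c) (Real.arctan (trep ε (m * v) R))
      (trep ε B V.1, trep ε A (V.2 - trep ε (m * v) R * V.1)
        + trep ε (m * v) R * trep ε B V.1)
      (trep ε (B + v) (X.1 + trep ε v c * V.1),
        trep ε (A + v) (X.2 + trep ε v c * V.2 - trep ε (m * v) R * (X.1 + trep ε v c * V.1))
          + trep ε (m * v) R * trep ε (B + v) (X.1 + trep ε v c * V.1)))
    (2 * (|RB| + 2)) ε v L V X c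
  rw [← htc, ← hr]
  unfold Geo.Compat InRect
  simp only
  refine ⟨hB, hBA, hL, ?_, ?_, ?_⟩
  · have h2 := dc_cn_trep_abs h0 h1 v c
    rw [← htc] at h2
    exact h2.trans (le_mul_of_one_le_left (Real.rpow_nonneg h0.le _) hK1)
  · have e : V - (trep ε B V.1, trep ε A (V.2 - r * V.1) + r * trep ε B V.1)
        = (V.1 - trep ε B V.1, (V.2 - r * V.1 - trep ε A (V.2 - r * V.1))
          + r * (V.1 - trep ε B V.1)) := by
      ext
      · rfl
      · simp only [Prod.snd_sub]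
        ring
    rw [e]
    exact dc_cl_rect r _ _ _ _ _ (dc_cn_trep_abs h0 h1 B V.1) (dc_cn_trep_abs h0 h1 A _)
      (Real.rpow_le_rpow_of_exponent_ge h0 h1.le hBA) hrK
  · have e : X + tc • V - (trep ε (B + v) (X.1 + tc * V.1),
          trep ε (A + v) (X.2 + tc * V.2 - r * (X.1 + tc * V.1)) + r * trep ε (B + v) (X.1 + tc * V.1))
        = (X.1 + tc * V.1 - trep ε (B + v) (X.1 + tc * V.1),
          (X.2 + tc * V.2 - r * (X.1 + tc * V.1) - trep ε (A + v) (X.2 + tc * V.2 - r * (X.1 + tc * V.1)))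
          + r * (X.1 + tc * V.1 - trep ε (B + v) (X.1 + tc * V.1))) := by
      ext
      · simp
      · simp only [Prod.snd_sub, Prod.snd_add, Prod.smul_snd, smul_eq_mul]
        ring
    rw [e]
    exact dc_cl_rect r _ _ _ _ _ (dc_cn_trep_abs h0 h1 (B + v) _) (dc_cn_trep_abs h0 h1 (A + v) _)
      (Real.rpow_le_rpow_of_exponent_ge h0 h1.le (by linarith)) hrK

/-- `O(B, B + v, A, A + v, v)` is an aperture label of shape `(B, A)` at duration `v`, frame `arctan` of the recorded slope prefix (general shape; `dc_canon_label` is the case `B = i`, `A = i + m u`, `v = u`). -/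
theorem dc_canon_label_gen (m RB : ℝ) (hm : 0 ≤ m) : ∃ K₁ : ℝ, ∀ (S : CSys) (ε B A v L : ℝ) (R : S.Ω → ℝ),
    0 < ε → ε < 1 → (∀ ω, |R ω| ≤ RB) → 0 ≤ B → B ≤ A → 0 ≤ v → A + v ≤ L →
    ∃ geo : ℤ × ℤ × ℤ × ℤ × ℤ × ℤ → Geo,
      (∀ j, (geo j).b = B ∧ (geo j).a = A ∧ (geo j).th = Real.arctan (crep ε (m * v) j.2.1)) ∧
      S.IsLabel K₁ ε v L (S.mO m ε ⟨B, B + v, A, A + v, v⟩ R) geo := by
  refine ⟨2 * (|RB| + 2), ?_⟩
  intro S ε B A v L R h0 h1 hR hB hBA hv hL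
  refine ⟨dc_cl_geo m ε B A v, fun j => ⟨rfl, rfl, rfl⟩, ?_⟩
  intro ω _
  exact dc_cl_compat m RB hm ε B A v L h0 h1 hB hBA hv hL _ _ _ _ (hR ω)

/-- `O(plane m i u)` is an aperture label of shape `(i, i + m u)` at duration `u`, frame `arctan` of the recorded slope prefix.
Row frame `(1,0), (-R̄,1)` versus orthogonal frame: normal component `= W/√(1+R̄²)`, tangent component `= (X (1+R̄²) + R̄ W)/√(1+R̄²)`; the same for the position column. -/
theorem dc_canon_label (m RB : ℝ) (hm : 0 ≤ m) : ∃ K₁ : ℝ, ∀ (S : CSys) (ε i u L : ℝ) (R : S.Ω → ℝ),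
    0 < ε → ε < 1 → (∀ ω, |R ω| ≤ RB) → 0 ≤ i → 0 ≤ u → i + (1 + m) * u ≤ L →
    ∃ geo : ℤ × ℤ × ℤ × ℤ × ℤ × ℤ → Geo,
      (∀ j, (geo j).b = i ∧ (geo j).a = i + m * u ∧ (geo j).th = Real.arctan (crep ε (m * u) j.2.1)) ∧
      S.IsLabel K₁ ε u L (S.mO m ε (plane m i u) R) geo := by
  obtain ⟨K₁, hK⟩ := dc_canon_label_gen m RB hm
  refine ⟨K₁, ?_⟩
  intro S ε i u L R h0 h1 hR hi hu hL
  have e : plane m i u = ⟨i, i + u, i + m * u, i + m * u + u, u⟩ := by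
    unfold plane
    congr 1
    ring
  rw [e]
  exact hK S ε i (i + m * u) u L R h0 h1 hR hi (by nlinarith [mul_nonneg hm hu]) hu (by linarith)

theorem dc_cd_trep_congr {ε d x y : ℝ} (h : tcell ε d x = tcell ε d y) : trep ε d x = trep ε d y := by
  unfold trep; rw [h]

/-- one point of a label cell of shape `(i, i + m u)` on the good event: the six canonical coordinates lie near centres which depend only on the label value and on the prefixes `c̄ = trep ε u c`, `r̄ = trep ε (m u) R` -/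
theorem dc_cd_one {m RB K ε i u ν tc th : ℝ} {vc xc V A : ℝ × ℝ} {c R : ℝ} (hm : 0 ≤ m) (h0 : 0 < ε)
    (h1 : ε < 1) (hu : 0 ≤ u) (hν : 0 ≤ ν) (hK : 0 ≤ K)
    (hc : |c - tc| ≤ K * ε ^ u) (hV : InRect K ε i (i + m * u) th (V - vc))
    (hA : InRect K ε (i + u) (i + m * u + u) th (A + tc • V - xc)) (hR : |R| ≤ RB)
    (hg : |Real.sin (th - Real.arctan R)| ≤ ε ^ (m * u - ν)) :
    |V.1 - vc.1| ≤ 2 * K * ε ^ (i - 0) ∧
    |A.1 + trep ε u c * V.1 - (xc.1 + (trep ε u c - tc) * vc.1)| ≤ (2 * K * (K + 2)) * ε ^ (i + u - 0) ∧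
    |V.2 - trep ε (m * u) R * V.1 - (vc.2 - trep ε (m * u) R * vc.1)|
      ≤ (3 * K * (1 + (RB + 1) ^ 2)) * ε ^ (i + m * u - ν) ∧
    |A.2 + trep ε u c * V.2 - trep ε (m * u) R * (A.1 + trep ε u c * V.1)
        - ((xc.2 - trep ε (m * u) R * xc.1) + (trep ε u c - tc) * (vc.2 - trep ε (m * u) R * vc.1))|
      ≤ (3 * K * (1 + (RB + 1) ^ 2) * (K + 2)) * ε ^ (i + (1 + m) * u - ν) := by
  obtain ⟨X, hX⟩ : ∃ X, X = ε ^ i := ⟨_, rfl⟩
  obtain ⟨U, hU⟩ : ∃ U, U = ε ^ u := ⟨_, rfl⟩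
  obtain ⟨Mm, hMm⟩ : ∃ Mm, Mm = ε ^ (m * u) := ⟨_, rfl⟩
  obtain ⟨Mn, hMn⟩ : ∃ Mn, Mn = ε ^ (m * u - ν) := ⟨_, rfl⟩
  have X0 : 0 < X := hX ▸ Real.rpow_pos_of_pos h0 _
  have U0 : 0 < U := hU ▸ Real.rpow_pos_of_pos h0 _
  have Mm0 : 0 < Mm := hMm ▸ Real.rpow_pos_of_pos h0 _
  have Mn0 : 0 < Mn := hMn ▸ Real.rpow_pos_of_pos h0 _
  have Mm1 : Mm ≤ 1 := hMm ▸ Real.rpow_le_one h0.le h1.le (mul_nonneg hm hu)
  have MmMn : Mm ≤ Mn := by
    rw [hMm, hMn]; exact Real.rpow_le_rpow_of_exponent_ge h0 h1.le (by linarith)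
  have e1 : ε ^ (i - 0) = X := by rw [sub_zero, hX]
  have e2 : ε ^ (i + u - 0) = X * U := by rw [sub_zero, Real.rpow_add h0, hX, hU]
  have e2' : ε ^ (i + u) = X * U := by rw [Real.rpow_add h0, hX, hU]
  have e3 : ε ^ (i + m * u) = X * Mm := by rw [Real.rpow_add h0, hX, hMm]
  have e4 : ε ^ (i + m * u + u) = X * Mm * U := by rw [Real.rpow_add h0, Real.rpow_add h0, hX, hMm, hU]
  have e5 : ε ^ (i + m * u - ν) = X * Mn := by
    rw [hX, hMn, ← Real.rpow_add h0]; congr 1; ring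
  have e6 : ε ^ (i + (1 + m) * u - ν) = X * Mn * U := by
    rw [hX, hMn, hU, ← Real.rpow_add h0, ← Real.rpow_add h0]; congr 1; ring
  rw [e1, e2, e5, e6]
  rw [← hU] at hc
  rw [← hMn] at hg
  obtain ⟨cb, hcb⟩ : ∃ cb, cb = trep ε u c := ⟨_, rfl⟩
  obtain ⟨rb, hrb⟩ : ∃ rb, rb = trep ε (m * u) R := ⟨_, rfl⟩
  rw [← hcb, ← hrb]
  have hcb1 : |c - cb| ≤ U := by rw [hcb, hU]; exact dc_cn_trep_abs h0 h1 u c
  have hrb1 : |R - rb| ≤ Mm := by rw [hrb, hMm]; exact dc_cn_trep_abs h0 h1 (m * u) R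
  have hcbt : |cb - tc| ≤ (K + 1) * U := by
    have a := abs_le.1 hcb1
    have b := abs_le.1 hc
    rw [abs_le]; constructor <;> nlinarith
  have hrbB : |rb| ≤ RB + 1 := by
    have a := abs_le.1 hrb1
    have b := abs_le.1 hR
    rw [abs_le]; constructor <;> linarith
  have hσ : |Real.sin (Real.arctan rb - th)| ≤ 2 * Mn := by
    have t1 := dc_cn_sin_tri (Real.arctan rb) (Real.arctan R) th
    have t2 := dc_cn_sin_le_slope rb R
    have t3 : |Real.sin (Real.arctan R - th)| ≤ Mn := by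
      rw [← neg_sub, Real.sin_neg, abs_neg]; exact hg
    have t4 : |rb - R| ≤ Mm := by rw [abs_sub_comm]; exact hrb1
    linarith
  obtain ⟨Q, hQ⟩ : ∃ Q, Q = 1 + (RB + 1) ^ 2 := ⟨_, rfl⟩
  have Q0 : 0 < Q := by rw [hQ]; positivity
  rw [← hQ]
  have rowV := dc_cn_row_le hV hrbB hσ
  have rowA := dc_cn_row_le hA hrbB hσ
  rw [← hQ] at rowV rowA
  have cV := dc_cn_coord_le hV
  have cA := dc_cn_coord_le hA
  simp only [Prod.fst_sub, Prod.snd_sub, Prod.fst_add, Prod.snd_add, Prod.smul_fst, Prod.smul_snd,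
    smul_eq_mul] at rowV rowA cV cA
  rw [← hX, e3] at rowV cV
  rw [e2', e4] at rowA cA
  have KX : 0 ≤ K * X := by positivity
  have bV1 : |V.1 - vc.1| ≤ 2 * K * X := by
    have : K * (X * Mm) ≤ K * X := by
      have := mul_le_mul_of_nonneg_left Mm1 KX
      linarith
    linarith [cV.1]
  have bRowV : |V.2 - vc.2 - rb * (V.1 - vc.1)| ≤ Q * (3 * K * X * Mn) := by
    refine rowV.trans (mul_le_mul_of_nonneg_left ?_ Q0.le)
    have : K * (X * Mm) ≤ K * X * Mn := by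
      rw [← mul_assoc]; exact mul_le_mul_of_nonneg_left MmMn KX
    linarith
  have bRowA : |A.2 + tc * V.2 - xc.2 - rb * (A.1 + tc * V.1 - xc.1)| ≤ Q * (3 * K * X * Mn * U) := by
    refine rowA.trans (mul_le_mul_of_nonneg_left ?_ Q0.le)
    have : K * (X * Mm * U) ≤ K * X * Mn * U := by
      have := mul_le_mul_of_nonneg_left MmMn (mul_nonneg KX U0.le)
      linarith
    linarith
  refine ⟨bV1, ?_, ?_, ?_⟩
  · have e : A.1 + cb * V.1 - (xc.1 + (cb - tc) * vc.1)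
        = (A.1 + tc * V.1 - xc.1) + (cb - tc) * (V.1 - vc.1) := by ring
    rw [e]
    have a1 : |A.1 + tc * V.1 - xc.1| ≤ 2 * K * (X * U) := by
      have : K * (X * Mm * U) ≤ K * (X * U) := by
        have := mul_le_mul_of_nonneg_left Mm1 (mul_nonneg KX U0.le)
        linarith
      linarith [cA.1]
    have a2 : |(cb - tc) * (V.1 - vc.1)| ≤ ((K + 1) * U) * (2 * K * X) := by
      rw [abs_mul]; exact mul_le_mul hcbt bV1 (abs_nonneg _) (by positivity)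
    calc _ ≤ |A.1 + tc * V.1 - xc.1| + |(cb - tc) * (V.1 - vc.1)| := abs_add_le _ _
      _ ≤ 2 * K * (X * U) + ((K + 1) * U) * (2 * K * X) := add_le_add a1 a2
      _ = _ := by ring
  · have e : V.2 - rb * V.1 - (vc.2 - rb * vc.1) = V.2 - vc.2 - rb * (V.1 - vc.1) := by ring
    rw [e]
    calc _ ≤ Q * (3 * K * X * Mn) := bRowV
      _ = _ := by ring
  · have e : A.2 + cb * V.2 - rb * (A.1 + cb * V.1) - ((xc.2 - rb * xc.1) + (cb - tc) * (vc.2 - rb * vc.1))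
        = (A.2 + tc * V.2 - xc.2 - rb * (A.1 + tc * V.1 - xc.1))
          + (cb - tc) * (V.2 - vc.2 - rb * (V.1 - vc.1)) := by ring
    rw [e]
    have a2 : |(cb - tc) * (V.2 - vc.2 - rb * (V.1 - vc.1))| ≤ ((K + 1) * U) * (Q * (3 * K * X * Mn)) := by
      rw [abs_mul]; exact mul_le_mul hcbt bRowV (abs_nonneg _) (by positivity)
    calc _ ≤ |A.2 + tc * V.2 - xc.2 - rb * (A.1 + tc * V.1 - xc.1)|
          + |(cb - tc) * (V.2 - vc.2 - rb * (V.1 - vc.1))| := abs_add_le _ _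
      _ ≤ Q * (3 * K * X * Mn * U) + ((K + 1) * U) * (Q * (3 * K * X * Mn)) := add_le_add bRowA a2
      _ = _ := by ring


theorem dc_cd_tri {x y z k e : ℝ} (hx : |x - z| ≤ k * e) (hy : |y - z| ≤ k * e) : |x - y| ≤ (2 * k) * e := by
  have a := abs_le.1 hx
  have b := abs_le.1 hy
  rw [abs_le]
  constructor <;> linarith

/-- the explicit form of the canonical observation on the matched plane -/
theorem dc_cd_form (m ε i u : ℝ) (V A : ℝ × ℝ) (c R : ℝ) :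
    mObs m ε (plane m i u) V A c R = (tcell ε u c, tcell ε (m * u) R, tcell ε i V.1,
      tcell ε (i + u) (A.1 + trep ε u c * V.1), tcell ε (i + m * u) (V.2 - trep ε (m * u) R * V.1),
      tcell ε (i + (1 + m) * u) (A.2 + trep ε u c * V.2 - trep ε (m * u) R * (A.1 + trep ε u c * V.1))) := rfl

/-- the constant of the good count -/
noncomputable def dcCdN (RB K : ℝ) : ℝ :=
  (4 * (2 * K) + 3) * ((4 * (2 * (1 + RB ^ 2)) + 3) * ((4 * (2 * (2 * K)) + 3) *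
    ((4 * (2 * (2 * K * (K + 2))) + 3) * ((4 * (2 * (3 * K * (1 + (RB + 1) ^ 2))) + 3) *
      (4 * (2 * (3 * K * (1 + (RB + 1) ^ 2) * (K + 2))) + 3)))))

/-- the number of canonical observations in one label cell on the good event -/
theorem dc_cd_good {α : Type} (s : Finset α) (V A : α → ℝ × ℝ) (c R : α → ℝ)
    {m RB K ε i u ν tc th : ℝ} {vc xc : ℝ × ℝ} (hm : 0 ≤ m) (h0 : 0 < ε) (h1 : ε < 1) (hi : 0 ≤ i)
    (hu : 0 ≤ u) (hν : 0 ≤ ν) (hK : 0 ≤ K)
    (hc : ∀ a ∈ s, |c a - tc| ≤ K * ε ^ u) (hV : ∀ a ∈ s, InRect K ε i (i + m * u) th (V a - vc))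
    (hA : ∀ a ∈ s, InRect K ε (i + u) (i + m * u + u) th (A a + tc • V a - xc)) (hR : ∀ a ∈ s, |R a| ≤ RB)
    (hg : ∀ a ∈ s, |Real.sin (th - Real.arctan (R a))| ≤ ε ^ (m * u - ν)) :
    ((s.image (fun a => mObs m ε (plane m i u) (V a) (A a) (c a) (R a))).card : ℝ) ≤
      dcCdN RB K * ε ^ (-(3 * ν)) := by
  have hone := fun a ha => dc_cd_one hm h0 h1 hu hν hK (hc a ha) (hV a ha) (hA a ha) (hR a ha) (hg a ha)
  have hmu : 0 ≤ m * u := mul_nonneg hm hu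
  obtain ⟨E, hE⟩ : ∃ E, E = ε ^ (-ν) := ⟨_, rfl⟩
  have E0 : 0 < E := hE ▸ Real.rpow_pos_of_pos h0 _
  have e0 : ε ^ (-(0 : ℝ)) = 1 := by rw [neg_zero, Real.rpow_zero]
  have e3 : ε ^ (-(3 * ν)) = E * E * E := by
    rw [hE, ← Real.rpow_add h0, ← Real.rpow_add h0]; congr 1; ring
  have etot : dcCdN RB K * ε ^ (-(3 * ν)) =
      ((4 * (2 * K) + 3) * ε ^ (-(0 : ℝ))) * (((4 * (2 * (1 + RB ^ 2)) + 3) * ε ^ (-ν)) *
        (((4 * (2 * (2 * K)) + 3) * ε ^ (-(0 : ℝ))) *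
        (((4 * (2 * (2 * K * (K + 2))) + 3) * ε ^ (-(0 : ℝ))) *
        (((4 * (2 * (3 * K * (1 + (RB + 1) ^ 2))) + 3) * ε ^ (-ν)) *
          ((4 * (2 * (3 * K * (1 + (RB + 1) ^ 2) * (K + 2))) + 3) * ε ^ (-ν)))))) := by
    rw [e3, e0, ← hE]
    unfold dcCdN
    ring
  rw [etot]
  simp only [dc_cd_form]
  have p0 : (0 : ℝ) < ε ^ (-(0 : ℝ)) := by rw [e0]; norm_num
  rw [← hE]
  refine dc_cn_pair s _ _ (by positivity) ?_ fun t1 s1 c1 => ?_
  · refine dc_cn_cells s c h0 h1 hu le_rfl (by positivity) fun a ha b hb => ?_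
    rw [sub_zero]
    exact dc_cd_tri (hc a ha) (hc b hb)
  refine dc_cn_pair t1 _ _ (by positivity) ?_ fun t2 s2 c2 => ?_
  · rw [hE]
    refine dc_cn_cells t1 R h0 h1 hmu hν (by positivity) fun a ha b hb => ?_
    have ga := hg a (s1 ha)
    have gb := hg b (s1 hb)
    have t1' := dc_cn_sin_tri (Real.arctan (R a)) th (Real.arctan (R b))
    have ga' : |Real.sin (Real.arctan (R a) - th)| ≤ ε ^ (m * u - ν) := by
      rw [← neg_sub, Real.sin_neg, abs_neg]; exact ga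
    have t3 := dc_cn_slope_le (hR a (s1 ha)) (hR b (s1 hb))
    have hp : (0 : ℝ) ≤ 1 + RB ^ 2 := by positivity
    calc |R a - R b| ≤ (1 + RB ^ 2) * |Real.sin (Real.arctan (R a) - Real.arctan (R b))| := t3
      _ ≤ (1 + RB ^ 2) * (2 * ε ^ (m * u - ν)) := mul_le_mul_of_nonneg_left (by linarith) hp
      _ = _ := by ring
  refine dc_cn_pair t2 _ _ (by positivity) ?_ fun t3 s3 c3 => ?_
  · refine dc_cn_cells t2 (fun a => (V a).1) h0 h1 hi le_rfl (by positivity) fun a ha b hb => ?_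
    exact dc_cd_tri (hone a (s1 (s2 ha))).1 (hone b (s1 (s2 hb))).1
  refine dc_cn_pair t3 _ _ (by positivity) ?_ fun t4 s4 c4 => ?_
  · refine dc_cn_cells t3 (fun a => (A a).1 + trep ε u (c a) * (V a).1) h0 h1 (add_nonneg hi hu) le_rfl
      (by positivity) fun a ha b hb => ?_
    have hcab : trep ε u (c a) = trep ε u (c b) := dc_cd_trep_congr (c1 a (s2 (s3 ha)) b (s2 (s3 hb)))
    have Fa := (hone a (s1 (s2 (s3 ha)))).2.1
    have Fb := (hone b (s1 (s2 (s3 hb)))).2.1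
    rw [← hcab] at Fb
    show |(A a).1 + trep ε u (c a) * (V a).1 - ((A b).1 + trep ε u (c b) * (V b).1)| ≤ _
    rw [← hcab]
    exact dc_cd_tri Fa Fb
  refine dc_cn_pair t4 _ _ (by positivity) ?_ fun t5 s5 c5 => ?_
  · rw [hE]
    refine dc_cn_cells t4 (fun a => (V a).2 - trep ε (m * u) (R a) * (V a).1) h0 h1 (add_nonneg hi hmu) hν
      (by positivity) fun a ha b hb => ?_
    have hrab : trep ε (m * u) (R a) = trep ε (m * u) (R b) :=
      dc_cd_trep_congr (c2 a (s3 (s4 ha)) b (s3 (s4 hb)))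
    have Fa := (hone a (s1 (s2 (s3 (s4 ha))))).2.2.1
    have Fb := (hone b (s1 (s2 (s3 (s4 hb))))).2.2.1
    rw [← hrab] at Fb
    show |(V a).2 - trep ε (m * u) (R a) * (V a).1 - ((V b).2 - trep ε (m * u) (R b) * (V b).1)| ≤ _
    rw [← hrab]
    exact dc_cd_tri Fa Fb
  · rw [hE]
    refine dc_cn_cells t5 (fun a => (A a).2 + trep ε u (c a) * (V a).2 -
        trep ε (m * u) (R a) * ((A a).1 + trep ε u (c a) * (V a).1)) h0 h1
      (add_nonneg hi (mul_nonneg (by linarith) hu)) hν (by positivity) fun a ha b hb => ?_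
    have hcab : trep ε u (c a) = trep ε u (c b) :=
      dc_cd_trep_congr (c1 a (s2 (s3 (s4 (s5 ha)))) b (s2 (s3 (s4 (s5 hb)))))
    have hrab : trep ε (m * u) (R a) = trep ε (m * u) (R b) :=
      dc_cd_trep_congr (c2 a (s3 (s4 (s5 ha))) b (s3 (s4 (s5 hb))))
    have Fa := (hone a (s1 (s2 (s3 (s4 (s5 ha)))))).2.2.2
    have Fb := (hone b (s1 (s2 (s3 (s4 (s5 hb)))))).2.2.2
    rw [← hrab, ← hcab] at Fb
    show |(A a).2 + trep ε u (c a) * (V a).2 - trep ε (m * u) (R a) * ((A a).1 + trep ε u (c a) * (V a).1)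
      - ((A b).2 + trep ε u (c b) * (V b).2 - trep ε (m * u) (R b) * ((A b).1 + trep ε u (c b) * (V b).1))| ≤ _
    rw [← hrab, ← hcab]
    exact dc_cd_tri Fa Fb

/-- the constant of the total count -/
noncomputable def dcCdM (RB B : ℝ) : ℝ :=
  (8 * B + 3) * ((8 * RB + 3) * ((8 * B + 3) * ((8 * (B + (B + 1) * B) + 3) *
    ((8 * (B + (RB + 1) * B) + 3) * (8 * ((B + (B + 1) * B) + (RB + 1) * (B + (B + 1) * B)) + 3)))))

/-- the total number of canonical observations of a bounded system -/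
theorem dc_cd_all {α : Type} (s : Finset α) (V A : α → ℝ × ℝ) (c R : α → ℝ)
    {m RB B ε i u : ℝ} (hm : 0 ≤ m) (h0 : 0 < ε) (h1 : ε < 1) (hi : 0 ≤ i) (hu : 0 ≤ u) (hB : 0 ≤ B)
    (hRB : 0 ≤ RB)
    (hb : ∀ a ∈ s, |(V a).1| ≤ B ∧ |(V a).2| ≤ B ∧ |(A a).1| ≤ B ∧ |(A a).2| ≤ B ∧ |c a| ≤ B)
    (hR : ∀ a ∈ s, |R a| ≤ RB) :
    ((s.image (fun a => mObs m ε (plane m i u) (V a) (A a) (c a) (R a))).card : ℝ) ≤
      dcCdM RB B * ε ^ (-(4 * i + 3 * u + 3 * (m * u))) := by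
  have hmu : 0 ≤ m * u := mul_nonneg hm hu
  have etot : dcCdM RB B * ε ^ (-(4 * i + 3 * u + 3 * (m * u))) =
      ((8 * B + 3) * ε ^ (-u)) * (((8 * RB + 3) * ε ^ (-(m * u))) * (((8 * B + 3) * ε ^ (-i)) *
        (((8 * (B + (B + 1) * B) + 3) * ε ^ (-(i + u))) *
        (((8 * (B + (RB + 1) * B) + 3) * ε ^ (-(i + m * u))) *
          ((8 * ((B + (B + 1) * B) + (RB + 1) * (B + (B + 1) * B)) + 3) * ε ^ (-(i + (1 + m) * u))))))) := by
    have : ε ^ (-(4 * i + 3 * u + 3 * (m * u))) = ε ^ (-u) * (ε ^ (-(m * u)) * (ε ^ (-i) * (ε ^ (-(i + u)) *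
        (ε ^ (-(i + m * u)) * ε ^ (-(i + (1 + m) * u)))))) := by
      rw [← Real.rpow_add h0, ← Real.rpow_add h0, ← Real.rpow_add h0, ← Real.rpow_add h0,
        ← Real.rpow_add h0]
      congr 1; ring
    rw [this]
    unfold dcCdM
    ring
  rw [etot]
  simp only [dc_cd_form]
  have pw : ∀ x : ℝ, 0 < ε ^ x := fun x => Real.rpow_pos_of_pos h0 x
  have hcb : ∀ a ∈ s, |trep ε u (c a)| ≤ B + 1 := fun a ha => by
    have a1 := abs_le.1 (dc_cn_trep_abs h0 h1 u (c a))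
    have a2 := abs_le.1 (hb a ha).2.2.2.2
    have a3 : ε ^ u ≤ 1 := Real.rpow_le_one h0.le h1.le hu
    rw [abs_le]; constructor <;> linarith
  have hrb : ∀ a ∈ s, |trep ε (m * u) (R a)| ≤ RB + 1 := fun a ha => by
    have a1 := abs_le.1 (dc_cn_trep_abs h0 h1 (m * u) (R a))
    have a2 := abs_le.1 (hR a ha)
    have a3 : ε ^ (m * u) ≤ 1 := Real.rpow_le_one h0.le h1.le hmu
    rw [abs_le]; constructor <;> linarith
  have hY : ∀ a ∈ s, |(A a).1 + trep ε u (c a) * (V a).1| ≤ B + (B + 1) * B := fun a ha => by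
    calc _ ≤ |(A a).1| + |trep ε u (c a) * (V a).1| := abs_add_le _ _
      _ = |(A a).1| + |trep ε u (c a)| * |(V a).1| := by rw [abs_mul]
      _ ≤ B + (B + 1) * B :=
        add_le_add (hb a ha).2.2.1 (mul_le_mul (hcb a ha) (hb a ha).1 (abs_nonneg _) (by positivity))
  have hY2 : ∀ a ∈ s, |(A a).2 + trep ε u (c a) * (V a).2| ≤ B + (B + 1) * B := fun a ha => by
    calc _ ≤ |(A a).2| + |trep ε u (c a) * (V a).2| := abs_add_le _ _
      _ = |(A a).2| + |trep ε u (c a)| * |(V a).2| := by rw [abs_mul]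
      _ ≤ B + (B + 1) * B :=
        add_le_add (hb a ha).2.2.2.1 (mul_le_mul (hcb a ha) (hb a ha).2.1 (abs_nonneg _) (by positivity))
  refine dc_cn_pair s _ _ (by have := pw; positivity) ?_ fun t1 s1 _ => ?_
  · exact dc_cn_cells_all s c h0 h1 hu hB fun a ha => (hb a ha).2.2.2.2
  refine dc_cn_pair t1 _ _ (by have := pw; positivity) ?_ fun t2 s2 _ => ?_
  · exact dc_cn_cells_all t1 R h0 h1 hmu hRB fun a ha => hR a (s1 ha)
  refine dc_cn_pair t2 _ _ (by have := pw; positivity) ?_ fun t3 s3 _ => ?_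
  · exact dc_cn_cells_all t2 (fun a => (V a).1) h0 h1 hi hB fun a ha => (hb a (s1 (s2 ha))).1
  refine dc_cn_pair t3 _ _ (by have := pw; positivity) ?_ fun t4 s4 _ => ?_
  · exact dc_cn_cells_all t3 (fun a => (A a).1 + trep ε u (c a) * (V a).1) h0 h1 (add_nonneg hi hu)
      (by positivity) fun a ha => hY a (s1 (s2 (s3 ha)))
  refine dc_cn_pair t4 _ _ (by have := pw; positivity) ?_ fun t5 s5 _ => ?_
  · refine dc_cn_cells_all t4 (fun a => (V a).2 - trep ε (m * u) (R a) * (V a).1) h0 h1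
      (add_nonneg hi hmu) (by positivity) fun a ha => ?_
    have ha' := s1 (s2 (s3 (s4 ha)))
    calc _ ≤ |(V a).2| + |trep ε (m * u) (R a) * (V a).1| := abs_sub _ _
      _ = |(V a).2| + |trep ε (m * u) (R a)| * |(V a).1| := by rw [abs_mul]
      _ ≤ B + (RB + 1) * B :=
        add_le_add (hb a ha').2.1 (mul_le_mul (hrb a ha') (hb a ha').1 (abs_nonneg _) (by positivity))
  · refine dc_cn_cells_all t5 (fun a => (A a).2 + trep ε u (c a) * (V a).2 -
        trep ε (m * u) (R a) * ((A a).1 + trep ε u (c a) * (V a).1)) h0 h1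
      (add_nonneg hi (mul_nonneg (by linarith) hu)) (by positivity) fun a ha => ?_
    have ha' := s1 (s2 (s3 (s4 (s5 ha))))
    calc _ ≤ |(A a).2 + trep ε u (c a) * (V a).2|
          + |trep ε (m * u) (R a) * ((A a).1 + trep ε u (c a) * (V a).1)| := abs_sub _ _
      _ = |(A a).2 + trep ε u (c a) * (V a).2|
          + |trep ε (m * u) (R a)| * |(A a).1 + trep ε u (c a) * (V a).1| := by rw [abs_mul]
      _ ≤ (B + (B + 1) * B) + (RB + 1) * (B + (B + 1) * B) :=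
        add_le_add (hY2 a ha') (mul_le_mul (hrb a ha') (hY a ha') (abs_nonneg _) (by positivity))

/-- the canonical observation is determined by any label of the same shape whose frame agrees with the slope at depth `m u - ν`, up to `ε^(-3ν)` values; bad event by (2.3) -/
theorem dc_canon_det (m RB K B Lmax : ℝ) (hm : 0 ≤ m) : ∃ C : ℝ, ∀ (S : CSys) (ε i u L ν : ℝ)
    (R : S.Ω → ℝ) (G : S.Ω → LV), 0 < ε → ε < 1 → S.Bdd B → (∀ ω, |R ω| ≤ RB) → L ≤ Lmax → 0 ≤ u →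
    0 ≤ ν → ν ≤ m * u → S.IsLabel K ε u L G (rd i (i + m * u)) →
    S.P.entC (S.mO m ε (plane m i u) R) G / lg ε ≤ 3 * ν + C / lg ε
      + C * S.P.pr (fun ω => ε ^ (m * u - ν) < |Real.sin ((G ω).1.th - Real.arctan (R ω))|) := by
  refine ⟨Real.log 2 + Real.log (dcCdN RB K) + Real.log (dcCdM RB B) + 4 * |Lmax|, ?_⟩
  intro S ε i u L ν R G h0 h1 hBd hR hL hu hν _ hLab
  have hl := tl_tau_lg_pos h0 h1
  have hmu : 0 ≤ m * u := mul_nonneg hm hu
  obtain ⟨ω₁, hω₁⟩ := ent_exists_supp S.P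
  have pos : ∀ ω, S.P.p ω ≠ 0 → 0 < S.P.p ω := fun ω h => lt_of_le_of_ne (S.P.nonneg ω) (Ne.symm h)
  have L1 := hLab ω₁ (pos _ hω₁)
  have hi : 0 ≤ i := L1.1
  have hiL : i + m * u + u ≤ L := L1.2.2.1
  have hK : 0 ≤ K := by
    have := (abs_nonneg _).trans L1.2.2.2.1
    exact nonneg_of_mul_nonneg_left this (Real.rpow_pos_of_pos h0 _)
  have hB : 0 ≤ B := (abs_nonneg _).trans (hBd ω₁ (pos _ hω₁)).1
  have hRB : 0 ≤ RB := (abs_nonneg _).trans (hR ω₁)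
  have hN1 : 1 ≤ dcCdN RB K := by
    unfold dcCdN
    have f1 : (1 : ℝ) ≤ 4 * (2 * K) + 3 := by linarith
    have f2 : (1 : ℝ) ≤ 4 * (2 * (1 + RB ^ 2)) + 3 := by nlinarith [sq_nonneg RB]
    have f3 : (1 : ℝ) ≤ 4 * (2 * (2 * K)) + 3 := by linarith
    have f4 : (1 : ℝ) ≤ 4 * (2 * (2 * K * (K + 2))) + 3 := by
      have : 0 ≤ 2 * K * (K + 2) := by positivity
      linarith
    have f5 : (1 : ℝ) ≤ 4 * (2 * (3 * K * (1 + (RB + 1) ^ 2))) + 3 := by
      have : 0 ≤ 3 * K * (1 + (RB + 1) ^ 2) := by positivity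
      linarith
    have f6 : (1 : ℝ) ≤ 4 * (2 * (3 * K * (1 + (RB + 1) ^ 2) * (K + 2))) + 3 := by
      have : 0 ≤ 3 * K * (1 + (RB + 1) ^ 2) * (K + 2) := by positivity
      linarith
    exact one_le_mul_of_one_le_of_one_le f1 (one_le_mul_of_one_le_of_one_le f2
      (one_le_mul_of_one_le_of_one_le f3 (one_le_mul_of_one_le_of_one_le f4
        (one_le_mul_of_one_le_of_one_le f5 f6))))
  have hM1 : 1 ≤ dcCdM RB B := by
    unfold dcCdM
    have f1 : (1 : ℝ) ≤ 8 * B + 3 := by linarith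
    have f2 : (1 : ℝ) ≤ 8 * RB + 3 := by linarith
    have f4 : (1 : ℝ) ≤ 8 * (B + (B + 1) * B) + 3 := by
      have : 0 ≤ B + (B + 1) * B := by positivity
      linarith
    have f5 : (1 : ℝ) ≤ 8 * (B + (RB + 1) * B) + 3 := by
      have : 0 ≤ B + (RB + 1) * B := by positivity
      linarith
    have f6 : (1 : ℝ) ≤ 8 * ((B + (B + 1) * B) + (RB + 1) * (B + (B + 1) * B)) + 3 := by
      have : 0 ≤ (B + (B + 1) * B) + (RB + 1) * (B + (B + 1) * B) := by positivity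
      linarith
    exact one_le_mul_of_one_le_of_one_le f1 (one_le_mul_of_one_le_of_one_le f2
      (one_le_mul_of_one_le_of_one_le f1 (one_le_mul_of_one_le_of_one_le f4
        (one_le_mul_of_one_le_of_one_le f5 f6))))
  have hone : (1 : ℝ) ≤ ε ^ (-(3 * ν)) :=
    Real.one_le_rpow_of_pos_of_le_one_of_nonpos h0 h1.le (by linarith)
  have hA := ent_ambiguity S.P G (S.mO m ε (plane m i u) R)
    (fun ω => ε ^ (m * u - ν) < |Real.sin ((G ω).1.th - Real.arctan (R ω))|)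
    (N := dcCdN RB K * ε ^ (-(3 * ν))) (M := dcCdM RB B * ε ^ (-(4 * i + 3 * u + 3 * (m * u))))
    (ζ := S.P.pr (fun ω => ε ^ (m * u - ν) < |Real.sin ((G ω).1.th - Real.arctan (R ω))|))
    (one_le_mul_of_one_le_of_one_le hN1 hone) ?_ ?_ le_rfl
  · rw [dc_cn_log h0 (by linarith), dc_cn_log h0 (by linarith)] at hA
    refine dc_cn_final hl (ent_pr_nonneg _ _) (ent_pr_le_one _ _) (Real.log_nonneg hM1) hA ?_ ?_
    · have := abs_nonneg Lmax
      linarith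
    · have a1 := Real.log_nonneg (show (1 : ℝ) ≤ 2 by norm_num)
      have a2 := Real.log_nonneg hN1
      have a3 := Real.log_nonneg hM1
      have := le_abs_self Lmax
      linarith
  · refine dc_cn_nval S.P (fun ω => ¬ ε ^ (m * u - ν) < |Real.sin ((G ω).1.th - Real.arctan (R ω))|)
      (S.mO m ε (plane m i u) R) G _ fun t ht hG => ?_
    rcases t.eq_empty_or_nonempty with rfl | ⟨x₀, hx₀⟩
    · simp only [Finset.image_empty, Finset.card_empty, Nat.cast_zero]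
      have := Real.rpow_pos_of_pos h0 (-(3 * ν))
      positivity
    · refine dc_cd_good t (fun ω => S.V (S.T ω)) (fun ω => S.A (S.T ω)) S.c R
        (tc := (G x₀).1.tc) (th := (G x₀).1.th) (vc := (G x₀).1.vc) (xc := (G x₀).1.xc)
        hm h0 h1 hi hu hν hK ?_ ?_ ?_ (fun a _ => hR a) ?_
      · intro a ha
        have := (hLab a (pos _ (ht a ha).1)).2.2.2.1
        rw [hG a ha x₀ hx₀] at this
        exact this
      · intro a ha
        have := (hLab a (pos _ (ht a ha).1)).2.2.2.2.1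
        rw [hG a ha x₀ hx₀] at this
        exact this
      · intro a ha
        have := (hLab a (pos _ (ht a ha).1)).2.2.2.2.2
        rw [hG a ha x₀ hx₀] at this
        exact this
      · intro a ha
        have := not_lt.1 (ht a ha).2
        rw [hG a ha x₀ hx₀] at this
        exact this
  · refine ⟨(Finset.univ.filter (fun ω => S.P.p ω ≠ 0)).image (S.mO m ε (plane m i u) R), ?_, fun ω hω =>
      Finset.mem_image_of_mem _ (Finset.mem_filter.2 ⟨Finset.mem_univ _, hω⟩)⟩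
    exact dc_cd_all _ (fun ω => S.V (S.T ω)) (fun ω => S.A (S.T ω)) S.c R hm h0 h1 hi hu hB hRB
      (fun a ha => hBd a (pos _ (Finset.mem_filter.1 ha).2)) (fun a _ => hR a)

/-- the slope prefix at depth `d` is determined by the orientation cell of a label at depth `d` whose frame agrees with the slope at depth `d - ν` -/
theorem dc_slope_det (RB dmax : ℝ) : ∃ C : ℝ, ∀ {Ω : Type} [Fintype Ω] (P : FLaw Ω) (ε d ν : ℝ)
    (R : Ω → ℝ) (G : Ω → LV), 0 < ε → ε < 1 → (∀ ω, |R ω| ≤ RB) → ThN G → 0 ≤ ν → ν ≤ d → d ≤ dmax →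
    P.entC (fun ω => tcell ε d (R ω)) (ori ε d G) / lg ε ≤ ν + C / lg ε
      + C * P.pr (fun ω => ε ^ (d - ν) < |Real.sin ((G ω).1.th - Real.arctan (R ω))|) := by
  refine ⟨Real.log 2 + Real.log (4 * (3 * (1 + RB ^ 2)) + 3) + Real.log (8 * |RB| + 3) + |dmax|, ?_⟩
  intro Ω _ P ε d ν R G h0 h1 hR _ hν hνd hd
  have hl := tl_tau_lg_pos h0 h1
  have hd0 : 0 ≤ d := hν.trans hνd
  have hc : (0 : ℝ) < 4 * (3 * (1 + RB ^ 2)) + 3 := by positivity
  have hc' : (0 : ℝ) < 8 * |RB| + 3 := by positivity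
  have hone : (1 : ℝ) ≤ ε ^ (-ν) := Real.one_le_rpow_of_pos_of_le_one_of_nonpos h0 h1.le (by linarith)
  have hA := ent_ambiguity P (ori ε d G) (fun ω => tcell ε d (R ω))
    (fun ω => ε ^ (d - ν) < |Real.sin ((G ω).1.th - Real.arctan (R ω))|)
    (N := (4 * (3 * (1 + RB ^ 2)) + 3) * ε ^ (-ν)) (M := (8 * |RB| + 3) * ε ^ (-d))
    (ζ := P.pr (fun ω => ε ^ (d - ν) < |Real.sin ((G ω).1.th - Real.arctan (R ω))|))
    (by nlinarith [sq_nonneg RB]) ?_ ?_ le_rfl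
  · rw [dc_cn_log h0 hc, dc_cn_log h0 hc'] at hA
    refine dc_cn_final hl (ent_pr_nonneg _ _) (ent_pr_le_one _ _)
      (Real.log_nonneg (by have := abs_nonneg RB; linarith)) hA ?_ ?_
    · have := abs_nonneg dmax
      linarith
    · have a1 := Real.log_nonneg (show (1 : ℝ) ≤ 2 by norm_num)
      have a2 := Real.log_nonneg (show (1 : ℝ) ≤ 4 * (3 * (1 + RB ^ 2)) + 3 by nlinarith [sq_nonneg RB])
      have a3 := Real.log_nonneg (show (1 : ℝ) ≤ 8 * |RB| + 3 by have := abs_nonneg RB; linarith)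
      have := le_abs_self dmax
      linarith
  · refine dc_cn_nval P (fun ω => ¬ ε ^ (d - ν) < |Real.sin ((G ω).1.th - Real.arctan (R ω))|)
      (fun ω => tcell ε d (R ω)) (ori ε d G) _ fun t ht hA => ?_
    refine dc_cn_cells t R h0 h1 hd0 hν (by positivity) fun x hx y hy => ?_
    have gx : |Real.sin ((G x).1.th - Real.arctan (R x))| ≤ ε ^ (d - ν) := not_lt.1 (ht x hx).2
    have gy : |Real.sin ((G y).1.th - Real.arctan (R y))| ≤ ε ^ (d - ν) := not_lt.1 (ht y hy).2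
    have hth : |(G x).1.th - (G y).1.th| ≤ ε ^ d := dc_cn_same h0 h1 (hA x hx y hy)
    have hth' : |Real.sin ((G x).1.th - (G y).1.th)| ≤ ε ^ (d - ν) :=
      (Real.abs_sin_le_abs).trans (hth.trans
        (Real.rpow_le_rpow_of_exponent_ge h0 h1.le (by linarith)))
    have t1 := dc_cn_sin_tri (Real.arctan (R x)) ((G x).1.th) (Real.arctan (R y))
    have t2 := dc_cn_sin_tri ((G x).1.th) ((G y).1.th) (Real.arctan (R y))
    have gx' : |Real.sin (Real.arctan (R x) - (G x).1.th)| ≤ ε ^ (d - ν) := by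
      rw [← neg_sub, Real.sin_neg, abs_neg]; exact gx
    have t3 := dc_cn_slope_le (hR x) (hR y)
    have hp : (0 : ℝ) ≤ 1 + RB ^ 2 := by positivity
    calc |R x - R y| ≤ (1 + RB ^ 2) * |Real.sin (Real.arctan (R x) - Real.arctan (R y))| := t3
      _ ≤ (1 + RB ^ 2) * (3 * ε ^ (d - ν)) := mul_le_mul_of_nonneg_left (by linarith) hp
      _ = _ := by ring
  · refine ⟨Finset.univ.image (fun ω => tcell ε d (R ω)), ?_, fun ω _ =>
      Finset.mem_image_of_mem _ (Finset.mem_univ _)⟩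
    exact dc_cn_cells_all _ R h0 h1 hd0 (abs_nonneg _) fun x _ => (hR x).trans (le_abs_self _)

theorem dc_ml_tcell_max {ε : ℝ} (h0 : 0 < ε) (h1 : ε < 1) (d x : ℝ) :
    tcell ε d x = tcell ε (max d 0) x := by
  unfold tcell
  rw [dc_cn_tlev_max h0 h1 d]

theorem dc_ml_trep_max {ε : ℝ} (h0 : 0 < ε) (h1 : ε < 1) (d x : ℝ) :
    trep ε d x = trep ε (max d 0) x := by
  unfold trep
  rw [dc_ml_tcell_max h0 h1 d, dc_cn_tlev_max h0 h1 d]

theorem dc_ml_same {ε : ℝ} (h0 : 0 < ε) (h1 : ε < 1) {d x y : ℝ} (h : tcell ε d x = tcell ε d y) :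
    |x - y| ≤ ε ^ (max d 0) := by
  rw [dc_ml_tcell_max h0 h1 d x, dc_ml_tcell_max h0 h1 d y] at h
  exact dc_cn_same h0 h1 h

theorem dc_ml_trep_abs {ε : ℝ} (h0 : 0 < ε) (h1 : ε < 1) (d x : ℝ) :
    |x - trep ε d x| ≤ ε ^ (max d 0) := by
  rw [dc_ml_trep_max h0 h1 d x]
  exact dc_cn_trep_abs h0 h1 _ _

theorem dc_ml_trep_congr {ε d x y : ℝ} (h : tcell ε d x = tcell ε d y) : trep ε d x = trep ε d y := by
  unfold trep
  rw [h]

theorem dc_ml_step {α : Type} (t : Finset α) (f : α → ℝ) {ε d μ : ℝ} (h0 : 0 < ε) (h1 : ε < 1)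
    (hμ : 0 ≤ μ) (h : ∀ x ∈ t, ∀ y ∈ t, |f x - f y| ≤ 5 * ε ^ (max d 0 - μ)) :
    ((t.image (fun x => tcell ε d (f x))).card : ℝ) ≤ 23 * ε ^ (-μ) := by
  have e : (fun x => tcell ε d (f x)) = fun x => tcell ε (max d 0) (f x) := by
    funext x
    exact dc_ml_tcell_max h0 h1 d _
  rw [e]
  have := dc_cn_cells t f h0 h1 (le_max_right d 0) hμ (by norm_num : (0 : ℝ) ≤ 5) h
  linarith

theorem dc_ml_mul {ε a b d x y : ℝ} (h0 : 0 < ε) (h1 : ε < 1) (hx : |x| ≤ 2 * ε ^ a) (hy : |y| ≤ ε ^ b)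
    (hd : d ≤ a + b) : |x * y| ≤ 2 * ε ^ d := by
  rw [abs_mul]
  have pa : 0 < ε ^ a := Real.rpow_pos_of_pos h0 a
  calc |x| * |y| ≤ (2 * ε ^ a) * ε ^ b := mul_le_mul hx hy (abs_nonneg _) (by positivity)
    _ = 2 * ε ^ (a + b) := by rw [Real.rpow_add h0]; ring
    _ ≤ 2 * ε ^ d := by
        have := Real.rpow_le_rpow_of_exponent_ge h0 h1.le hd
        linarith

theorem dc_ml_two {ε a b d x y w : ℝ} (h0 : 0 < ε) (h1 : ε < 1) (hx : |x - y| ≤ ε ^ a)
    (hy : |x - w| ≤ ε ^ b) (ha : d ≤ a) (hb : d ≤ b) : |y - w| ≤ 2 * ε ^ d := by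
  have A := Real.rpow_le_rpow_of_exponent_ge h0 h1.le ha
  have B := Real.rpow_le_rpow_of_exponent_ge h0 h1.le hb
  obtain ⟨x1, x2⟩ := abs_le.1 hx
  obtain ⟨y1, y2⟩ := abs_le.1 hy
  rw [abs_le]
  constructor <;> linarith

/-- the six diameters, for two points with the same observation at `z'` -/
theorem dc_ml_pt {m ε ν : ℝ} {z z' : Cfg} (hm : 0 ≤ m) (h0 : 0 < ε) (h1 : ε < 1) (hz : z.Adm m)
    (hν : 0 ≤ ν) (hX : |z.LX - z'.LX| ≤ ν) (hY : |z.LY - z'.LY| ≤ ν) (hW : |z.LW - z'.LW| ≤ ν)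
    (hZ : |z.LZ - z'.LZ| ≤ ν) (hv : |z.v - z'.v| ≤ ν) (V A V' A' : ℝ × ℝ) (c R c' R' : ℝ)
    (h : mObs m ε z' V A c R = mObs m ε z' V' A' c' R') :
    |c - c'| ≤ 5 * ε ^ (max z.v 0 - (1 + m) * ν) ∧
    |R - R'| ≤ 5 * ε ^ (max (m * z.v) 0 - (1 + m) * ν) ∧
    |V.1 - V'.1| ≤ 5 * ε ^ (max z.LX 0 - (1 + m) * ν) ∧
    (tcell ε z.v c = tcell ε z.v c' → tcell ε z.LX V.1 = tcell ε z.LX V'.1 →
      |(A.1 + trep ε z.v c * V.1) - (A'.1 + trep ε z.v c' * V'.1)| ≤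
        5 * ε ^ (max z.LY 0 - (1 + m) * ν)) ∧
    (tcell ε (m * z.v) R = tcell ε (m * z.v) R' → tcell ε z.LX V.1 = tcell ε z.LX V'.1 →
      |(V.2 - trep ε (m * z.v) R * V.1) - (V'.2 - trep ε (m * z.v) R' * V'.1)| ≤
        5 * ε ^ (max z.LW 0 - (1 + m) * ν)) ∧
    (tcell ε z.v c = tcell ε z.v c' → tcell ε (m * z.v) R = tcell ε (m * z.v) R' →
      tcell ε z.LW (V.2 - trep ε (m * z.v) R * V.1) = tcell ε z.LW (V'.2 - trep ε (m * z.v) R' * V'.1) →
      |(A.2 + trep ε z.v c * V.2 - trep ε (m * z.v) R * (A.1 + trep ε z.v c * V.1)) -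
        (A'.2 + trep ε z.v c' * V'.2 - trep ε (m * z.v) R' * (A'.1 + trep ε z.v c' * V'.1))| ≤
        5 * ε ^ (max z.LZ 0 - (1 + m) * ν)) := by
  obtain ⟨z1, z2, z3, z4, z5, z6⟩ := hz
  unfold mObs at h
  simp only [Prod.mk.injEq] at h
  obtain ⟨e1, e2, e3, e4, e5, e6⟩ := h
  obtain ⟨μ, hμ⟩ : ∃ μ, μ = (1 + m) * ν := ⟨_, rfl⟩
  rw [← hμ]
  have hmν : 0 ≤ m * ν := mul_nonneg hm hν
  have hμs : μ = ν + m * ν := by rw [hμ]; ring
  have pX := abs_le.1 ((abs_max_sub_max_le_abs z.LX z'.LX 0).trans hX)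
  have pY := abs_le.1 ((abs_max_sub_max_le_abs z.LY z'.LY 0).trans hY)
  have pW := abs_le.1 ((abs_max_sub_max_le_abs z.LW z'.LW 0).trans hW)
  have pZ := abs_le.1 ((abs_max_sub_max_le_abs z.LZ z'.LZ 0).trans hZ)
  have pv := abs_le.1 ((abs_max_sub_max_le_abs z.v z'.v 0).trans hv)
  have hmv : |m * z.v - m * z'.v| ≤ m * ν := by
    rw [← mul_sub, abs_mul, abs_of_nonneg hm]
    exact mul_le_mul_of_nonneg_left hv hm
  have pm := abs_le.1 ((abs_max_sub_max_le_abs (m * z.v) (m * z'.v) 0).trans hmv)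
  have hmz : 0 ≤ m * z.v := mul_nonneg hm z5.le
  have mv0 : max z.v 0 = z.v := max_eq_left z5.le
  have mm0 : max (m * z.v) 0 = m * z.v := max_eq_left hmz
  have mono : ∀ {a b : ℝ}, b ≤ a → ε ^ a ≤ ε ^ b :=
    fun h => Real.rpow_le_rpow_of_exponent_ge h0 h1.le h
  have pos : ∀ a : ℝ, 0 < ε ^ a := fun a => Real.rpow_pos_of_pos h0 a
  have d1 := dc_ml_same h0 h1 e1
  have d2 := dc_ml_same h0 h1 e2
  have d3 := dc_ml_same h0 h1 e3
  have d4 := dc_ml_same h0 h1 e4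
  have d5 := dc_ml_same h0 h1 e5
  have d6 := dc_ml_same h0 h1 e6
  have eC' := dc_ml_trep_congr e1
  have eR' := dc_ml_trep_congr e2
  have hCC : |trep ε z.v c - trep ε z'.v c| ≤ 2 * ε ^ (z.v - ν) :=
    dc_ml_two h0 h1 (dc_ml_trep_abs h0 h1 z.v c) (dc_ml_trep_abs h0 h1 z'.v c) (by linarith)
      (by linarith [pv.1, pv.2])
  have hRR : |trep ε (m * z'.v) R - trep ε (m * z.v) R| ≤ 2 * ε ^ (m * z.v - m * ν) :=
    dc_ml_two h0 h1 (dc_ml_trep_abs h0 h1 (m * z'.v) R) (dc_ml_trep_abs h0 h1 (m * z.v) R)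
      (by linarith [pm.1, pm.2]) (by linarith)
  have lX := le_max_left z.LX 0
  have rX := le_max_right z.LX 0
  have lY := le_max_left z.LY 0
  have rY := le_max_right z.LY 0
  have lW := le_max_left z.LW 0
  have rW := le_max_right z.LW 0
  have qY : max z.LY 0 ≤ max z.LX 0 + z.v := max_le (by linarith) (by linarith)
  have qW : max z.LW 0 ≤ max z.LX 0 + m * z.v := max_le (by linarith) (by linarith)
  have qZ1 : max z.LZ 0 ≤ max z.LW 0 + z.v := max_le (by linarith) (by linarith)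
  have qZ2 : max z.LZ 0 ≤ max z.LY 0 + m * z.v := max_le (by linarith) (by linarith)
  refine ⟨?_, ?_, ?_, ?_, ?_, ?_⟩
  · have := mono (show max z.v 0 - μ ≤ max z'.v 0 by linarith [pv.1, pv.2])
    linarith [pos (max z.v 0 - μ)]
  · have := mono (show max (m * z.v) 0 - μ ≤ max (m * z'.v) 0 by linarith [pm.1, pm.2])
    linarith [pos (max (m * z.v) 0 - μ)]
  · have := mono (show max z.LX 0 - μ ≤ max z'.LX 0 by linarith [pX.1, pX.2])
    linarith [pos (max z.LX 0 - μ)]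
  · intro c1 c3
    have eC := dc_ml_trep_congr c1
    have dX := dc_ml_same h0 h1 c3
    have id : (A.1 + trep ε z.v c * V.1) - (A'.1 + trep ε z.v c' * V'.1) =
        ((A.1 + trep ε z'.v c * V.1) - (A'.1 + trep ε z'.v c' * V'.1)) +
          (trep ε z.v c - trep ε z'.v c) * (V.1 - V'.1) := by
      rw [← eC, ← eC']
      ring
    rw [id]
    have b1 := mono (show max z.LY 0 - μ ≤ max z'.LY 0 by linarith [pY.1, pY.2])
    have b2 := dc_ml_mul h0 h1 hCC dX (show max z.LY 0 - μ ≤ z.v - ν + max z.LX 0 by linarith)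
    have := abs_add_le ((A.1 + trep ε z'.v c * V.1) - (A'.1 + trep ε z'.v c' * V'.1))
      ((trep ε z.v c - trep ε z'.v c) * (V.1 - V'.1))
    linarith [pos (max z.LY 0 - μ)]
  · intro c2 c3
    have eR := dc_ml_trep_congr c2
    have dX := dc_ml_same h0 h1 c3
    have id : (V.2 - trep ε (m * z.v) R * V.1) - (V'.2 - trep ε (m * z.v) R' * V'.1) =
        ((V.2 - trep ε (m * z'.v) R * V.1) - (V'.2 - trep ε (m * z'.v) R' * V'.1)) +
          (trep ε (m * z'.v) R - trep ε (m * z.v) R) * (V.1 - V'.1) := by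
      rw [← eR, ← eR']
      ring
    rw [id]
    have b1 := mono (show max z.LW 0 - μ ≤ max z'.LW 0 by linarith [pW.1, pW.2])
    have b2 := dc_ml_mul h0 h1 hRR dX (show max z.LW 0 - μ ≤ m * z.v - m * ν + max z.LX 0 by linarith)
    have := abs_add_le ((V.2 - trep ε (m * z'.v) R * V.1) - (V'.2 - trep ε (m * z'.v) R' * V'.1))
      ((trep ε (m * z'.v) R - trep ε (m * z.v) R) * (V.1 - V'.1))
    linarith [pos (max z.LW 0 - μ)]
  · intro c1 c2 c5
    have eC := dc_ml_trep_congr c1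
    have eR := dc_ml_trep_congr c2
    have dW := dc_ml_same h0 h1 c5
    have id : (A.2 + trep ε z.v c * V.2 - trep ε (m * z.v) R * (A.1 + trep ε z.v c * V.1)) -
        (A'.2 + trep ε z.v c' * V'.2 - trep ε (m * z.v) R' * (A'.1 + trep ε z.v c' * V'.1)) =
        ((A.2 + trep ε z'.v c * V.2 - trep ε (m * z'.v) R * (A.1 + trep ε z'.v c * V.1)) -
        (A'.2 + trep ε z'.v c' * V'.2 - trep ε (m * z'.v) R' * (A'.1 + trep ε z'.v c' * V'.1))) +
        (trep ε z.v c - trep ε z'.v c) *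
          ((V.2 - trep ε (m * z.v) R * V.1) - (V'.2 - trep ε (m * z.v) R' * V'.1)) +
        (trep ε (m * z'.v) R - trep ε (m * z.v) R) *
          ((A.1 + trep ε z'.v c * V.1) - (A'.1 + trep ε z'.v c' * V'.1)) := by
      rw [← eC, ← eC', ← eR, ← eR']
      ring
    rw [id]
    have b1 := mono (show max z.LZ 0 - μ ≤ max z'.LZ 0 by linarith [pZ.1, pZ.2])
    have b2 := dc_ml_mul h0 h1 hCC dW (show max z.LZ 0 - μ ≤ z.v - ν + max z.LW 0 by linarith)
    have b3 := dc_ml_mul h0 h1 hRR d4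
      (show max z.LZ 0 - μ ≤ m * z.v - m * ν + max z'.LY 0 by linarith [pY.1, pY.2])
    have t1 := abs_add_le (((A.2 + trep ε z'.v c * V.2 - trep ε (m * z'.v) R * (A.1 + trep ε z'.v c * V.1)) -
        (A'.2 + trep ε z'.v c' * V'.2 - trep ε (m * z'.v) R' * (A'.1 + trep ε z'.v c' * V'.1))) +
        (trep ε z.v c - trep ε z'.v c) *
          ((V.2 - trep ε (m * z.v) R * V.1) - (V'.2 - trep ε (m * z.v) R' * V'.1)))
        ((trep ε (m * z'.v) R - trep ε (m * z.v) R) *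
          ((A.1 + trep ε z'.v c * V.1) - (A'.1 + trep ε z'.v c' * V'.1)))
    have t2 := abs_add_le ((A.2 + trep ε z'.v c * V.2 - trep ε (m * z'.v) R * (A.1 + trep ε z'.v c * V.1)) -
        (A'.2 + trep ε z'.v c' * V'.2 - trep ε (m * z'.v) R' * (A'.1 + trep ε z'.v c' * V'.1)))
        ((trep ε z.v c - trep ε z'.v c) *
          ((V.2 - trep ε (m * z.v) R * V.1) - (V'.2 - trep ε (m * z.v) R' * V'.1)))
    linarith [pos (max z.LZ 0 - μ)]

/-- sequential counting of the six coordinates -/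
theorem dc_ml_core {α : Type} (s : Finset α) (V A : α → ℝ × ℝ) (c R : α → ℝ) {m ε ν : ℝ} {z z' : Cfg}
    (hm : 0 ≤ m) (h0 : 0 < ε) (h1 : ε < 1) (hz : z.Adm m) (hν : 0 ≤ ν)
    (hX : |z.LX - z'.LX| ≤ ν) (hY : |z.LY - z'.LY| ≤ ν) (hW : |z.LW - z'.LW| ≤ ν)
    (hZ : |z.LZ - z'.LZ| ≤ ν) (hv : |z.v - z'.v| ≤ ν)
    (hs : ∀ a ∈ s, ∀ b ∈ s, mObs m ε z' (V a) (A a) (c a) (R a) = mObs m ε z' (V b) (A b) (c b) (R b)) :
    ((s.image (fun a => mObs m ε z (V a) (A a) (c a) (R a))).card : ℝ) ≤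
      (23 * ε ^ (-((1 + m) * ν))) ^ 6 := by
  have hμ0 : 0 ≤ (1 + m) * ν := by positivity
  have hp := fun a ha b hb => dc_ml_pt hm h0 h1 hz hν hX hY hW hZ hv (V a) (A a) (V b) (A b) (c a) (R a)
    (c b) (R b) (hs a ha b hb)
  obtain ⟨B, hB⟩ : ∃ B, B = 23 * ε ^ (-((1 + m) * ν)) := ⟨_, rfl⟩
  have hB0 : 0 ≤ B := by rw [hB]; positivity
  have e6 : (23 * ε ^ (-((1 + m) * ν))) ^ 6 = B * (B * (B * (B * (B * B)))) := by rw [← hB]; ring
  rw [e6]
  unfold mObs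
  refine dc_cn_pair s _ _ (by positivity) ?_ fun t1 s1 c1 => ?_
  · rw [hB]
    exact dc_ml_step s c h0 h1 hμ0 fun a ha b hb => (hp a ha b hb).1
  refine dc_cn_pair t1 _ _ (by positivity) ?_ fun t2 s2 c2 => ?_
  · rw [hB]
    exact dc_ml_step t1 R h0 h1 hμ0 fun a ha b hb => (hp a (s1 ha) b (s1 hb)).2.1
  refine dc_cn_pair t2 _ _ (by positivity) ?_ fun t3 s3 c3 => ?_
  · rw [hB]
    exact dc_ml_step t2 (fun a => (V a).1) h0 h1 hμ0
      fun a ha b hb => (hp a (s1 (s2 ha)) b (s1 (s2 hb))).2.2.1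
  refine dc_cn_pair t3 _ _ (by positivity) ?_ fun t4 s4 c4 => ?_
  · rw [hB]
    exact dc_ml_step t3 (fun a => (A a).1 + trep ε z.v (c a) * (V a).1) h0 h1 hμ0
      fun a ha b hb => (hp a (s1 (s2 (s3 ha))) b (s1 (s2 (s3 hb)))).2.2.2.1
        (c1 a (s2 (s3 ha)) b (s2 (s3 hb))) (c3 a ha b hb)
  refine dc_cn_pair t4 _ _ hB0 ?_ fun t5 s5 c5 => ?_
  · rw [hB]
    exact dc_ml_step t4 (fun a => (V a).2 - trep ε (m * z.v) (R a) * (V a).1) h0 h1 hμ0
      fun a ha b hb => (hp a (s1 (s2 (s3 (s4 ha)))) b (s1 (s2 (s3 (s4 hb))))).2.2.2.2.1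
        (c2 a (s3 (s4 ha)) b (s3 (s4 hb))) (c3 a (s4 ha) b (s4 hb))
  · rw [hB]
    exact dc_ml_step t5 (fun a => (A a).2 + trep ε z.v (c a) * (V a).2 -
        trep ε (m * z.v) (R a) * ((A a).1 + trep ε z.v (c a) * (V a).1)) h0 h1 hμ0
      fun a ha b hb => (hp a (s1 (s2 (s3 (s4 (s5 ha))))) b (s1 (s2 (s3 (s4 (s5 hb)))))).2.2.2.2.2
        (c1 a (s2 (s3 (s4 (s5 ha)))) b (s2 (s3 (s4 (s5 hb)))))
        (c2 a (s3 (s4 (s5 ha))) b (s3 (s4 (s5 hb)))) (c5 a ha b hb)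

/-- Lipschitz dependence of the canonical observations on the configuration (`z` admissible, `z'` arbitrary).
`Y_v = Y_{v'} + (C_v - C_{v'}) X`, `W_v = W_{v'} + (R̄' - R̄) X`, `Z_v - Z_{v'} = (C_v - C_{v'}) W_v + (R̄' - R̄) Y_{v'}`; fix successively `C_v, R_{mv}, [X], [Y], [W], [Z]`. -/
theorem dc_mobs_lip (m : ℝ) (hm : 0 ≤ m) : ∃ C : ℝ, ∀ (S : CSys) (ε ν : ℝ) (z z' : Cfg) (R : S.Ω → ℝ),
    0 < ε → ε < 1 → z.Adm m → 0 ≤ ν → |z.LX - z'.LX| ≤ ν → |z.LY - z'.LY| ≤ ν → |z.LW - z'.LW| ≤ ν →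
    |z.LZ - z'.LZ| ≤ ν → |z.v - z'.v| ≤ ν →
    ∃ N : ℝ, N ≤ Real.exp (C * ν * lg ε + C) ∧ ∀ x : ℤ × ℤ × ℤ × ℤ × ℤ × ℤ,
      ((Finset.univ.filter (fun ω => S.mO m ε z' R ω = x)).image (S.mO m ε z R)).card ≤ N := by
  refine ⟨max (6 * (1 + m)) (6 * Real.log 23), fun S ε ν z z' R h0 h1 hz hν hX hY hW hZ hv => ?_⟩
  refine ⟨(23 * ε ^ (-((1 + m) * ν))) ^ 6, ?_, fun x => ?_⟩
  · have hl : 0 < lg ε := tl_tau_lg_pos h0 h1
    have hpos : 0 < 23 * ε ^ (-((1 + m) * ν)) := by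
      have := Real.rpow_pos_of_pos h0 (-((1 + m) * ν))
      positivity
    rw [← Real.exp_log (pow_pos hpos 6), Real.exp_le_exp, Real.log_pow,
      dc_cn_log h0 (by norm_num : (0 : ℝ) < 23)]
    have a1 := le_max_left (6 * (1 + m)) (6 * Real.log 23)
    have a2 := le_max_right (6 * (1 + m)) (6 * Real.log 23)
    have a3 : 0 ≤ ν * lg ε := mul_nonneg hν hl.le
    have a4 := mul_le_mul_of_nonneg_right a1 a3
    push_cast
    nlinarith
  · refine dc_ml_core _ (fun ω => S.V (S.T ω)) (fun ω => S.A (S.T ω)) S.c R hm h0 h1 hz hν hX hY hW hZ hv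
      fun a ha b hb => ?_
    have ea := (Finset.mem_filter.1 ha).2
    have eb := (Finset.mem_filter.1 hb).2
    exact ea.trans eb.symm

end Claimed.Agent.R255
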