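import Claimed.Agent.R255.Cl.Dich.Ops

/-!
# Row 255 (BR paper), chapter DICHOTOMY (P4.6-P4.8), package DC-CHART      (architect helper40; prefix `dc_`)
Plan and vocabulary: `Cl/DichDefs.lean`.  The owner of the package edits ONLY this file (helper lemmas above the contracts, or in `Cl/Dich/Chart/*.lean`).  Do not change the statements without asking helper40.

PROOF (helper43).  `E n = {|sin th| ≤ |cos th|}` for the terminal frame.  Along the ultrafilter either `P(E n) ≥ 1/2` or `P(¬ E n) ≥ 1/2`.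
* `dcCondPath P E hE` : the path conditioned on events of mass `≥ 1/2` (`dc_cond_keep`, `dc_deficit_cond`, `dc_deficit_ge`);
* `dcRotPath P`       : the path rotated by a right angle: `V, A, vc, xc ↦ J ·`, `th ↦ dcTh th = th ± π/2` (a bijection of `[0, π)`, the identity elsewhere);
  `τ`, the score, boxes and labels are invariant (`dc_rot_tau`, `dc_rot_score`, `dc_rot_bdd`, `dc_rot_label`).
-/

set_option autoImplicit false

namespace Claimed.Agent.R255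

open Filter Topology
open Classical

/-! ### the rotation by a right angle -/

/-- rotation of the plane by a right angle -/
def dcJ (z : ℝ × ℝ) : ℝ × ℝ := (- z.2, z.1)

/-- the inverse rotation -/
def dcJi (z : ℝ × ℝ) : ℝ × ℝ := (z.2, - z.1)

theorem dc_J_Ji (z : ℝ × ℝ) : dcJ (dcJi z) = z := by
  unfold dcJ dcJi
  ext <;> simp

theorem dc_J_inj : Function.Injective dcJ := by
  intro z w h
  unfold dcJ at h
  simp only [Prod.mk.injEq, neg_inj] at h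
  exact Prod.ext h.2 h.1

theorem dc_ip_J (z w : ℝ × ℝ) : ip (dcJ z) (dcJ w) = ip z w := by
  unfold ip dcJ
  ring

theorem dc_ip_neg (z w : ℝ × ℝ) : ip z (- w) = - ip z w := by
  unfold ip
  simp only [Prod.fst_neg, Prod.snd_neg]
  ring

theorem dc_J_sub (z w : ℝ × ℝ) : dcJ z - dcJ w = dcJ (z - w) := by
  unfold dcJ
  ext <;> simp <;> ring

theorem dc_J_add_smul (z w : ℝ × ℝ) (c : ℝ) : dcJ z + c • dcJ w = dcJ (z + c • w) := by
  unfold dcJ
  ext <;> simp <;> ring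

theorem dc_tang_add (th : ℝ) : tang (th + Real.pi / 2) = dcJ (tang th) := by
  unfold tang dcJ
  rw [Real.cos_add_pi_div_two, Real.sin_add_pi_div_two]

theorem dc_nrm_add (th : ℝ) : nrm (th + Real.pi / 2) = dcJ (nrm th) := by
  unfold nrm dcJ
  rw [Real.cos_add_pi_div_two, Real.sin_add_pi_div_two]

theorem dc_tang_sub (th : ℝ) : tang (th - Real.pi / 2) = - dcJ (tang th) := by
  unfold tang dcJ
  rw [Real.cos_sub_pi_div_two, Real.sin_sub_pi_div_two]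
  simp

theorem dc_nrm_sub (th : ℝ) : nrm (th - Real.pi / 2) = - dcJ (nrm th) := by
  unfold nrm dcJ
  rw [Real.cos_sub_pi_div_two, Real.sin_sub_pi_div_two]
  simp

theorem dc_inRect_add (K ε b a th : ℝ) (z : ℝ × ℝ) :
    InRect K ε b a (th + Real.pi / 2) (dcJ z) ↔ InRect K ε b a th z := by
  unfold InRect
  rw [dc_tang_add, dc_nrm_add, dc_ip_J, dc_ip_J]

theorem dc_inRect_sub (K ε b a th : ℝ) (z : ℝ × ℝ) :
    InRect K ε b a (th - Real.pi / 2) (dcJ z) ↔ InRect K ε b a th z := by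
  unfold InRect
  rw [dc_tang_sub, dc_nrm_sub, dc_ip_neg, dc_ip_neg, abs_neg, abs_neg, dc_ip_J, dc_ip_J]

/-- the new angle: `th ± π/2` on `[0, π)`, the identity elsewhere -/
noncomputable def dcTh (th : ℝ) : ℝ :=
  if 0 ≤ th ∧ th < Real.pi / 2 then th + Real.pi / 2
  else if Real.pi / 2 ≤ th ∧ th < Real.pi then th - Real.pi / 2 else th

theorem dc_th_cases (th : ℝ) :
    (0 ≤ th ∧ th < Real.pi / 2 ∧ dcTh th = th + Real.pi / 2) ∨
      (Real.pi / 2 ≤ th ∧ th < Real.pi ∧ dcTh th = th - Real.pi / 2) ∨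
      ((th < 0 ∨ Real.pi ≤ th) ∧ dcTh th = th) := by
  have hpi := Real.pi_pos
  unfold dcTh
  by_cases h1 : 0 ≤ th ∧ th < Real.pi / 2
  · exact Or.inl ⟨h1.1, h1.2, if_pos h1⟩
  · rw [if_neg h1]
    by_cases h2 : Real.pi / 2 ≤ th ∧ th < Real.pi
    · exact Or.inr (Or.inl ⟨h2.1, h2.2, if_pos h2⟩)
    · rw [if_neg h2]
      refine Or.inr (Or.inr ⟨?_, rfl⟩)
      by_contra h3
      push Not at h3
      by_cases h4 : th < Real.pi / 2
      · exact h1 ⟨h3.1, h4⟩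
      · exact h2 ⟨not_lt.1 h4, h3.2⟩

theorem dc_th_inj : Function.Injective dcTh := by
  intro x y h
  have hpi := Real.pi_pos
  rcases dc_th_cases x with ⟨a1, a2, a3⟩ | ⟨a1, a2, a3⟩ | ⟨a1, a3⟩ <;>
  rcases dc_th_cases y with ⟨b1, b2, b3⟩ | ⟨b1, b2, b3⟩ | ⟨b1, b3⟩ <;>
  rw [a3, b3] at h
  · linarith
  · linarith
  · rcases b1 with b1 | b1 <;> linarith
  · linarith
  · linarith
  · rcases b1 with b1 | b1 <;> linarith
  · rcases a1 with a1 | a1 <;> linarith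
  · rcases a1 with a1 | a1 <;> linarith
  · exact h

theorem dc_th_range {th : ℝ} (h0 : 0 ≤ th) (h1 : th < Real.pi) : 0 ≤ dcTh th ∧ dcTh th < Real.pi := by
  have hpi := Real.pi_pos
  rcases dc_th_cases th with ⟨a1, a2, a3⟩ | ⟨a1, a2, a3⟩ | ⟨a1, a3⟩
  · rw [a3]
    constructor <;> linarith
  · rw [a3]
    constructor <;> linarith
  · rcases a1 with a1 | a1 <;> linarith

theorem dc_inRect_th (K ε b a : ℝ) {th : ℝ} (h0 : 0 ≤ th) (h1 : th < Real.pi) (z : ℝ × ℝ) :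
    InRect K ε b a (dcTh th) (dcJ z) ↔ InRect K ε b a th z := by
  rcases dc_th_cases th with ⟨a1, a2, a3⟩ | ⟨a1, a2, a3⟩ | ⟨a1, a3⟩
  · rw [a3]
    exact dc_inRect_add K ε b a th z
  · rw [a3]
    exact dc_inRect_sub K ε b a th z
  · rcases a1 with a1 | a1 <;> linarith

theorem dc_th_trig {th : ℝ} (h0 : 0 ≤ th) (h1 : th < Real.pi) :
    |Real.sin (dcTh th)| = |Real.cos th| ∧ |Real.cos (dcTh th)| = |Real.sin th| := by
  rcases dc_th_cases th with ⟨a1, a2, a3⟩ | ⟨a1, a2, a3⟩ | ⟨a1, a3⟩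
  · rw [a3, Real.cos_add_pi_div_two, Real.sin_add_pi_div_two, abs_neg]
    exact ⟨rfl, rfl⟩
  · rw [a3, Real.cos_sub_pi_div_two, Real.sin_sub_pi_div_two, abs_neg]
    exact ⟨rfl, rfl⟩
  · rcases a1 with a1 | a1 <;> linarith

/-- the rotated label value -/
noncomputable def dcLV (g : LV) : LV :=
  ({ g.1 with th := dcTh g.1.th, vc := dcJ g.1.vc, xc := dcJ g.1.xc }, g.2)

theorem dc_LV_inj : Function.Injective dcLV := by
  rintro ⟨⟨b, a, tc, th, vc, xc⟩, k⟩ ⟨⟨b', a', tc', th', vc', xc'⟩, k'⟩ h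
  simp only [dcLV, Prod.mk.injEq, Geo.mk.injEq] at h
  obtain ⟨⟨h1, h2, h3, h4, h5, h6⟩, h7⟩ := h
  rw [h1, h2, h3, dc_th_inj h4, dc_J_inj h5, dc_J_inj h6, h7]

/-- the rotated system -/
def dcRot (S : CSys) : CSys := { S with V := fun i => dcJ (S.V i), A := fun i => dcJ (S.A i) }

theorem dc_rot_bdd (S : CSys) (B : ℝ) (h : S.Bdd B) : (dcRot S).Bdd B := by
  intro ω hω
  obtain ⟨h1, h2, h3, h4, h5⟩ := h ω hω
  refine ⟨?_, h1, ?_, h3, h5⟩
  · show |-(S.V (S.T ω)).2| ≤ B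
    rw [abs_neg]
    exact h2
  · show |-(S.A (S.T ω)).2| ≤ B
    rw [abs_neg]
    exact h4

theorem dc_rot_label (S : CSys) (K ε t L b a : ℝ) (G : S.Ω → LV) (hN : ThN G) (h : S.IsLabel K ε t L G (rd b a)) :
    (dcRot S).IsLabel K ε t L (fun ω => dcLV (G ω)) (rd b a) := by
  intro ω hω
  obtain ⟨h1, h2, h3, h4, h5, h6⟩ := h ω hω
  refine ⟨h1, h2, h3, h4, ?_, ?_⟩
  · show InRect K ε b a (dcTh (G ω).1.th) (dcJ (S.V (S.T ω)) - dcJ (G ω).1.vc)
    rw [dc_J_sub, dc_inRect_th K ε b a (hN ω).1 (hN ω).2]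
    exact h5
  · show InRect K ε (b + t) (a + t) (dcTh (G ω).1.th)
      (dcJ (S.A (S.T ω)) + (G ω).1.tc • dcJ (S.V (S.T ω)) - dcJ (G ω).1.xc)
    rw [dc_J_add_smul, dc_J_sub, dc_inRect_th K ε (b + t) (a + t) (hN ω).1 (hN ω).2]
    exact h6

theorem dc_rot_thn {Ω : Type} (G : Ω → LV) (hN : ThN G) : ThN (fun ω => dcLV (G ω)) :=
  fun ω => dc_th_range (hN ω).1 (hN ω).2

theorem dc_rot_tauSet (S : CSys) (γ ε L : ℝ) : (dcRot S).tauSet γ ε L = S.tauSet γ ε L := by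
  ext x
  constructor
  · rintro ⟨Ω', fΩ, P', T', Γ, D, geo, hT, hC, rfl⟩
    refine ⟨Ω', fΩ, P', T', Γ, D,
      fun g => { geo g with th := (geo g).th - Real.pi / 2, vc := dcJi (geo g).vc, xc := dcJi (geo g).xc }, hT, ?_, rfl⟩
    intro ω hω
    obtain ⟨h1, h2, h3, h4, h5⟩ := hC ω hω
    refine ⟨h1, h2, h3, ?_, ?_⟩
    · show InRect 1 ε (geo (D ω)).b (geo (D ω)).a ((geo (D ω)).th - Real.pi / 2) (S.V (T' ω) - dcJi (geo (D ω)).vc)
      rw [← dc_inRect_add, ← dc_J_sub, dc_J_Ji, sub_add_cancel]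
      exact h4
    · show InRect 1 ε (geo (D ω)).b (geo (D ω)).a ((geo (D ω)).th - Real.pi / 2) (S.A (T' ω) - dcJi (geo (D ω)).xc)
      rw [← dc_inRect_add, ← dc_J_sub, dc_J_Ji, sub_add_cancel]
      exact h5
  · rintro ⟨Ω', fΩ, P', T', Γ, D, geo, hT, hC, rfl⟩
    refine ⟨Ω', fΩ, P', T', Γ, D,
      fun g => { geo g with th := (geo g).th + Real.pi / 2, vc := dcJ (geo g).vc, xc := dcJ (geo g).xc }, hT, ?_, rfl⟩
    intro ω hω
    obtain ⟨h1, h2, h3, h4, h5⟩ := hC ω hω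
    refine ⟨h1, h2, h3, ?_, ?_⟩
    · show InRect 1 ε (geo (D ω)).b (geo (D ω)).a ((geo (D ω)).th + Real.pi / 2) (dcJ (S.V (T' ω)) - dcJ (geo (D ω)).vc)
      rw [dc_J_sub, dc_inRect_add]
      exact h4
    · show InRect 1 ε (geo (D ω)).b (geo (D ω)).a ((geo (D ω)).th + Real.pi / 2) (dcJ (S.A (T' ω)) - dcJ (geo (D ω)).xc)
      rw [dc_J_sub, dc_inRect_add]
      exact h5

theorem dc_rot_tau (S : CSys) (γ ε L : ℝ) : (dcRot S).tau γ ε L = S.tau γ ε L := by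
  unfold CSys.tau
  rw [dc_rot_tauSet]

theorem dc_rot_score (S : CSys) (γ ε t b a : ℝ) (G : S.Ω → LV) :
    (dcRot S).score γ ε t (fun ω => dcLV (G ω)) (rd b a) = S.score γ ε t G (rd b a) := by
  have h1 : S.P.mi S.T (fun ω => dcLV (G ω)) = S.P.mi S.T G :=
    ent_mi_congr S.P _ _ _ _ (fun _ _ _ _ => Iff.rfl) (fun _ _ _ _ => dc_LV_inj.eq_iff)
  show S.P.ev (fun ω => wt γ (rd b a (dcLV (G ω)))) - S.P.mi S.T (fun ω => dcLV (G ω)) / lg ε + 2 * S.St ε t = _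
  rw [h1]
  rfl

theorem dc_rot_deficit (S : CSys) (γ ε t L b a : ℝ) (G : S.Ω → LV) :
    (dcRot S).deficit γ ε t L (fun ω => dcLV (G ω)) (rd b a) = S.deficit γ ε t L G (rd b a) := by
  unfold CSys.deficit
  rw [dc_rot_tau, dc_rot_score]

/-! ### the rotated path -/

/-- the rotated sequence -/
noncomputable def dcRotSeq (Q : CSeq) : CSeq where
  ε := Q.ε
  S := fun n => dcRot (Q.S n)
  pos := Q.pos
  lim := Q.lim
  B := Q.B
  bdd := Q.bdd.mono fun n h => dc_rot_bdd (Q.S n) Q.B h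

/-- the rotated path -/
noncomputable def dcRotPath {γ m : ℝ} (P : SPath γ m) : SPath γ m where
  Q := dcRotSeq P.Q
  lab := fun u n ω => dcLV (P.lab u n ω)
  b := P.b
  a := P.a
  bdd := P.bdd.mono fun n h => dc_rot_bdd (P.Q.S n) 1 h
  thn := fun u hu => (P.thn u hu).mono fun n h => dc_rot_thn (P.lab u n) h
  isLab := fun u hu => ((P.thn u hu).and (P.isLab u hu)).mono fun n h =>
    dc_rot_label (P.Q.S n) 1 (P.Q.ε n) u (1 + m) (P.b u) (P.a u) (P.lab u n) h.1 h.2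
  sat := fun u hu => (P.sat u hu).congr fun n =>
    (dc_rot_deficit (P.Q.S n) γ (P.Q.ε n) u (1 + m) (P.b u) (P.a u) (P.lab u n)).symm
  b_one := P.b_one
  a_one := P.a_one
  nest := P.nest

/-! ### the conditioned path -/

/-- the conditioned sequence -/
noncomputable def dcCondSeq (Q : CSeq) (E : ∀ n, (Q.S n).Ω → Prop) : CSeq where
  ε := Q.ε
  S := fun n => (Q.S n).condOn (E n)
  pos := Q.pos
  lim := Q.lim
  B := Q.B
  bdd := Q.bdd.mono fun n h => (dc_cond_keep (Q.S n) (E n)).1 Q.B h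

/-- the durations of a path lie below the horizon -/
theorem dc_label_le (S : CSys) (K ε t L b a : ℝ) (G : S.Ω → LV) (h : S.IsLabel K ε t L G (rd b a)) : t ≤ L := by
  obtain ⟨ω, hω⟩ := ent_exists_supp S.P
  obtain ⟨h1, h2, h3, _⟩ := h ω (lt_of_le_of_ne (S.P.nonneg ω) (Ne.symm hω))
  have h1' : 0 ≤ b := h1
  have h2' : b ≤ a := h2
  have h3' : a + t ≤ L := h3
  linarith

/-- saturation survives conditioning on events of mass at least one half -/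
theorem dc_cond_sat {γ m : ℝ} (h0 : 0 < γ) (h1 : γ < 1) (P : SPath γ m) (E : ∀ n, (P.Q.S n).Ω → Prop)
    (hE : ∀ᶠ n in uf, 1 / 2 ≤ (P.Q.S n).P.pr (E n)) (u : ℝ) (hu : u ∈ Dy) :
    Tendsto (fun n => ((P.Q.S n).condOn (E n)).deficit γ (P.Q.ε n) u (1 + m) (P.lab u n) (rd (P.b u) (P.a u))) uf (𝓝 0) := by
  have hu0 : 0 < u := by
    obtain ⟨k, j, hj, _, rfl⟩ := hu
    positivity
  rw [Metric.tendsto_nhds]
  intro η hη
  obtain ⟨ε₁, hε₁, _, H1⟩ := dc_deficit_ge γ 1 1 (1 + m) u (η / 8) h0 h1 hu0 (by positivity)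
  obtain ⟨ε₂, hε₂, _, H2⟩ := dc_deficit_cond γ 1 1 (1 + m) u (η / 8) h0 h1 hu0 (by positivity)
  have e1 : ∀ᶠ n in uf, P.Q.ε n < ε₁ := (tendsto_order.1 P.Q.lim).2 ε₁ hε₁
  have e2 : ∀ᶠ n in uf, P.Q.ε n < ε₂ := (tendsto_order.1 P.Q.lim).2 ε₂ hε₂
  have e3 : ∀ᶠ n in uf, (P.Q.S n).deficit γ (P.Q.ε n) u (1 + m) (P.lab u n) (rd (P.b u) (P.a u)) < η / 8 :=
    (tendsto_order.1 (P.sat u hu)).2 (η / 8) (by positivity)
  filter_upwards [e1, e2, e3, hE, P.bdd, P.isLab u hu] with n a1 a2 a3 a4 a5 a6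
  have hle : u ≤ 1 + m := dc_label_le _ _ _ _ _ _ _ _ a6
  have hpos : 0 < (P.Q.S n).P.pr (E n) := lt_of_lt_of_le (by norm_num) a4
  have k1 := H1 ((P.Q.S n).condOn (E n)) (P.Q.ε n) u (1 + m) LV (P.lab u n) (rd (P.b u) (P.a u)) (P.Q.pos n).1 a1
    ((dc_cond_keep (P.Q.S n) (E n)).1 1 a5) (Or.inr le_rfl) hle le_rfl
    ((dc_cond_keep (P.Q.S n) (E n)).2 1 (P.Q.ε n) u (1 + m) LV (P.lab u n) (rd (P.b u) (P.a u)) a6)
  have k2 := H2 (P.Q.S n) (P.Q.ε n) u (1 + m) LV (P.lab u n) (rd (P.b u) (P.a u)) (E n) (P.Q.pos n).1 a2 a5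
    (Or.inr le_rfl) hle le_rfl a6 hpos
  rw [Real.dist_eq, sub_zero, abs_lt]
  constructor
  · linarith
  · by_contra hcon
    have hcon' := not_lt.1 hcon
    have k3 : 1 / 2 * η ≤ (P.Q.S n).P.pr (E n) *
        ((P.Q.S n).condOn (E n)).deficit γ (P.Q.ε n) u (1 + m) (P.lab u n) (rd (P.b u) (P.a u)) :=
      mul_le_mul a4 hcon' hη.le hpos.le
    linarith

/-- the path conditioned on events of mass at least one half -/
noncomputable def dcCondPath {γ m : ℝ} (h0 : 0 < γ) (h1 : γ < 1) (P : SPath γ m) (E : ∀ n, (P.Q.S n).Ω → Prop)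
    (hE : ∀ᶠ n in uf, 1 / 2 ≤ (P.Q.S n).P.pr (E n)) : SPath γ m where
  Q := dcCondSeq P.Q E
  lab := P.lab
  b := P.b
  a := P.a
  bdd := P.bdd.mono fun n h => (dc_cond_keep (P.Q.S n) (E n)).1 1 h
  thn := P.thn
  isLab := fun u hu => (P.isLab u hu).mono fun n h =>
    (dc_cond_keep (P.Q.S n) (E n)).2 1 (P.Q.ε n) u (1 + m) LV (P.lab u n) (rd (P.b u) (P.a u)) h
  sat := fun u hu => dc_cond_sat h0 h1 P E hE u hu
  b_one := P.b_one
  a_one := P.a_one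
  nest := P.nest

/-- the support of the conditioned path -/
theorem dc_cond_supp (S : CSys) (E : S.Ω → Prop) (hE : 1 / 2 ≤ S.P.pr E) (ω : S.Ω) (hω : 0 < (S.condOn E).P.p ω) : E ω :=
  ((ent_cnd_supp S.P E (lt_of_lt_of_le (by norm_num) hE)).1 hω.ne').1

theorem dc_one_mem_Dy : (1 : ℝ) ∈ Dy := ⟨0, 1, by norm_num, by norm_num, by norm_num⟩

/-- after a binary split on the terminal frame and possibly a rotation of the plane by a right angle, the terminal slope is at most `1` -/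
theorem dc_path_chart {γ m : ℝ} (h0 : 0 < γ) (h1 : γ < 1) (P : SPath γ m) :
    ∃ P' : SPath γ m, P'.b = P.b ∧ P'.a = P.a ∧
      ∀ᶠ n in uf, ∀ ω, 0 < (P'.Q.S n).P.p ω →
        |Real.sin (P'.lab 1 n ω).1.th| ≤ |Real.cos (P'.lab 1 n ω).1.th| := by
  rcases uf_em (fun n => 1 / 2 ≤ (P.Q.S n).P.pr
      (fun ω => |Real.sin (P.lab 1 n ω).1.th| ≤ |Real.cos (P.lab 1 n ω).1.th|)) with hE | hE
  · refine ⟨dcCondPath h0 h1 P _ hE, rfl, rfl, hE.mono fun n hn ω hω => ?_⟩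
    exact dc_cond_supp (P.Q.S n) _ hn ω hω
  · have hE' : ∀ᶠ n in uf, 1 / 2 ≤ (P.Q.S n).P.pr
        (fun ω => ¬ |Real.sin (P.lab 1 n ω).1.th| ≤ |Real.cos (P.lab 1 n ω).1.th|) := by
      refine hE.mono fun n hn => ?_
      rw [ent_pr_not]
      linarith [not_le.1 hn]
    refine ⟨dcRotPath (dcCondPath h0 h1 P _ hE'), rfl, rfl,
      (hE'.and (P.thn 1 dc_one_mem_Dy)).mono fun n hn ω hω => ?_⟩
    have h2 := dc_cond_supp (P.Q.S n) _ hn.1 ω hω
    obtain ⟨h3, h4⟩ := dc_th_trig (hn.2 ω).1 (hn.2 ω).2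
    show |Real.sin (dcTh (P.lab 1 n ω).1.th)| ≤ |Real.cos (dcTh (P.lab 1 n ω).1.th)|
    rw [h3, h4]
    exact (not_le.1 h2).le

end Claimed.Agent.R255
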