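import Claimed.Agent.R255.Cl.Dich.Lin
import Claimed.Agent.R255.Cl.Dich.Canon
import Claimed.Agent.R255.Cl.Dich.Chart

/-!
# Row 255 (BR paper), chapter DICHOTOMY (P4.6-P4.8), package DC-MPRE      (architect helper40; prefix `dc_`)
Plan and vocabulary: `Cl/DichDefs.lean`.  The owner of the package edits ONLY this file (helper lemmas above the contracts, or in `Cl/Dich/MPre/*.lean`).  Do not change the statements without asking helper40.
PROVED (helper168): no `sorry` in this file; helper lemmas have the prefix `dc_mp_`.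
-/

set_option autoImplicit false

namespace Claimed.Agent.R255

open Filter Topology
open Classical

/-! ### small tools on sequences -/

theorem dc_mp_eps_nhdsGT (Q : CSeq) : Tendsto Q.ε uf (𝓝[>] 0) :=
  tendsto_nhdsWithin_iff.2 ⟨Q.lim, Eventually.of_forall fun n => (Q.pos n).1⟩

theorem dc_mp_lg_atTop (Q : CSeq) : Tendsto (fun n => lg (Q.ε n)) uf atTop := by
  have h1 : Tendsto (fun n => Real.log (Q.ε n)) uf atBot := Real.tendsto_log_nhdsGT_zero.comp (dc_mp_eps_nhdsGT Q)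
  have h2 : (fun n => lg (Q.ε n)) = fun n => - Real.log (Q.ε n) := by
    funext n
    unfold lg
    rw [one_div, Real.log_inv]
  rw [h2]
  exact tendsto_neg_atBot_atTop.comp h1

theorem dc_mp_div_lg (Q : CSeq) (C : ℝ) : Tendsto (fun n => C / lg (Q.ε n)) uf (𝓝 0) :=
  (dc_mp_lg_atTop Q).const_div_atTop C

theorem dc_mp_lg_pos (Q : CSeq) (n : ℕ) : 0 < lg (Q.ε n) := by
  unfold lg
  exact Real.log_pos (by rw [lt_div_iff₀ (Q.pos n).1, one_mul]; exact (Q.pos n).2)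

theorem dc_mp_rpow_tendsto (Q : CSeq) {c : ℝ} (hc : 0 < c) : Tendsto (fun n => Q.ε n ^ c) uf (𝓝 0) := by
  have := Q.lim.rpow_const (p := c) (Or.inr hc.le)
  rwa [Real.zero_rpow hc.ne'] at this

/-! ### the linear path -/

theorem dc_mp_lip {γ m : ℝ} (P : SPath γ m) (hlin : ∀ u ∈ Dy, P.a u - P.b u = m * u) :
    ∀ r ∈ Dy, ∀ t ∈ Dy, r < t → P.b t ≤ P.b r ∧ P.b r - P.b t ≤ (1 + m) * (t - r) := by
  intro r hr t ht hrt
  obtain ⟨h1, h2⟩ := P.nest r hr t ht hrt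
  have e1 := hlin r hr
  have e2 := hlin t ht
  exact ⟨h1, by linarith⟩

theorem dc_mp_Dw {γ m : ℝ} (hm : 0 ≤ m) (P : SPath γ m) (hlin : ∀ u ∈ Dy, P.a u - P.b u = m * u) :
    ∀ r ∈ Dy, ∀ t ∈ Dy, r < t → Dw P.b P.a r t ≤ (3 + 3 * m) * (t - r) := by
  intro r hr t ht hrt
  obtain ⟨h1, h2⟩ := dc_mp_lip P hlin r hr t ht hrt
  have e1 := hlin r hr
  have e2 := hlin t ht
  have h3 : 0 ≤ m * (t - r) := mul_nonneg hm (by linarith)
  unfold Dw
  rw [abs_of_nonneg (by linarith : 0 ≤ P.b r - P.b t), abs_of_nonneg (by linarith : 0 ≤ t - r)]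
  have h4 : |P.a r - P.a t| ≤ (1 + m) * (t - r) := by
    rw [abs_le]
    constructor <;> nlinarith
  nlinarith

/-- a dyadic chain of small step from `u` to `1` -/
theorem dc_mp_chain (u : ℝ) (hu : u ∈ Dy) (δ : ℝ) (hδ : 0 < δ) :
    ∃ (c : ℕ → ℝ) (N : ℕ), DyChain c N ∧ c 0 = u ∧ c N = 1 ∧ (∀ j, j < N → c (j + 1) - c j < δ) ∧ ∀ j, u ≤ c j := by
  obtain ⟨k₀, j₀, hj0, hj1, rfl⟩ := hu
  obtain ⟨k, hk⟩ := pow_unbounded_of_one_lt (1 / δ) (one_lt_two : (1 : ℝ) < 2)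
  have h2 : (0 : ℝ) < 2 ^ (k₀ + k) := by positivity
  have hJ : j₀ * 2 ^ k ≤ 2 ^ (k₀ + k) := by
    rw [pow_add]
    exact Nat.mul_le_mul_right _ hj1
  have e0 : ((j₀ : ℝ)) / 2 ^ k₀ = ((j₀ * 2 ^ k : ℕ) : ℝ) / 2 ^ (k₀ + k) := by
    push_cast
    rw [pow_add]
    field_simp
  refine ⟨fun i => ((j₀ * 2 ^ k + i : ℕ) : ℝ) / 2 ^ (k₀ + k), 2 ^ (k₀ + k) - j₀ * 2 ^ k, ⟨fun i hi => ?_, fun i _ => ?_⟩, ?_, ?_,
    fun i _ => ?_, fun i => ?_⟩
  · exact ⟨k₀ + k, j₀ * 2 ^ k + i, by positivity, by omega, rfl⟩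
  · show ((j₀ * 2 ^ k + i : ℕ) : ℝ) / 2 ^ (k₀ + k) < ((j₀ * 2 ^ k + (i + 1) : ℕ) : ℝ) / 2 ^ (k₀ + k)
    rw [div_lt_div_iff_of_pos_right h2]
    exact_mod_cast (by omega : j₀ * 2 ^ k + i < j₀ * 2 ^ k + (i + 1))
  · show ((j₀ * 2 ^ k + 0 : ℕ) : ℝ) / 2 ^ (k₀ + k) = _
    rw [e0, add_zero]
  · show ((j₀ * 2 ^ k + (2 ^ (k₀ + k) - j₀ * 2 ^ k) : ℕ) : ℝ) / 2 ^ (k₀ + k) = 1
    rw [Nat.add_sub_cancel' hJ]
    push_cast
    exact div_self h2.ne'
  · show ((j₀ * 2 ^ k + (i + 1) : ℕ) : ℝ) / 2 ^ (k₀ + k) - ((j₀ * 2 ^ k + i : ℕ) : ℝ) / 2 ^ (k₀ + k) < δ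
    rw [← sub_div]
    push_cast
    have h3 : ((j₀ : ℝ) * 2 ^ k + (i + 1) - (j₀ * 2 ^ k + i)) = 1 := by ring
    rw [h3]
    have h4 : (2 : ℝ) ^ k ≤ 2 ^ (k₀ + k) := pow_le_pow_right₀ one_le_two (by omega)
    rw [div_lt_iff₀ h2]
    rw [div_lt_iff₀ hδ] at hk
    nlinarith
  · show (j₀ : ℝ) / 2 ^ k₀ ≤ ((j₀ * 2 ^ k + i : ℕ) : ℝ) / 2 ^ (k₀ + k)
    rw [e0, div_le_div_iff_of_pos_right h2]
    exact_mod_cast Nat.le_add_right _ _

/-- on the linear path the frame at `u` agrees with the terminal frame at every depth below `m u` (fine dyadic chain from `u` to `1`, `dc_path_coh`) -/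
theorem dc_path_coh1 {γ m : ℝ} (h0 : 0 < γ) (h1 : γ < 1) (hm : 0 < m) (P : SPath γ m)
    (hlin : ∀ u ∈ Dy, P.a u - P.b u = m * u) (u : ℝ) (hu : u ∈ Dy) (ν : ℝ) (hν : 0 < ν) (hνu : ν ≤ m * u) :
    Tendsto (fun n => (P.Q.S n).P.pr (fun ω => (P.Q.ε n) ^ (m * u - ν) <
      |Real.sin ((P.lab u n ω).1.th - (P.lab 1 n ω).1.th)|)) uf (𝓝 0) := by
  have hK : 0 < Kc γ := by unfold Kc; positivity
  have hδ : 0 < ν / (2 * (Kc γ * (3 + 3 * m))) := by positivity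
  obtain ⟨c, N, hc, hc0, hcN, hstep, hge⟩ := dc_mp_chain u hu _ hδ
  have hd0 : 0 < m * u - ν / 2 := by linarith
  have hcoh : CohDepth (Kc γ) P.b P.a c N (m * u - ν / 2) := by
    refine Or.inr ⟨hd0, fun j hj => ?_⟩
    have hj1 := hc.1 j hj.le
    have hj2 := hc.1 (j + 1) hj
    have hlt := hc.2 j hj
    rw [hlin _ hj1, hlin _ hj2]
    have h3 := dc_mp_Dw hm.le P hlin _ hj1 _ hj2 hlt
    have h4 := hstep j hj
    rw [lt_div_iff₀ (by positivity)] at h4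
    have h5 : Kc γ * Dw P.b P.a (c j) (c (j + 1)) ≤ Kc γ * ((3 + 3 * m) * (c (j + 1) - c j)) :=
      mul_le_mul_of_nonneg_left h3 hK.le
    have h6 : m * u ≤ min (m * c j) (m * c (j + 1)) :=
      le_min (mul_le_mul_of_nonneg_left (hge j) hm.le) (mul_le_mul_of_nonneg_left (hge (j + 1)) hm.le)
    nlinarith
  have hmain := dc_path_coh h0 h1 P c N hc _ hd0 hcoh
  rw [hc0, hcN] at hmain
  have hsmall : ∀ᶠ n in uf, P.Q.ε n ^ (ν / 2) < 1 / (2 * N + 1) :=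
    (dc_mp_rpow_tendsto P.Q (by positivity : 0 < ν / 2)).eventually_lt_const (by positivity)
  refine squeeze_zero' (Eventually.of_forall fun n => ent_pr_nonneg _ _) ?_ hmain
  filter_upwards [hsmall] with n hn
  refine ent_pr_mono _ fun ω _ hω => lt_of_le_of_lt ?_ hω
  have hε := (P.Q.pos n).1
  have e : P.Q.ε n ^ (m * u - ν / 2) = P.Q.ε n ^ (m * u - ν) * P.Q.ε n ^ (ν / 2) := by
    rw [← Real.rpow_add hε]
    congr 1
    ring
  rw [e]
  have hp : 0 < P.Q.ε n ^ (m * u - ν) := Real.rpow_pos_of_pos hε _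
  have h7 : 2 * (N : ℝ) * P.Q.ε n ^ (ν / 2) ≤ 1 := by
    rw [lt_div_iff₀ (by positivity)] at hn
    have : 0 < P.Q.ε n ^ (ν / 2) := Real.rpow_pos_of_pos hε _
    nlinarith
  nlinarith

/-! ### the terminal slope -/

/-- the clipped slope of a frame -/
noncomputable def dcSlope (th : ℝ) : ℝ := max (-1) (min 1 (Real.tan th))

theorem dc_mp_slope_abs (th : ℝ) : |dcSlope th| ≤ 1 := by
  unfold dcSlope
  rw [abs_le]
  exact ⟨le_max_left _ _, max_le (by norm_num) (min_le_left _ _)⟩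

/-- in the chart `|sin th| ≤ |cos th|` the frame `arctan (slope)` is the frame `th` -/
theorem dc_mp_sin_arctan {th : ℝ} (h : |Real.sin th| ≤ |Real.cos th|) (x : ℝ) :
    |Real.sin (x - Real.arctan (dcSlope th))| = |Real.sin (x - th)| := by
  have hc : Real.cos th ≠ 0 := by
    intro h0
    rw [h0, abs_zero] at h
    have h1 : Real.sin th = 0 := abs_eq_zero.1 (le_antisymm h (abs_nonneg _))
    have := Real.sin_sq_add_cos_sq th
    rw [h0, h1] at this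
    norm_num at this
  have ht : |Real.tan th| ≤ 1 := by
    rw [Real.tan_eq_sin_div_cos, abs_div, div_le_one (abs_pos.2 hc)]
    exact h
  have hR : dcSlope th = Real.tan th := by
    unfold dcSlope
    obtain ⟨h1, h2⟩ := abs_le.1 ht
    rw [min_eq_right h2, max_eq_right h1]
  rw [hR]
  set φ := Real.arctan (Real.tan th) with hφ
  have h1 : Real.tan φ = Real.tan th := Real.tan_arctan _
  have hcφ : 0 < Real.cos φ := Real.cos_arctan_pos _
  have h2 : Real.sin (th - φ) = 0 := by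
    rw [Real.sin_sub]
    rw [Real.tan_eq_sin_div_cos, Real.tan_eq_sin_div_cos, div_eq_div_iff hcφ.ne' hc] at h1
    linarith
  have h3 : |Real.cos (th - φ)| = 1 := by
    have h4 : |Real.cos (th - φ)| ^ 2 = 1 := by
      rw [sq_abs]
      have := Real.sin_sq_add_cos_sq (th - φ)
      rw [h2] at this
      linarith
    exact (pow_eq_one_iff_of_nonneg (abs_nonneg _) two_ne_zero).1 h4
  have h5 : x - φ = (x - th) + (th - φ) := by ring
  rw [h5, Real.sin_add, h2, mul_zero, add_zero, abs_mul, h3, mul_one]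

theorem dc_mp_tendsto_zero {x : ℕ → ℝ} (hl : ∀ ν : ℝ, 0 < ν → ∀ᶠ n in uf, -ν ≤ x n)
    (hu : ∀ ν : ℝ, 0 < ν → ∀ᶠ n in uf, x n ≤ ν) : Tendsto x uf (𝓝 0) := by
  rw [tendsto_order]
  constructor
  · intro a ha
    filter_upwards [hl (-a / 2) (by linarith)] with n hn
    linarith
  · intro a ha
    filter_upwards [hu (a / 2) (by linarith)] with n hn
    linarith

theorem dc_mp_one_mem : (1 : ℝ) ∈ Dy := ⟨0, 1, one_pos, by norm_num, by norm_num⟩

theorem dc_mp_pos {u : ℝ} (hu : u ∈ Dy) : 0 < u := by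
  obtain ⟨k, j, hj, -, rfl⟩ := hu
  positivity

/-- the bad event of `dc_canon_det`, `dc_slope_det` has small probability -/
theorem dc_mp_bad {γ m : ℝ} (h0 : 0 < γ) (h1 : γ < 1) (hm : 0 < m) (P : SPath γ m)
    (hlin : ∀ u ∈ Dy, P.a u - P.b u = m * u)
    (hch : ∀ᶠ n in uf, ∀ ω, 0 < (P.Q.S n).P.p ω → |Real.sin (P.lab 1 n ω).1.th| ≤ |Real.cos (P.lab 1 n ω).1.th|)
    (u : ℝ) (hu : u ∈ Dy) (ν : ℝ) (hν : 0 < ν) (hνu : ν ≤ m * u) :
    Tendsto (fun n => (P.Q.S n).P.pr (fun ω => (P.Q.ε n) ^ (m * u - ν) <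
      |Real.sin ((P.lab u n ω).1.th - Real.arctan (dcSlope (P.lab 1 n ω).1.th))|)) uf (𝓝 0) := by
  refine (dc_path_coh1 h0 h1 hm P hlin u hu ν hν hνu).congr' ?_
  filter_upwards [hch] with n hn
  refine ent_pr_congr _ fun ω hω => ?_
  rw [dc_mp_sin_arctan (hn ω (lt_of_le_of_ne ((P.Q.S n).P.nonneg ω) (Ne.symm hω)))]

/-- information of a second observation -/
theorem dc_mp_mi_le {Ω : Type} [Fintype Ω] (P : FLaw Ω) {α β δ : Type} (T : Ω → α) (O : Ω → β) (G : Ω → δ) :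
    P.mi T O ≤ P.mi T G + P.entC O G := by
  have h1 : P.mi T O ≤ P.mi T (FLaw.pair O G) := ent_mi_mono P T _ _ fun ω ω' _ _ h => congrArg Prod.fst h
  rw [ent_mi_chain] at h1
  have h2 := ent_miC_le_right P T O G
  linarith

/-- prediction through an intermediate observation -/
theorem dc_mp_entC_le {Ω : Type} [Fintype Ω] (P : FLaw Ω) {α β δ : Type} (X : Ω → α) (Y : Ω → β) (Z : Ω → δ) :
    P.entC X Z ≤ P.entC Y Z + P.entC X Y := by
  have h1 : P.entC X Z ≤ P.entC (FLaw.pair Y X) Z := ent_entC_mono P _ _ _ fun ω ω' _ _ h _ => congrArg Prod.snd h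
  rw [ent_entC_chain] at h1
  have h2 := ent_entC_pair_le P X Y Z
  linarith

theorem dc_mp_ev_wt (S : CSys) (γ i a : ℝ) {Γ : Type} (O : S.Ω → Γ) (geo : Γ → Geo)
    (hgeo : ∀ j, (geo j).b = i ∧ (geo j).a = a) :
    S.P.ev (fun ω => wt γ (geo (O ω))) = (1 + γ) * i + (1 - γ) * a := by
  have : (fun ω => wt γ (geo (O ω))) = fun _ => (1 + γ) * i + (1 - γ) * a := by
    funext ω
    unfold wt
    rw [(hgeo _).1, (hgeo _).2]
  rw [this, ent_ev_const]

/-- the saturation functional is `β u -` deficit -/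
theorem dc_mp_sat_eq (S : CSys) (γ ε u L i a : ℝ) {Γ : Type} (O : S.Ω → Γ) (geo : Γ → Geo)
    (hgeo : ∀ j, (geo j).b = i ∧ (geo j).a = a) :
    beta γ * u - ((1 + γ) * i + (1 - γ) * a - S.P.mi S.T O / lg ε + 2 * (S.P.entC (S.Ct ε u) S.T / lg ε) - S.tau γ ε L)
      = S.deficit γ ε u L O geo := by
  unfold CSys.deficit CSys.score CSys.St
  rw [dc_mp_ev_wt S γ i a O geo hgeo]
  ring

/-- the deficit of an observation against the deficit of a label of the same shape -/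
theorem dc_mp_deficit_le (S : CSys) (γ ε u L i a : ℝ) (hε : 0 < lg ε) {Γ : Type} (O : S.Ω → Γ) (geo : Γ → Geo)
    (hgeo : ∀ j, (geo j).b = i ∧ (geo j).a = a) (G : S.Ω → LV) :
    S.deficit γ ε u L O geo ≤ S.deficit γ ε u L G (rd i a) + S.P.entC O G / lg ε := by
  unfold CSys.deficit CSys.score
  rw [dc_mp_ev_wt S γ i a O geo hgeo, dc_mp_ev_wt S γ i a G (rd i a) fun _ => ⟨rfl, rfl⟩]
  have h1 := div_le_div_of_nonneg_right (dc_mp_mi_le S.P S.T O G) hε.le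
  rw [add_div] at h1
  linarith

/-- **the common-prefix representation**: `R = tan` of the terminal angle (clipped to `[-1,1]`), `b` = Lipschitz extension (`dc_ra_ext`), `κ = 1` provisionally.
`SatAt u`: `dc_canon_det` + `dc_path_coh1` give `I(T;O) ≤ I(T;G_u) + 3ν + o(1)` for all `ν`; `dc_canon_label` + `dc_deficit_ge` give the converse.  `PredAt u`: `dc_path_zoe` + `dc_slope_det`. -/
theorem dc_mpre {γ m : ℝ} (h0 : 0 < γ) (h1 : γ < 1) (hm : 0 < m) (hl : IsLeast (AspSet γ) m)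
    (P : SPath γ m) : ∃ M : Matched γ m, M.Pre := by
  obtain ⟨P', -, -, hch⟩ := dc_path_chart h0 h1 P
  have hlin := dc_path_linear h0 h1 hm hl P'
  obtain ⟨b', hb', hb'l⟩ := dc_ra_ext (1 + m) P'.b (dc_mp_lip P' hlin)
  have hb1 : b' 1 = 0 := by rw [hb' 1 dc_mp_one_mem, P'.b_one]
  let M : Matched γ m :=
    { Q := P'.Q
      R := fun n ω => dcSlope (P'.lab 1 n ω).1.th
      RB := 1
      Rbd := fun n ω => dc_mp_slope_abs _
      b := b'
      κ := 1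
      κpos := one_pos
      b_nonneg := fun u hu0 hu1 => by
        have := (hb'l u 1 hu0 hu1.le le_rfl).1
        rwa [hb1] at this
      b_top := fun u hu0 hu1 => by
        have := (hb'l u 1 hu0 hu1.le le_rfl).2
        rw [hb1] at this
        linarith
      b_anti := fun r t hr hrt ht => (hb'l r t hr hrt ht.le).1
      b_lip := fun r t hr hrt ht => (hb'l r t hr hrt ht.le).2 }
  refine ⟨M, fun u hu hu1 => ?_⟩
  have hu0 := dc_mp_pos hu
  have hmu : 0 < m * u := mul_pos hm hu0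
  obtain ⟨ha1, ha2, ha3⟩ := dc_path_adm P' u hu
  have hau : P'.a u = P'.b u + m * u := by linarith [hlin u hu]
  have hεlt : ∀ ε₀ : ℝ, 0 < ε₀ → ∀ᶠ n in uf, P'.Q.ε n < ε₀ := fun ε₀ h => P'.Q.lim.eventually_lt_const h
  constructor
  · -- saturation
    obtain ⟨K₁, hK₁⟩ := dc_canon_label m 1 hm.le
    obtain ⟨C, hC⟩ := dc_canon_det m 1 1 1 (1 + m) hm.le
    have hgeoex : ∀ n, ∃ geo : ℤ × ℤ × ℤ × ℤ × ℤ × ℤ → Geo, (∀ j, (geo j).b = P'.b u ∧ (geo j).a = P'.b u + m * u) ∧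
        (P'.Q.S n).IsLabel K₁ (P'.Q.ε n) u (1 + m) ((P'.Q.S n).mO m (P'.Q.ε n) (plane m (P'.b u) u) (M.R n)) geo := by
      intro n
      obtain ⟨geo, hg1, hg2⟩ := hK₁ (P'.Q.S n) (P'.Q.ε n) (P'.b u) u (1 + m) (M.R n) (P'.Q.pos n).1 (P'.Q.pos n).2
        (fun ω => dc_mp_slope_abs _) ha1 hu0.le (by linarith)
      exact ⟨geo, fun j => ⟨(hg1 j).1, (hg1 j).2.1⟩, hg2⟩
    choose geo hgeo hlab using hgeoex
    have hdef : Tendsto (fun n => (P'.Q.S n).deficit γ (P'.Q.ε n) u (1 + m)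
        ((P'.Q.S n).mO m (P'.Q.ε n) (plane m (P'.b u) u) (M.R n)) (geo n)) uf (𝓝 0) := by
      refine dc_mp_tendsto_zero (fun ν hν => ?_) (fun ν hν => ?_)
      · obtain ⟨ε₀, hε₀, -, H⟩ := dc_deficit_ge γ K₁ 1 (1 + m) u ν h0 h1 hu0 hν
        filter_upwards [hεlt ε₀ hε₀, P'.bdd] with n hn hb
        exact H (P'.Q.S n) (P'.Q.ε n) u (1 + m) _ _ (geo n) (P'.Q.pos n).1 hn hb (Or.inr le_rfl) (by linarith) le_rfl (hlab n)
      · set ν' := min (ν / 8) (m * u) with hν'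
        have hν'0 : 0 < ν' := lt_min (by linarith) hmu
        have hν'1 : ν' ≤ ν / 8 := min_le_left _ _
        have hbad := dc_mp_bad h0 h1 hm P' hlin hch u hu ν' hν'0 (min_le_right _ _)
        have hsum : Tendsto (fun n => (P'.Q.S n).deficit γ (P'.Q.ε n) u (1 + m) (P'.lab u n) (rd (P'.b u) (P'.a u))
            + (C / lg (P'.Q.ε n) + C * (P'.Q.S n).P.pr (fun ω => (P'.Q.ε n) ^ (m * u - ν') <
              |Real.sin ((P'.lab u n ω).1.th - Real.arctan (dcSlope (P'.lab 1 n ω).1.th))|))) uf (𝓝 (0 + (0 + C * 0))) :=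
          (P'.sat u hu).add ((dc_mp_div_lg P'.Q C).add (hbad.const_mul C))
        have hsum' := hsum.eventually_lt_const (show 0 + (0 + C * 0) < ν / 2 by simp; linarith)
        filter_upwards [hsum', P'.bdd, P'.isLab u hu] with n hn hb hL
        have h2 := dc_mp_deficit_le (P'.Q.S n) γ (P'.Q.ε n) u (1 + m) (P'.b u) (P'.b u + m * u) (dc_mp_lg_pos P'.Q n)
          ((P'.Q.S n).mO m (P'.Q.ε n) (plane m (P'.b u) u) (M.R n)) (geo n) (hgeo n) (P'.lab u n)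
        rw [hau] at hL hn
        have h3 := hC (P'.Q.S n) (P'.Q.ε n) (P'.b u) u (1 + m) ν' (M.R n) (P'.lab u n) (P'.Q.pos n).1 (P'.Q.pos n).2 hb
          (fun ω => dc_mp_slope_abs _) le_rfl hu0.le hν'0.le (min_le_right _ _) hL
        have h4 : (P'.Q.S n).P.pr (fun ω => (P'.Q.ε n) ^ (m * u - ν') <
            |Real.sin ((P'.lab u n ω).1.th - Real.arctan (M.R n ω))|) = (P'.Q.S n).P.pr (fun ω => (P'.Q.ε n) ^ (m * u - ν') <
            |Real.sin ((P'.lab u n ω).1.th - Real.arctan (dcSlope (P'.lab 1 n ω).1.th))|) := rfl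
        rw [h4] at h3
        linarith
    have hfin := (tendsto_const_nhds (x := beta γ * u)).sub hdef
    rw [sub_zero] at hfin
    refine hfin.congr fun n => ?_
    rw [← dc_mp_sat_eq (P'.Q.S n) γ (P'.Q.ε n) u (1 + m) (P'.b u) (P'.b u + m * u) _ (geo n) (hgeo n)]
    have hbu : M.b u = P'.b u := hb' u hu
    rw [hbu]
    show _ = 2 * P'.b u + (1 - γ) * m * u
      - (P'.Q.S n).P.mi (P'.Q.S n).T ((P'.Q.S n).mO m (P'.Q.ε n) (plane m (P'.b u) u) (M.R n)) / lg (P'.Q.ε n)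
      + 2 * ((P'.Q.S n).P.entC ((P'.Q.S n).Ct (P'.Q.ε n) u) (P'.Q.S n).T / lg (P'.Q.ε n)) - (P'.Q.S n).tau γ (P'.Q.ε n) (1 + m)
    ring
  · -- prediction
    obtain ⟨C, hC⟩ := dc_slope_det 1 (m * u)
    have hzoe := dc_path_zoe h0 h1 P' u hu
    rw [hlin u hu] at hzoe
    show Tendsto (fun n => (P'.Q.S n).P.entC (fun ω => tcell (P'.Q.ε n) (m * u) (M.R n ω))
      (FLaw.pair (P'.Q.S n).T ((P'.Q.S n).Ct (P'.Q.ε n) u)) / lg (P'.Q.ε n)) uf (𝓝 0)
    refine dc_mp_tendsto_zero (fun ν hν => ?_) (fun ν hν => ?_)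
    · refine Eventually.of_forall fun n => ?_
      have := div_nonneg (ent_entC_nonneg (P'.Q.S n).P (fun ω => tcell (P'.Q.ε n) (m * u) (M.R n ω))
        (FLaw.pair (P'.Q.S n).T ((P'.Q.S n).Ct (P'.Q.ε n) u))) (dc_mp_lg_pos P'.Q n).le
      linarith
    · set ν' := min (ν / 8) (m * u) with hν'
      have hν'0 : 0 < ν' := lt_min (by linarith) hmu
      have hν'1 : ν' ≤ ν / 8 := min_le_left _ _
      have hbad := dc_mp_bad h0 h1 hm P' hlin hch u hu ν' hν'0 (min_le_right _ _)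
      have hsum : Tendsto (fun n => (P'.Q.S n).P.entC (ori (P'.Q.ε n) (m * u) (P'.lab u n))
            (FLaw.pair (P'.Q.S n).T ((P'.Q.S n).Ct (P'.Q.ε n) u)) / lg (P'.Q.ε n)
          + (C / lg (P'.Q.ε n) + C * (P'.Q.S n).P.pr (fun ω => (P'.Q.ε n) ^ (m * u - ν') <
            |Real.sin ((P'.lab u n ω).1.th - Real.arctan (dcSlope (P'.lab 1 n ω).1.th))|))) uf (𝓝 (0 + (0 + C * 0))) :=
        hzoe.add ((dc_mp_div_lg P'.Q C).add (hbad.const_mul C))
      have hsum' := hsum.eventually_lt_const (show 0 + (0 + C * 0) < ν / 2 by simp; linarith)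
      filter_upwards [hsum', P'.thn u hu] with n hn hT
      have h2 := div_le_div_of_nonneg_right (dc_mp_entC_le (P'.Q.S n).P (fun ω => tcell (P'.Q.ε n) (m * u) (M.R n ω))
        (ori (P'.Q.ε n) (m * u) (P'.lab u n)) (FLaw.pair (P'.Q.S n).T ((P'.Q.S n).Ct (P'.Q.ε n) u))) (dc_mp_lg_pos P'.Q n).le
      rw [add_div] at h2
      have h3 := hC (P'.Q.S n).P (P'.Q.ε n) (m * u) ν' (M.R n) (P'.lab u n) (P'.Q.pos n).1 (P'.Q.pos n).2
        (fun ω => dc_mp_slope_abs _) hT hν'0.le (min_le_right _ _) le_rfl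
      have h4 : (P'.Q.S n).P.pr (fun ω => (P'.Q.ε n) ^ (m * u - ν') <
          |Real.sin ((P'.lab u n ω).1.th - Real.arctan (M.R n ω))|) = (P'.Q.S n).P.pr (fun ω => (P'.Q.ε n) ^ (m * u - ν') <
          |Real.sin ((P'.lab u n ω).1.th - Real.arctan (dcSlope (P'.lab 1 n ω).1.th))|) := rfl
      rw [h4] at h3
      linarith

end Claimed.Agent.R255
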