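import Claimed.Agent.R255.Cl.Dich.Ops
import Claimed.Agent.R255.Cl.Dich.Canon
import Claimed.Agent.R255.Cl.ToolsSeq

/-!
# Row 255 (BR paper), chapter DICHOTOMY (P4.6-P4.8), package DC-MSEL      (architect helper40; prefix `dc_`)
Plan and vocabulary: `Cl/DichDefs.lean`.  The owner of the package edits ONLY this file (helper lemmas above the contracts, or in `Cl/Dich/MSel/*.lean`).  Do not change the statements without asking helper40.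
-/

set_option autoImplicit false

namespace Claimed.Agent.R255

open Filter Topology
open Classical

/-- **MSEL-A** enumeration of the dyadic durations `< 1` -/
theorem dc_ms_enum_dy : ∃ du : ℕ → ℝ, (∀ i, du i ∈ Dy ∧ du i < 1) ∧ ∀ u ∈ Dy, u < 1 → ∃ i, du i = u := by
  have hhalf : ((1 : ℝ) / 2) ∈ Dy ∧ (1 : ℝ) / 2 < 1 :=
    ⟨⟨1, 1, one_pos, by norm_num, by norm_num⟩, by norm_num⟩
  refine ⟨fun i => if 0 < (Nat.unpair i).2 ∧ (Nat.unpair i).2 < 2 ^ (Nat.unpair i).1 then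
    ((Nat.unpair i).2 : ℝ) / 2 ^ (Nat.unpair i).1 else 1 / 2, ?_, ?_⟩
  · intro i
    simp only
    split_ifs with h
    · refine ⟨⟨_, _, h.1, h.2.le, rfl⟩, ?_⟩
      rw [div_lt_one (by positivity)]
      exact_mod_cast h.2
    · exact hhalf
  · rintro u ⟨k, j, hj, hjk, rfl⟩ hu1
    refine ⟨Nat.pair k j, ?_⟩
    simp only [Nat.unpair_pair]
    rw [div_lt_one (by positivity)] at hu1
    have : j < 2 ^ k := by exact_mod_cast hu1
    rw [if_pos ⟨hj, this⟩]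

/-- **MSEL-B** enumeration of the pairs of rational lists -/
theorem dc_ms_enum_lists : ∃ e : ℕ → List Sym × List Sym, ∀ zs zs' : List Sym,
    (∀ z ∈ zs, z.IsQ) → (∀ z ∈ zs', z.IsQ) → ∃ j, e j = (zs, zs') := by
  let f : (ℚ × ℚ × ℚ × ℚ × ℚ) ⊕ (ℚ × ℚ) → Sym := fun x => match x with
    | Sum.inl q => Sum.inl ⟨q.1, q.2.1, q.2.2.1, q.2.2.2.1, q.2.2.2.2⟩
    | Sum.inr q => Sum.inr (q.1, q.2)
  have hf : ∀ z : Sym, z.IsQ → ∃ x, f x = z := by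
    intro z hz
    rcases z with z | v
    · obtain ⟨⟨q1, h1⟩, ⟨q2, h2⟩, ⟨q3, h3⟩, ⟨q4, h4⟩, ⟨q5, h5⟩⟩ := hz
      refine ⟨Sum.inl (q1, q2, q3, q4, q5), ?_⟩
      show Sum.inl (⟨q1, q2, q3, q4, q5⟩ : Cfg) = Sum.inl z
      rw [← h1, ← h2, ← h3, ← h4, ← h5]
    · obtain ⟨⟨q1, h1⟩, ⟨q2, h2⟩⟩ := hz
      refine ⟨Sum.inr (q1, q2), ?_⟩
      show (Sum.inr ((q1 : ℝ), (q2 : ℝ)) : Sym) = Sum.inr v
      rw [← h1, ← h2]
  have hl : ∀ zs : List Sym, (∀ z ∈ zs, z.IsQ) → ∃ l, List.map f l = zs := by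
    intro zs
    induction zs with
    | nil => exact fun _ => ⟨[], rfl⟩
    | cons z zs ih =>
      intro h
      obtain ⟨x, hx⟩ := hf z (h z (List.mem_cons_self))
      obtain ⟨l, hl⟩ := ih (fun z' hz' => h z' (List.mem_cons_of_mem _ hz'))
      exact ⟨x :: l, by rw [List.map_cons, hx, hl]⟩
  obtain ⟨g, hg⟩ := exists_surjective_nat
    (List ((ℚ × ℚ × ℚ × ℚ × ℚ) ⊕ (ℚ × ℚ)) × List ((ℚ × ℚ × ℚ × ℚ × ℚ) ⊕ (ℚ × ℚ)))
  refine ⟨fun j => ((g j).1.map f, (g j).2.map f), ?_⟩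
  intro zs zs' h h'
  obtain ⟨l, hl1⟩ := hl zs h
  obtain ⟨l', hl2⟩ := hl zs' h'
  obtain ⟨j, hj⟩ := hg (l, l')
  exact ⟨j, by simp only [hj, hl1, hl2]⟩

/-- a sequence of real observations bounded on the supports -/
def dc_msc_Bd (Q : CSeq) (y : ∀ n, (Q.S n).Ω → ℝ) : Prop :=
  ∃ Y0 : ℝ, 0 ≤ Y0 ∧ ∀ᶠ n in uf, ∀ ω, 0 < (Q.S n).P.p ω → |y n ω| ≤ Y0

/-- polynomially bounded alphabets with a constant -/
def dc_msc_PA (Q : CSeq) {α : ℕ → Type} (Y : Q.Obs α) : Prop :=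
  ∃ C s : ℝ, 0 ≤ C ∧ ∀ᶠ n in uf, ∃ F : Finset (α n), (F.card : ℝ) ≤ C * (Q.ε n) ^ (- s) ∧
    ∀ ω, 0 < (Q.S n).P.p ω → Y n ω ∈ F

theorem dc_msc_bd_add (Q : CSeq) {y y' : ∀ n, (Q.S n).Ω → ℝ} (h : dc_msc_Bd Q y) (h' : dc_msc_Bd Q y') :
    dc_msc_Bd Q (fun n ω => y n ω + y' n ω) := by
  obtain ⟨Y, hY, H⟩ := h
  obtain ⟨Y', hY', H'⟩ := h'
  refine ⟨Y + Y', add_nonneg hY hY', (H.and H').mono fun n hn ω hω => ?_⟩
  exact (abs_add_le _ _).trans (add_le_add (hn.1 ω hω) (hn.2 ω hω))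

theorem dc_msc_bd_sub (Q : CSeq) {y y' : ∀ n, (Q.S n).Ω → ℝ} (h : dc_msc_Bd Q y) (h' : dc_msc_Bd Q y') :
    dc_msc_Bd Q (fun n ω => y n ω - y' n ω) := by
  obtain ⟨Y, hY, H⟩ := h
  obtain ⟨Y', hY', H'⟩ := h'
  refine ⟨Y + Y', add_nonneg hY hY', (H.and H').mono fun n hn ω hω => ?_⟩
  exact (abs_sub _ _).trans (add_le_add (hn.1 ω hω) (hn.2 ω hω))

theorem dc_msc_bd_mul (Q : CSeq) {y y' : ∀ n, (Q.S n).Ω → ℝ} (h : dc_msc_Bd Q y) (h' : dc_msc_Bd Q y') :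
    dc_msc_Bd Q (fun n ω => y n ω * y' n ω) := by
  obtain ⟨Y, hY, H⟩ := h
  obtain ⟨Y', hY', H'⟩ := h'
  refine ⟨Y * Y', mul_nonneg hY hY', (H.and H').mono fun n hn ω hω => ?_⟩
  rw [abs_mul]
  exact mul_le_mul (hn.1 ω hω) (hn.2 ω hω) (abs_nonneg _) hY

theorem dc_msc_abs_trep (ε d y : ℝ) : |trep ε d y| ≤ |y| + 1 := by
  have hW : (1 : ℝ) ≤ 2 ^ (tlev ε d) := one_le_pow₀ (by norm_num)
  have hW0 : (0 : ℝ) < 2 ^ (tlev ε d) := by positivity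
  have h1 := tl_trep_le ε d y
  have h2 : y - 1 ≤ trep ε d y := by
    have h3 := Int.lt_floor_add_one (y * 2 ^ (tlev ε d))
    unfold trep tcell
    rw [le_div_iff₀ hW0]
    nlinarith
  rw [abs_le]
  constructor
  · have := neg_abs_le y
    linarith
  · have := le_abs_self y
    linarith

theorem dc_msc_bd_trep (Q : CSeq) (d : ℝ) {y : ∀ n, (Q.S n).Ω → ℝ} (h : dc_msc_Bd Q y) :
    dc_msc_Bd Q (fun n ω => trep (Q.ε n) d (y n ω)) := by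
  obtain ⟨Y, hY, H⟩ := h
  refine ⟨Y + 1, by linarith, H.mono fun n hn ω hω => ?_⟩
  exact (dc_msc_abs_trep _ _ _).trans (by linarith [hn ω hω])

theorem dc_msc_cell {ε : ℝ} (h0 : 0 < ε) (h1 : ε < 1) (d Y0 : ℝ) (hY : 0 ≤ Y0) :
    ∃ F : Finset ℤ, (F.card : ℝ) ≤ (4 * Y0 + 3) * ε ^ (-(max d 0)) ∧ ∀ y : ℝ, |y| ≤ Y0 → tcell ε d y ∈ F := by
  obtain ⟨W, hW⟩ : ∃ W : ℝ, W = 2 ^ (tlev ε d) := ⟨_, rfl⟩
  have hW0 : 0 < W := by rw [hW]; positivity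
  have hp : 0 < ε ^ (max d 0) := Real.rpow_pos_of_pos h0 _
  have hWle : W ≤ 2 * ε ^ (-(max d 0)) := by
    have h2 := (tl_cellw_lt h0 h1 (le_max_right d 0)).le
    rw [← dc_cn_tlev_max h0 h1 d, ← hW] at h2
    rw [Real.rpow_neg h0.le, ← div_eq_mul_inv, le_div_iff₀ hp]
    linarith
  have hone : 1 ≤ ε ^ (-(max d 0)) := by
    rw [Real.rpow_neg h0.le]
    exact (one_le_inv₀ hp).2 (Real.rpow_le_one h0.le h1.le (le_max_right d 0))
  refine ⟨Finset.Icc (-(⌈Y0 * W⌉₊ : ℤ)) (⌈Y0 * W⌉₊ : ℤ), ?_, fun y hy => ?_⟩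
  · rw [Int.card_Icc]
    have e : ((⌈Y0 * W⌉₊ : ℤ) + 1 - -(⌈Y0 * W⌉₊ : ℤ)).toNat = 2 * ⌈Y0 * W⌉₊ + 1 := by omega
    rw [e]
    push_cast
    have h3 : (⌈Y0 * W⌉₊ : ℝ) ≤ Y0 * W + 1 := (Nat.ceil_lt_add_one (mul_nonneg hY hW0.le)).le
    have h4 : Y0 * W ≤ Y0 * (2 * ε ^ (-(max d 0))) := mul_le_mul_of_nonneg_left hWle hY
    nlinarith
  · obtain ⟨a1, a2⟩ := abs_le.1 hy
    have h3 : Y0 * W ≤ (⌈Y0 * W⌉₊ : ℝ) := Nat.le_ceil _
    rw [Finset.mem_Icc]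
    unfold tcell
    rw [← hW]
    constructor
    · rw [Int.le_floor]
      push_cast
      nlinarith
    · have h5 : ((⌊y * W⌋ : ℤ) : ℝ) ≤ ((⌈Y0 * W⌉₊ : ℤ) : ℝ) := by
        push_cast
        have := Int.floor_le (y * W)
        nlinarith
      exact_mod_cast h5

theorem dc_msc_pa_cell (Q : CSeq) (d : ℝ) {y : ∀ n, (Q.S n).Ω → ℝ} (h : dc_msc_Bd Q y) :
    dc_msc_PA Q (α := fun _ => ℤ) (fun n ω => tcell (Q.ε n) d (y n ω)) := by
  obtain ⟨Y, hY, H⟩ := h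
  refine ⟨4 * Y + 3, max d 0, by linarith, H.mono fun n hn => ?_⟩
  obtain ⟨F, hF, hm⟩ := dc_msc_cell (Q.pos n).1 (Q.pos n).2 d Y hY
  exact ⟨F, hF, fun ω hω => hm _ (hn ω hω)⟩

theorem dc_msc_pa_const (Q : CSeq) {α : Type} (a : α) : dc_msc_PA Q (α := fun _ => α) (fun _ _ => a) := by
  refine ⟨1, 0, zero_le_one, Eventually.of_forall fun n => ⟨{a}, by simp, fun ω _ => by simp⟩⟩

theorem dc_msc_pa_map2 (Q : CSeq) {α β δ : ℕ → Type} {Y : Q.Obs α} {Y' : Q.Obs β} (f : ∀ n, α n → β n → δ n)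
    (h : dc_msc_PA Q Y) (h' : dc_msc_PA Q Y') : dc_msc_PA Q (α := δ) (fun n ω => f n (Y n ω) (Y' n ω)) := by
  obtain ⟨C, s, hC, H⟩ := h
  obtain ⟨C', s', hC', H'⟩ := h'
  refine ⟨C * C', s + s', mul_nonneg hC hC', (H.and H').mono fun n hn => ?_⟩
  obtain ⟨⟨F, hF, hm⟩, ⟨F', hF', hm'⟩⟩ := hn
  refine ⟨(F ×ˢ F').image (fun x => f n x.1 x.2), ?_, fun ω hω => ?_⟩
  · have h1 : (((F ×ˢ F').image (fun x => f n x.1 x.2)).card : ℝ) ≤ (F.card : ℝ) * (F'.card : ℝ) := by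
      have := Finset.card_image_le (s := F ×ˢ F') (f := fun x => f n x.1 x.2)
      rw [Finset.card_product] at this
      exact_mod_cast this
    refine h1.trans ?_
    have e : (Q.ε n) ^ (-(s + s')) = (Q.ε n) ^ (-s) * (Q.ε n) ^ (-s') := by
      rw [← Real.rpow_add (Q.pos n).1]
      congr 1
      ring
    rw [e]
    calc (F.card : ℝ) * (F'.card : ℝ) ≤ (C * (Q.ε n) ^ (-s)) * (C' * (Q.ε n) ^ (-s')) :=
          mul_le_mul hF hF' (Nat.cast_nonneg _) (mul_nonneg hC (Real.rpow_nonneg (Q.pos n).1.le _))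
      _ = _ := by ring
  · exact Finset.mem_image.2 ⟨(Y n ω, Y' n ω), Finset.mem_product.2 ⟨hm ω hω, hm' ω hω⟩, rfl⟩

theorem dc_msc_pa_alph (Q : CSeq) {α : ℕ → Type} {Y : Q.Obs α} (h : dc_msc_PA Q Y) : ∃ A : ℝ, Q.Alph Y A := by
  obtain ⟨C, s, hC, H⟩ := h
  refine ⟨s + 1, ?_⟩
  have hsm : ∀ᶠ n in uf, Q.ε n < 1 / (C + 1) :=
    Q.lim.eventually (gt_mem_nhds (by positivity))
  refine (H.and hsm).mono fun n hn => ?_
  obtain ⟨⟨F, hF, hm⟩, h2⟩ := hn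
  refine ⟨F, hF.trans ?_, hm⟩
  have h0 := (Q.pos n).1
  have e : (Q.ε n) ^ (-(s + 1)) = (Q.ε n)⁻¹ * (Q.ε n) ^ (-s) := by
    rw [show -(s + 1) = -1 + -s by ring, Real.rpow_add h0, Real.rpow_neg_one]
  rw [e]
  refine mul_le_mul_of_nonneg_right ?_ (Real.rpow_nonneg h0.le _)
  have h3 : C + 1 < (Q.ε n)⁻¹ := by
    rw [lt_inv_comm₀ (by positivity) h0, ← one_div]
    exact h2
  linarith

/-- **MSEL-C** the alphabets of the finite tuples of canonical observations are polynomially bounded -/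
theorem dc_ms_alph {γ m : ℝ} (M : Matched γ m) (zs : List Sym) : ∃ A : ℝ, M.Q.Alph (M.OL zs) A := by
  -- the basic bounded observations
  have hB : ∀ f : (∀ n, (M.Q.S n).Ω → ℝ), (∀ n ω, (M.Q.S n).Bdd M.Q.B → 0 < (M.Q.S n).P.p ω → |f n ω| ≤ M.Q.B) →
      dc_msc_Bd M.Q f := fun f hf =>
    ⟨|M.Q.B|, abs_nonneg _, M.Q.bdd.mono fun n hn ω hω => (hf n ω hn hω).trans (le_abs_self _)⟩
  have bV1 : dc_msc_Bd M.Q (fun n ω => ((M.Q.S n).V ((M.Q.S n).T ω)).1) := hB _ fun n ω h hω => (h ω hω).1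
  have bV2 : dc_msc_Bd M.Q (fun n ω => ((M.Q.S n).V ((M.Q.S n).T ω)).2) := hB _ fun n ω h hω => (h ω hω).2.1
  have bA1 : dc_msc_Bd M.Q (fun n ω => ((M.Q.S n).A ((M.Q.S n).T ω)).1) := hB _ fun n ω h hω => (h ω hω).2.2.1
  have bA2 : dc_msc_Bd M.Q (fun n ω => ((M.Q.S n).A ((M.Q.S n).T ω)).2) := hB _ fun n ω h hω => (h ω hω).2.2.2.1
  have bc : dc_msc_Bd M.Q (fun n ω => (M.Q.S n).c ω) := hB _ fun n ω h hω => (h ω hω).2.2.2.2
  have bR : dc_msc_Bd M.Q M.R :=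
    ⟨|M.RB|, abs_nonneg _, Eventually.of_forall fun n ω _ => (M.Rbd n ω).trans (le_abs_self _)⟩
  have hS : ∀ z : Sym, dc_msc_PA M.Q (M.OS z) := by
    intro z
    rcases z with z | v
    · have bY := dc_msc_bd_add M.Q bA1 (dc_msc_bd_mul M.Q (dc_msc_bd_trep M.Q z.v bc) bV1)
      exact dc_msc_pa_map2 M.Q (fun _ a b => (a, b)) (dc_msc_pa_cell M.Q z.v bc)
        (dc_msc_pa_map2 M.Q (fun _ a b => (a, b)) (dc_msc_pa_cell M.Q (m * z.v) bR)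
        (dc_msc_pa_map2 M.Q (fun _ a b => (a, b)) (dc_msc_pa_cell M.Q z.LX bV1)
        (dc_msc_pa_map2 M.Q (fun _ a b => (a, b)) (dc_msc_pa_cell M.Q z.LY bY)
        (dc_msc_pa_map2 M.Q (fun _ a b => (a, b))
          (dc_msc_pa_cell M.Q z.LW (dc_msc_bd_sub M.Q bV2 (dc_msc_bd_mul M.Q (dc_msc_bd_trep M.Q (m * z.v) bR) bV1)))
          (dc_msc_pa_cell M.Q z.LZ (dc_msc_bd_sub M.Q
            (dc_msc_bd_add M.Q bA2 (dc_msc_bd_mul M.Q (dc_msc_bd_trep M.Q z.v bc) bV2))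
            (dc_msc_bd_mul M.Q (dc_msc_bd_trep M.Q (m * z.v) bR) bY)))))))
    · exact dc_msc_pa_map2 M.Q (fun _ a b => (a, b)) (dc_msc_pa_cell M.Q v.1 bc)
        (dc_msc_pa_map2 M.Q (fun _ a b => (a, b)) (dc_msc_pa_cell M.Q v.2 bR)
          (dc_msc_pa_const M.Q ((0, 0, 0, 0) : ℤ × ℤ × ℤ × ℤ)))
  have hL : ∀ zs : List Sym, dc_msc_PA M.Q (M.OL zs) := by
    intro zs
    induction zs with
    | nil => exact dc_msc_pa_const M.Q ([] : List (ℤ × ℤ × ℤ × ℤ × ℤ × ℤ))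
    | cons z zs ih => exact dc_msc_pa_map2 M.Q (fun _ a l => a :: l) (hS z) ih
  exact dc_msc_pa_alph M.Q (hL zs)

/-- **MSEL-D** homogeneity only depends on the partition of the conditioning observation -/
theorem dc_ms_homog_congr (Q : CSeq) {α β β' : ℕ → Type} (Y : Q.Obs α) (X : Q.Obs β) (X' : Q.Obs β') (d : ℝ)
    (h : ∀ n ω ω', X n ω = X n ω' ↔ X' n ω = X' n ω') (H : Q.Homog Y X d) : Q.Homog Y X' d := by
  have e1 : Q.seqHC Y X' = Q.seqHC Y X := by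
    funext n
    unfold CSeq.seqHC
    rw [ent_entC_congr (Q.S n).P (Y n) (Y n) (X' n) (X n) (fun ω ω' _ _ => (h n ω ω').symm)
      (fun _ _ _ _ _ => Iff.rfl)]
  refine ⟨?_, fun η hη => ?_⟩
  · unfold CSeq.toHC
    rw [e1]
    exact H.1
  · refine (H.2 η hη).congr fun n => ?_
    refine ent_pr_congr _ fun ω _ => ?_
    rw [ent_surC_congr (Q.S n).P (Y n) (Y n) (X n) (X' n) ω (fun ω' _ => h n ω' ω) (fun _ _ _ => Iff.rfl)]

/-- **MSEL-E** the deficit of a sequence of labels of fixed shape -/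
theorem dc_ms_dfc_eq (Q : CSeq) (γ t L b₀ a₀ : ℝ) {Γ : ℕ → Type} (G : Q.Obs Γ) (geo : ∀ n, Γ n → Geo)
    (hs : ∀ n g, (geo n g).b = b₀ ∧ (geo n g).a = a₀) (n : ℕ) :
    Q.dfc γ t L G geo n = beta γ * t - ((1 + γ) * b₀ + (1 - γ) * a₀ - Q.seqI Q.T G n
      + 2 * Q.seqHC (Q.C t) Q.T n - Q.seqTau γ L n) := by
  have e1 : (Q.S n).P.ev (fun ω => wt γ (geo n (G n ω))) = (1 + γ) * b₀ + (1 - γ) * a₀ := by
    have : (fun ω => wt γ (geo n (G n ω))) = fun _ => (1 + γ) * b₀ + (1 - γ) * a₀ := by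
      funext ω
      unfold wt
      rw [(hs n (G n ω)).1, (hs n (G n ω)).2]
    rw [this, ent_ev_const]
  unfold CSeq.dfc CSys.deficit CSys.score
  rw [e1]
  unfold CSeq.seqI CSeq.seqHC CSeq.seqTau CSys.St CSeq.C CSeq.T
  ring

theorem dc_ms_dy_pos {u : ℝ} (hu : u ∈ Dy) : 0 < u := by
  obtain ⟨k, j, hj, -, rfl⟩ := hu
  have : (0 : ℝ) < j := by exact_mod_cast hj
  positivity

/-- saturation at `u` in terms of the deficit of the canonical label -/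
theorem dc_ms_sat_iff {γ m : ℝ} (M : Matched γ m) (u : ℝ) (geo : ∀ n, ℤ × ℤ × ℤ × ℤ × ℤ × ℤ → Geo)
    (hs : ∀ n g, (geo n g).b = M.b u ∧ (geo n g).a = M.b u + m * u) :
    M.SatAt u ↔ Tendsto (M.Q.dfc γ u (1 + m) (M.O (plane m (M.b u) u)) geo) uf (𝓝 0) := by
  have e : ∀ n, M.Q.dfc γ u (1 + m) (M.O (plane m (M.b u) u)) geo n = beta γ * u -
      (2 * M.b u + (1 - γ) * m * u - M.Q.seqI M.Q.T (M.O (plane m (M.b u) u)) n
        + 2 * M.Q.seqHC (M.Q.C u) M.Q.T n - M.Q.seqTau γ (1 + m) n) := by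
    intro n
    rw [dc_ms_dfc_eq M.Q γ u (1 + m) (M.b u) (M.b u + m * u) _ geo hs n]
    ring
  unfold Matched.SatAt
  constructor
  · intro h
    have h2 := (tendsto_const_nhds (x := beta γ * u)).sub h
    rw [sub_self] at h2
    exact h2.congr fun n => (e n).symm
  · intro h
    have h2 := (tendsto_const_nhds (x := beta γ * u)).sub h
    rw [sub_zero] at h2
    refine h2.congr fun n => ?_
    rw [e n]
    ring

/-- **Remark 4.9**: homogeneous and cap-regular selection.  Conditioning events `E n`; same `R`, `b`.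
Tags: surprise bins (mesh `→ 0`, lists growing slowly) of the countably many pairs of rational lists, unconditional and conditional on `T`; then cap classes.
A typical cell keeps `SatAt u`, `PredAt u` for all dyadic `u` (countably many tracked functionals, each `≥ -o(1)` on every cell and subadditive up to the tag entropy). -/
theorem dc_sel_matched {γ m : ℝ} (h0 : 0 < γ) (h1 : γ < 1) (hm : 0 < m) (M : Matched γ m) (hM : M.Pre) :
    ∃ M' : Matched γ m, M'.Pre ∧ M'.Q.CapReg γ (1 + m) ∧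
      ∀ zs zs' : List Sym, (∀ z ∈ zs, z.Adm m ∧ z.IsQ) → (∀ z ∈ zs', z.Adm m ∧ z.IsQ) → M'.HomAt zs zs' := by
  obtain ⟨du, hdu, hdu'⟩ := dc_ms_enum_dy
  obtain ⟨e, he⟩ := dc_ms_enum_lists
  obtain ⟨K₁, hK₁⟩ := dc_canon_label m M.RB hm.le
  have hpos : ∀ i, 0 < du i := fun i => dc_ms_dy_pos (hdu i).1
  have hgeo : ∀ i n, ∃ geo : ℤ × ℤ × ℤ × ℤ × ℤ × ℤ → Geo,
      (∀ j, (geo j).b = M.b (du i) ∧ (geo j).a = M.b (du i) + m * du i ∧
        (geo j).th = Real.arctan (crep (M.Q.ε n) (m * du i) j.2.1)) ∧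
      (M.Q.S n).IsLabel K₁ (M.Q.ε n) (du i) (1 + m)
        ((M.Q.S n).mO m (M.Q.ε n) (plane m (M.b (du i)) (du i)) (M.R n)) geo := fun i n =>
    hK₁ (M.Q.S n) (M.Q.ε n) (M.b (du i)) (du i) (1 + m) (M.R n) (M.Q.pos n).1 (M.Q.pos n).2 (M.Rbd n)
      (M.b_nonneg _ (hpos i) (hdu i).2) (hpos i).le (M.b_top _ (hpos i) (hdu i).2)
  choose geo hgs hgl using hgeo
  have hAl := fun j : ℕ => dc_ms_alph M (e (j / 2)).1
  choose A hA using hAl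
  obtain ⟨E, hH, hC, hS, hZ⟩ := ts_master γ h0 h1 M.Q (1 + m) (by linarith)
    (fun _ _ => List (ℤ × ℤ × ℤ × ℤ × ℤ × ℤ))
    (fun _ n => Option (M.Q.S n).ι × List (ℤ × ℤ × ℤ × ℤ × ℤ × ℤ))
    (fun j => M.OL (e (j / 2)).1)
    (fun j n ω => (if j % 2 = 0 then none else some ((M.Q.S n).T ω), M.OL (e (j / 2)).2 n ω)) A hA
    (fun _ => K₁) du (fun _ => 1 + m) hpos (fun i => by linarith [(hdu i).2])
    (fun _ _ => ℤ × ℤ × ℤ × ℤ × ℤ × ℤ) (fun i => M.O (plane m (M.b (du i)) (du i))) geo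
    (fun i => Eventually.of_forall fun n => hgl i n)
    (fun i => (dc_ms_sat_iff M (du i) (geo i) (fun n g => ⟨(hgs i n g).1, (hgs i n g).2.1⟩)).1
      (hM _ (hdu i).1 (hdu i).2).1)
    (fun _ _ => ℤ) (fun _ n => (M.Q.S n).ι × ℤ) (fun i => M.Rd (m * du i))
    (fun i => M.Q.pr2 M.Q.T (M.Q.C (du i))) (fun i => (hM _ (hdu i).1 (hdu i).2).2)
  refine ⟨⟨M.Q.condOn E, M.R, M.RB, M.Rbd, M.b, M.κ, M.κpos, M.b_nonneg, M.b_top, M.b_anti, M.b_lip⟩,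
    ?_, hC, ?_⟩
  · intro u hu hu1
    obtain ⟨i, rfl⟩ := hdu' u hu hu1
    refine ⟨?_, hZ i⟩
    exact (dc_ms_sat_iff (⟨M.Q.condOn E, M.R, M.RB, M.Rbd, M.b, M.κ, M.κpos, M.b_nonneg, M.b_top, M.b_anti,
      M.b_lip⟩ : Matched γ m) (du i) (geo i) (fun n g => ⟨(hgs i n g).1, (hgs i n g).2.1⟩)).2 (hS i)
  · intro zs zs' hzs hzs'
    obtain ⟨j, hj⟩ := he zs zs' (fun z hz => (hzs z hz).2) (fun z hz => (hzs' z hz).2)
    constructor
    · obtain ⟨d, hd⟩ := hH (2 * j)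
      refine ⟨d, ?_⟩
      have e1 : 2 * j / 2 = j := by omega
      have e2 : 2 * j % 2 = 0 := by omega
      simp only [e1, e2, hj, if_true] at hd
      refine dc_ms_homog_congr _ _ _ _ d ?_ hd
      intro n ω ω'
      simp only [Prod.mk.injEq, true_and]
      exact Iff.rfl
    · obtain ⟨d, hd⟩ := hH (2 * j + 1)
      refine ⟨d, ?_⟩
      have e1 : (2 * j + 1) / 2 = j := by omega
      have e2 : (2 * j + 1) % 2 ≠ 0 := by omega
      simp only [e1, e2, hj, if_false] at hd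
      refine dc_ms_homog_congr _ _ _ _ d ?_ hd
      intro n ω ω'
      simp only [Prod.mk.injEq, Option.some.injEq, CSeq.pr2, FLaw.pair]
      exact Iff.rfl

end Claimed.Agent.R255
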