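import Claimed.Agent.R255.Cl.Dich.Pred

/-!
# Row 255 (BR paper), chapter DICHOTOMY (P4.6-P4.8), package DC-MESH      (architect helper40; prefix `dc_`)
Plan and vocabulary: `Cl/DichDefs.lean`.  The owner of the package edits ONLY this file (helper lemmas above the contracts, or in `Cl/Dich/Mesh/*.lean`).  Do not change the statements without asking helper40.
-/

set_option autoImplicit false

namespace Claimed.Agent.R255

open Filter Topology
open Classical

theorem dc_mesh_aux (γ m : ℝ) (h0 : 0 < γ) (h1 : γ < 1) (hm : m ∈ AspSet γ) (k : ℕ) (i : ℕ)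
    (hi : i + 1 ≤ 2 ^ k) :
    ∃ b a : ℝ → ℝ,
      Ach γ (1 + m) ((Finset.Icc (2 ^ k - i) (2 ^ k)).image (fun j : ℕ => (j : ℝ) / 2 ^ k)) b a ∧
      Nested (↑((Finset.Icc (2 ^ k - i) (2 ^ k)).image (fun j : ℕ => (j : ℝ) / 2 ^ k))) b a ∧
      b 1 = 0 ∧ a 1 = m := by
  have hxn : (((2 ^ k : ℕ) : ℝ)) / 2 ^ k = 1 := by
    push_cast
    exact div_self (by positivity)
  induction i with
  | zero =>
    have e : (Finset.Icc (2 ^ k - 0) (2 ^ k)).image (fun j : ℕ => (j : ℝ) / 2 ^ k) = {1} := by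
      rw [Nat.sub_zero, Finset.Icc_self, Finset.image_singleton, hxn]
    rw [e]
    refine ⟨fun _ => 0, fun _ => m, dc_ach_base γ m hm, ?_, rfl, rfl⟩
    intro r hr t ht hrt
    rw [Finset.coe_singleton, Set.mem_singleton_iff] at hr ht
    rw [hr, ht] at hrt
    exact absurd hrt (lt_irrefl _)
  | succ i ih =>
    obtain ⟨b, a, hA, hN, hb1, ha1⟩ := ih (by omega)
    set n : ℕ := 2 ^ k with hn
    set x : ℕ → ℝ := fun j => (j : ℝ) / 2 ^ k with hx'
    set D := (Finset.Icc (n - i) n).image x with hD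
    have hx : StrictMono x := fun p q hpq =>
      div_lt_div_of_pos_right (Nat.cast_lt.2 hpq) (by positivity)
    have ht : x (n - i) ∈ D :=
      Finset.mem_image_of_mem _ (Finset.mem_Icc.2 ⟨le_rfl, Nat.sub_le _ _⟩)
    have hmin : ∀ u ∈ D, x (n - i) ≤ u := by
      intro u hu
      obtain ⟨j, hj, rfl⟩ := Finset.mem_image.1 hu
      exact hx.monotone (Finset.mem_Icc.1 hj).1
    have hr0 : 0 < x (n - (i + 1)) := by
      have h2 : 0 < n - (i + 1) := by omega
      exact div_pos (Nat.cast_pos.2 h2) (by positivity)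
    have hrt : x (n - (i + 1)) < x (n - i) := hx (by omega)
    obtain ⟨b', a', hb', -, ha', hA'⟩ :=
      dc_ach_pred γ (1 + m) h0 h1 D b a _ _ hA ht hmin hr0 hrt
    set t := x (n - i) with ht'
    set r := x (n - (i + 1)) with hr'
    have eD : (Finset.Icc (n - (i + 1)) n).image x = insert r D := by
      have e1 : Finset.Icc (n - (i + 1)) n = insert (n - (i + 1)) (Finset.Icc (n - i) n) := by
        ext j
        simp only [Finset.mem_Icc, Finset.mem_insert]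
        omega
      rw [e1, Finset.image_insert]
    rw [eD]
    have hrD : ∀ u ∈ D, r < u := fun u hu => lt_of_lt_of_le hrt (hmin u hu)
    have h1D : (1 : ℝ) ∈ D := by
      rw [← hxn]
      exact Finset.mem_image_of_mem x (Finset.mem_Icc.2 ⟨Nat.sub_le _ _, le_rfl⟩)
    have h1r : (1 : ℝ) ≠ r := (hrD 1 h1D).ne'
    refine ⟨Function.update b r b', Function.update a r a', hA', ?_, ?_, ?_⟩
    · intro r₁ hr₁ t₁ ht₁ hlt
      rw [Finset.coe_insert, Set.mem_insert_iff, Finset.mem_coe] at hr₁ ht₁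
      have ht₁D : t₁ ∈ D := by
        rcases ht₁ with h | h
        · exfalso
          rcases hr₁ with h' | h'
          · rw [h, h'] at hlt
            exact lt_irrefl _ hlt
          · have := hrD r₁ h'
            rw [h] at hlt
            exact lt_irrefl _ (hlt.trans this)
        · exact h
      have ht₁r : t₁ ≠ r := (hrD t₁ ht₁D).ne'
      rw [Function.update_of_ne ht₁r, Function.update_of_ne ht₁r]
      rcases hr₁ with h | h
      · rw [h, Function.update_self, Function.update_self]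
        rcases (hmin t₁ ht₁D).eq_or_lt with h2 | h2
        · rw [← h2]
          exact ⟨hb', ha'⟩
        · have h3 := hN t (Finset.mem_coe.2 ht) t₁ (Finset.mem_coe.2 ht₁D) h2
          exact ⟨h3.1.trans hb', ha'.trans h3.2⟩
      · have hr₁r : r₁ ≠ r := (hrD r₁ h).ne'
        rw [Function.update_of_ne hr₁r, Function.update_of_ne hr₁r]
        exact hN r₁ (Finset.mem_coe.2 h) t₁ (Finset.mem_coe.2 ht₁D) hlt
    · rw [Function.update_of_ne h1r, hb1]
    · rw [Function.update_of_ne h1r, ha1]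

/-- backward induction from `1` on the mesh of level `k` -/
theorem dc_ach_mesh (γ m : ℝ) (h0 : 0 < γ) (h1 : γ < 1) (hm : m ∈ AspSet γ) (k : ℕ) :
    ∃ b a : ℝ → ℝ, Ach γ (1 + m) (DyK k) b a ∧ Nested (↑(DyK k)) b a ∧ b 1 = 0 ∧ a 1 = m := by
  have hpos : 0 < 2 ^ k := by positivity
  have h := dc_mesh_aux γ m h0 h1 hm k (2 ^ k - 1) (by omega)
  have e : 2 ^ k - (2 ^ k - 1) = 1 := by omega
  rw [e] at h
  exact h

theorem dc_all_DyK_mono {k0 k : ℕ} (h : k0 ≤ k) : DyK k0 ⊆ DyK k := by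
  intro u hu
  obtain ⟨j, hj, rfl⟩ := Finset.mem_image.1 hu
  rw [Finset.mem_Icc] at hj
  have e : 2 ^ k0 * 2 ^ (k - k0) = 2 ^ k := by
    rw [← pow_add]
    congr 1
    omega
  refine Finset.mem_image.2 ⟨j * 2 ^ (k - k0), Finset.mem_Icc.2 ⟨?_, ?_⟩, ?_⟩
  · exact Nat.mul_pos hj.1 (by positivity)
  · calc j * 2 ^ (k - k0) ≤ 2 ^ k0 * 2 ^ (k - k0) := Nat.mul_le_mul_right _ hj.2
      _ = 2 ^ k := e
  · have e' : (2 : ℝ) ^ k = 2 ^ k0 * 2 ^ (k - k0) := by exact_mod_cast e.symm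
    push_cast
    rw [e']
    field_simp

theorem dc_all_Dy_mem {u : ℝ} (hu : u ∈ Dy) : ∃ k0, u ∈ DyK k0 := by
  obtain ⟨k, j, h0, h1, rfl⟩ := hu
  exact ⟨k, Finset.mem_image.2 ⟨j, Finset.mem_Icc.2 ⟨h0, h1⟩, rfl⟩⟩

theorem dc_all_DyK_pos {k : ℕ} {u : ℝ} (hu : u ∈ DyK k) : 0 < u ∧ u ≤ 1 := by
  obtain ⟨j, hj, rfl⟩ := Finset.mem_image.1 hu
  rw [Finset.mem_Icc] at hj
  refine ⟨div_pos (Nat.cast_pos.2 hj.1) (by positivity), ?_⟩
  rw [div_le_one (by positivity)]
  exact_mod_cast hj.2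

theorem dc_all_eventually_mem {k0 : ℕ} {u : ℝ} (hu : u ∈ DyK k0) : ∀ᶠ k in uf, u ∈ DyK k := by
  have h : ∀ᶠ k in uf, k0 ≤ k := uf_le_atTop (eventually_ge_atTop k0)
  exact h.mono fun _ hk => dc_all_DyK_mono hk hu

/-- one pair of shape functions for all meshes: `b u = ulim_k b_k u` (`dc_ach_adm` for boundedness, `dc_ach_mono`, `dc_ach_closed`) -/
theorem dc_ach_all (γ m : ℝ) (h0 : 0 < γ) (h1 : γ < 1) (hm : m ∈ AspSet γ) :
    ∃ b a : ℝ → ℝ, (∀ k, Ach γ (1 + m) (DyK k) b a) ∧ Nested Dy b a ∧ b 1 = 0 ∧ a 1 = m := by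
  choose bk ak hA hN hb1 ha1 using fun k => dc_ach_mesh γ m h0 h1 hm k
  have hbd : ∀ k u, u ∈ DyK k → 0 ≤ bk k u ∧ bk k u ≤ ak k u ∧ ak k u ≤ 1 + m := by
    intro k u hu
    obtain ⟨h1, h2, h3⟩ := dc_ach_adm γ (1 + m) (DyK k) (bk k) (ak k) (hA k) u hu
    exact ⟨h1, h2, by linarith [(dc_all_DyK_pos hu).1]⟩
  have hUb : ∀ k0 u, u ∈ DyK k0 → UBdd (fun k => bk k u) := fun k0 u hu =>
    UBdd.of_le 0 (1 + m) ((dc_all_eventually_mem hu).mono fun k hk =>
      ⟨(hbd k u hk).1, (hbd k u hk).2.1.trans (hbd k u hk).2.2⟩)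
  have hUa : ∀ k0 u, u ∈ DyK k0 → UBdd (fun k => ak k u) := fun k0 u hu =>
    UBdd.of_le 0 (1 + m) ((dc_all_eventually_mem hu).mono fun k hk =>
      ⟨(hbd k u hk).1.trans (hbd k u hk).2.1, (hbd k u hk).2.2⟩)
  have := uf_neBot
  refine ⟨fun u => ulim (fun k => bk k u), fun u => ulim (fun k => ak k u), ?_, ?_, ?_, ?_⟩
  · intro k0
    refine dc_ach_closed γ (1 + m) h0 h1 (DyK k0) _ _ (fun u hu => (dc_all_DyK_pos hu).1.le) ?_
    intro ρ hρ
    have e1 : ∀ᶠ k in uf, ∀ u ∈ DyK k0, |bk k u - ulim (fun k => bk k u)| ≤ ρ ∧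
        |ak k u - ulim (fun k => ak k u)| ≤ ρ := by
      rw [Filter.eventually_all_finset]
      intro u hu
      have t1 := Metric.tendsto_nhds.1 (ulim_tendsto _ (hUb k0 u hu)) ρ hρ
      have t2 := Metric.tendsto_nhds.1 (ulim_tendsto _ (hUa k0 u hu)) ρ hρ
      filter_upwards [t1, t2] with k h1 h2
      rw [Real.dist_eq] at h1 h2
      exact ⟨h1.le, h2.le⟩
    have e2 : ∀ᶠ k in uf, k0 ≤ k := uf_le_atTop (eventually_ge_atTop k0)
    obtain ⟨k, hk1, hk2⟩ := (e1.and e2).exists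
    exact ⟨bk k, ak k, hk1,
      dc_ach_mono γ (1 + m) (DyK k) (DyK k0) _ _ (dc_all_DyK_mono hk2) (hA k)⟩
  · intro r hr t ht hrt
    obtain ⟨kr, hkr⟩ := dc_all_Dy_mem hr
    obtain ⟨kt, hkt⟩ := dc_all_Dy_mem ht
    have ev := (dc_all_eventually_mem hkr).and (dc_all_eventually_mem hkt)
    constructor
    · exact ulim_le _ _ (hUb kt t hkt) (hUb kr r hkr) (ev.mono fun k hk =>
        (hN k r (Finset.mem_coe.2 hk.1) t (Finset.mem_coe.2 hk.2) hrt).1)
    · exact le_of_tendsto_of_tendsto ((ulim_tendsto _ (hUa kr r hkr)).add_const r)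
        ((ulim_tendsto _ (hUa kt t hkt)).add_const t) (ev.mono fun k hk =>
          (hN k r (Finset.mem_coe.2 hk.1) t (Finset.mem_coe.2 hk.2) hrt).2)
  · simp only [hb1]
    exact ulim_const 0
  · simp only [ha1]
    exact ulim_const m

/-- **Proposition 4.7** (existence of the path): the `n`-th system realises `Ach` on `DyK n` with `ν = ε₀ = 1/(n+1)`; deficits are `≥ -o(1)` by `dc_deficit_ge` -/
theorem dc_spath (γ m : ℝ) (h0 : 0 < γ) (h1 : γ < 1) (hm : m ∈ AspSet γ) : Nonempty (SPath γ m) := by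
  obtain ⟨b, a, hAch, hN, hb1, ha1⟩ := dc_ach_all γ m h0 h1 hm
  have hpos : ∀ n : ℕ, (0 : ℝ) < 1 / ((n : ℝ) + 1) := fun n => by positivity
  choose ε hε0 hεlt hε1 S lab hP using fun n : ℕ =>
    hAch n (1 / ((n : ℝ) + 1)) (hpos n) (1 / ((n : ℝ) + 1)) (hpos n)
  have hlimT : Tendsto ε atTop (𝓝 0) :=
    squeeze_zero (fun n => (hε0 n).le) (fun n => (hεlt n).le)
      tendsto_one_div_add_atTop_nhds_zero_nat
  have hlim : Tendsto ε uf (𝓝 0) := hlimT.mono_left uf_le_atTop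
  have hlim1 : Tendsto (fun n : ℕ => 1 / ((n : ℝ) + 1)) uf (𝓝 0) :=
    tendsto_one_div_add_atTop_nhds_zero_nat.mono_left uf_le_atTop
  let Q : CSeq :=
    { ε := ε, S := S, pos := fun n => ⟨hε0 n, hε1 n⟩, lim := hlim, B := 1,
      bdd := Eventually.of_forall fun n => (hP n).1 }
  refine ⟨{ Q := Q, lab := fun u n => lab n u, b := b, a := a,
            bdd := Eventually.of_forall fun n => (hP n).1,
            thn := ?_, isLab := ?_, sat := ?_, b_one := hb1, a_one := ha1, nest := hN }⟩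
  · intro u hu
    obtain ⟨k0, hk0⟩ := dc_all_Dy_mem hu
    exact (dc_all_eventually_mem hk0).mono fun n hn => ((hP n).2 u hn).1
  · intro u hu
    obtain ⟨k0, hk0⟩ := dc_all_Dy_mem hu
    exact (dc_all_eventually_mem hk0).mono fun n hn => ((hP n).2 u hn).2.1
  · intro u hu
    obtain ⟨k0, hk0⟩ := dc_all_Dy_mem hu
    have hu01 := dc_all_DyK_pos hk0
    rw [Metric.tendsto_nhds]
    intro ν hν
    obtain ⟨ε₀, e0, -, hge⟩ := dc_deficit_ge γ 1 1 (1 + m) u (ν / 2) h0 h1 hu01.1 (half_pos hν)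
    have ev1 : ∀ᶠ n in uf, ε n < ε₀ := hlim.eventually_lt_const e0
    have ev2 : ∀ᶠ n : ℕ in uf, 1 / ((n : ℝ) + 1) < ν := hlim1.eventually_lt_const hν
    filter_upwards [dc_all_eventually_mem hk0, ev1, ev2] with n hn h1' h2'
    obtain ⟨-, hL, hD⟩ := (hP n).2 u hn
    have hlow := hge (S n) (ε n) u (1 + m) LV (lab n u) (rd (b u) (a u)) (hε0 n) h1' (hP n).1
      (Or.inr le_rfl) (by linarith [hm.1, hu01.2]) le_rfl hL
    rw [Real.dist_eq, sub_zero, abs_lt]
    constructor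
    · exact lt_of_lt_of_le (by linarith) hlow
    · exact lt_of_le_of_lt hD h2'

end Claimed.Agent.R255
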