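import Claimed.Agent.R255.Cl.Dich.Ops

/-!
# Row 255 (BR paper), chapter DICHOTOMY (P4.6-P4.8), package DC-ACH      (architect helper40; prefix `dc_`)
Plan and vocabulary: `Cl/DichDefs.lean`.  The owner of the package edits ONLY this file (helper lemmas above the contracts, or in `Cl/Dich/Ach/*.lean`).  Do not change the statements without asking helper40.
-/

set_option autoImplicit false

namespace Claimed.Agent.R255

open Filter Topology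
open Classical

theorem dc_ach_base (γ m : ℝ) (hm : m ∈ AspSet γ) : Ach γ (1 + m) {1} (fun _ => 0) (fun _ => m) := by
  intro ν hν ε₀ hε₀
  obtain ⟨ε, h0, h1, h2, S, G, hB, hT, hL, hD⟩ := hm.2 ν hν ε₀ hε₀
  refine ⟨ε, h0, h1, h2, S, fun _ => G, hB, fun u hu => ?_⟩
  rw [Finset.mem_singleton] at hu
  subst hu
  exact ⟨hT, hL, hD⟩

/-- the shapes of a system of labels are admissible (the support of a law is not empty) -/
theorem dc_psys_adm {γ ε L ν : ℝ} {D : Finset ℝ} {b a : ℝ → ℝ} {S : CSys} {lab : ℝ → S.Ω → LV}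
    (h : PSys γ ε L ν D b a S lab) : ∀ u ∈ D, 0 ≤ b u ∧ b u ≤ a u ∧ a u + u ≤ L := by
  intro u hu
  obtain ⟨ω, hω⟩ := ent_exists_supp S.P
  obtain ⟨c1, c2, c3, -⟩ := (h.2 u hu).2.1 ω (lt_of_le_of_ne (S.P.nonneg ω) (Ne.symm hω))
  exact ⟨c1, c2, c3⟩

/-- achievable shapes are admissible (the support of a law is not empty) -/
theorem dc_ach_adm (γ L : ℝ) (D : Finset ℝ) (b a : ℝ → ℝ) (h : Ach γ L D b a) :
    ∀ u ∈ D, 0 ≤ b u ∧ b u ≤ a u ∧ a u + u ≤ L := by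
  obtain ⟨ε, -, -, -, S, lab, hP⟩ := h 1 one_pos 1 one_pos
  exact dc_psys_adm hP

theorem dc_ach_mono (γ L : ℝ) (D D' : Finset ℝ) (b a : ℝ → ℝ) (hD : D' ⊆ D) (h : Ach γ L D b a) :
    Ach γ L D' b a := by
  intro ν hν ε₀ hε₀
  obtain ⟨ε, h0, h1, h2, S, lab, hB, hl⟩ := h ν hν ε₀ hε₀
  exact ⟨ε, h0, h1, h2, S, lab, hB, fun u hu => hl u (hD hu)⟩

theorem dc_ach_congr (γ L : ℝ) (D : Finset ℝ) (b a b' a' : ℝ → ℝ) (hb : ∀ u ∈ D, b' u = b u)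
    (ha : ∀ u ∈ D, a' u = a u) (h : Ach γ L D b a) : Ach γ L D b' a' := by
  intro ν hν ε₀ hε₀
  obtain ⟨ε, h0, h1, h2, S, lab, hB, hl⟩ := h ν hν ε₀ hε₀
  refine ⟨ε, h0, h1, h2, S, lab, hB, fun u hu => ?_⟩
  rw [hb u hu, ha u hu]
  exact hl u hu

/-- strong form of the closure: the approximating shapes only carry ONE system each -/
theorem dc_ach_closed' (γ L : ℝ) (h0 : 0 < γ) (h1 : γ < 1) (D : Finset ℝ) (b a : ℝ → ℝ)
    (hu : ∀ u ∈ D, 0 ≤ u)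
    (h : ∀ ρ : ℝ, 0 < ρ → ∀ ν : ℝ, 0 < ν → ∀ ε₀ : ℝ, 0 < ε₀ → ∃ b' a' : ℝ → ℝ,
      (∀ u ∈ D, |b' u - b u| ≤ ρ ∧ |a' u - a u| ≤ ρ) ∧ ∃ ε : ℝ, 0 < ε ∧ ε < ε₀ ∧ ε < 1 ∧
        ∃ (S : CSys) (lab : ℝ → S.Ω → LV), PSys γ ε L ν D b' a' S lab) :
    Ach γ L D b a := by
  -- the limit shapes are admissible
  have hadm : ∀ u ∈ D, 0 ≤ b u ∧ b u ≤ a u ∧ a u + u ≤ L := by
    intro u huD
    have key : ∀ ρ : ℝ, 0 < ρ → -ρ ≤ b u ∧ b u ≤ a u + 2 * ρ ∧ a u + u ≤ L + ρ := by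
      intro ρ hρ
      obtain ⟨b', a', hc, ε, -, -, -, S, lab, hP⟩ := h ρ hρ 1 one_pos 1 one_pos
      obtain ⟨c1, c2, c3⟩ := dc_psys_adm hP u huD
      obtain ⟨d1, d2⟩ := hc u huD
      rw [abs_le] at d1 d2
      refine ⟨by linarith, by linarith, by linarith⟩
    refine ⟨?_, ?_, ?_⟩
    · refine le_of_forall_pos_le_add fun ρ hρ => ?_
      linarith [(key ρ hρ).1]
    · refine le_of_forall_pos_le_add fun ρ hρ => ?_
      linarith [(key (ρ / 2) (by linarith)).2.1]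
    · refine le_of_forall_pos_le_add fun ρ hρ => ?_
      linarith [(key ρ hρ).2.2]
  obtain ⟨C, hC⟩ := dc_reshape 1
  intro ν hν ε₀ hε₀
  obtain ⟨ε₁, e1, e2, hsm⟩ := dc_small_err C (ν / 3) (by linarith)
  obtain ⟨b', a', hc, ε, p0, p1, p2, S, lab, hB, hl⟩ :=
    h (ν / 12) (by linarith) (ν / 3) (by linarith) (min ε₀ ε₁) (lt_min hε₀ e1)
  have hex : ∀ u, ∃ G' : S.Ω → LV, u ∈ D → ThN G' ∧ S.IsLabel 1 ε u L G' (rd (b u) (a u)) ∧
      S.deficit γ ε u L G' (rd (b u) (a u)) ≤ ν := by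
    intro u
    by_cases huD : u ∈ D
    · obtain ⟨-, l2, l3⟩ := hl u huD
      obtain ⟨c1, c2, c3⟩ := hadm u huD
      obtain ⟨G', g1, -, -, -, g5, g6⟩ := hC S γ ε u L (b' u) (a' u) (b u) (a u) LV (lab u)
        (rd (b' u) (a' u)) h0 h1 p0 p2 (hu u huD) l2 (fun g => ⟨rfl, rfl⟩) c1 c2 c3
      refine ⟨G', fun _ => ⟨g1, g5, ?_⟩⟩
      obtain ⟨d1, d2⟩ := hc u huD
      rw [abs_sub_comm] at d1 d2
      have := hsm ε p0 (p1.trans_le (min_le_right _ _))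
      linarith
    · exact ⟨lab u, fun h => absurd h huD⟩
  choose lab' hlab' using hex
  exact ⟨ε, p0, p1.trans_le (min_le_left _ _), p2, S, lab', hB, fun u huD => hlab' u huD⟩

/-- limits of achievable shapes are achievable (`dc_reshape` for each label; the law is not changed) -/
theorem dc_ach_closed (γ L : ℝ) (h0 : 0 < γ) (h1 : γ < 1) (D : Finset ℝ) (b a : ℝ → ℝ)
    (hu : ∀ u ∈ D, 0 ≤ u)
    (h : ∀ ρ : ℝ, 0 < ρ → ∃ b' a' : ℝ → ℝ, (∀ u ∈ D, |b' u - b u| ≤ ρ ∧ |a' u - a u| ≤ ρ) ∧ Ach γ L D b' a') :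
    Ach γ L D b a := by
  refine dc_ach_closed' γ L h0 h1 D b a hu fun ρ hρ ν hν ε₀ hε₀ => ?_
  obtain ⟨b', a', hc, hA⟩ := h ρ hρ
  exact ⟨b', a', hc, hA ν hν ε₀ hε₀⟩

end Claimed.Agent.R255
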