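import Claimed.Agent.R255.Cl.Dich.Ops
import Claimed.Agent.R255.Cl.Dich.Rep.Det

/-!
# Row 255 (BR paper), chapter DICHOTOMY (P4.6-P4.8), package DC-REP      (architect helper40; prefix `dc_`)
Plan and vocabulary: `Cl/DichDefs.lean`.  The owner of the package edits ONLY this file (helper lemmas above the contracts, or in `Cl/Dich/Rep/*.lean`).  Do not change the statements without asking helper40.
-/

set_option autoImplicit false

namespace Claimed.Agent.R255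

open Filter Topology
open Classical

theorem dc_sepd_mem (ε e θ : ℝ) (h0 : 0 < ε) (h1 : ε < 1) (he : 0 ≤ e) :
    0 ≤ sepd ε e θ ∧ sepd ε e θ ≤ e ∧ |Real.sin θ| ≤ ε ^ sepd ε e θ :=
  dcr_sepd_mem ε e θ h0 h1 he

theorem dc_sepd_lt (ε e θ : ℝ) (h0 : 0 < ε) (h1 : ε < 1) (h : sepd ε e θ < e) :
    |Real.sin θ| = ε ^ sepd ε e θ :=
  dcr_sepd_lt ε e θ h0 h1 h

theorem dc_sepd_ge (ε e θ d : ℝ) (h0 : 0 < ε) (h1 : ε < 1) (hd : d ≤ e) (h : |Real.sin θ| ≤ ε ^ d) :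
    d ≤ sepd ε e θ :=
  dcr_sepd_ge ε e θ d h0 h1 hd h

/-- **The two-label inequality** (Sec. 4.4, used in P4.6 with `r = 0` and in P4.7 with `r > 0`).
Two labels of the same shape `(b, a)`, `e = a - b`, at the same duration on one system; `v` = separation depth of their frames.
PROOF: tag `v` on a mesh `ξ`; `D_c` = (tag, `S.J ε ⟨b, v⁻, r⟩ th₁`) (common coarsening, `tl_loc_J_det`), `D_i` = (D₁, D₂, tag) read by `tl_rect_inter` (after moving `D₂` to the time representative of `D₁`);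
`I(T;D_i) ≤ I(T;D₁) + I(T;D₂) - I(D₁;D₂) + I(D₁;D₂|T) + H(tag)`, `I(D₁;D₂) ≥ H(D_c) - H(D_c|D₁) - H(D_c|D₂)`, `H(D_c) ≥ I(T;D_c) + H(C_r|T)`, `I(D₁;D₂|T) ≤ H(C_r|T) + I(D₁;D₂|T,C_r)`;
universal bound (`dc_deficit_ge`) for `D_i` and `D_c`; weight gain (4.10) `≥ 2γ(e - v) - 2ξ`. -/
theorem dc_rep (γ K B Lmax rmin ν : ℝ) (hγ0 : 0 < γ) (hγ1 : γ < 1) (hr : 0 < rmin) (hν : 0 < ν) :
    ∃ ε₀ : ℝ, 0 < ε₀ ∧ ε₀ < 1 ∧ ∀ (S : CSys) (ε r L b a : ℝ) (D₁ D₂ : S.Ω → LV), 0 < ε → ε < ε₀ →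
      S.Bdd B → (r = 0 ∨ rmin ≤ r) → L ≤ Lmax → ThN D₁ → ThN D₂ →
      S.IsLabel K ε r L D₁ (rd b a) → S.IsLabel K ε r L D₂ (rd b a) →
      2 * γ * S.P.ev (fun ω => (a - b) - sepd ε (a - b) ((D₁ ω).1.th - (D₂ ω).1.th)) ≤
        S.deficit γ ε r L D₁ (rd b a) + S.deficit γ ε r L D₂ (rd b a)
          + S.P.miC D₁ D₂ (FLaw.pair S.T (S.Ct ε r)) / lg ε + ν := by
  obtain ⟨ε₁, hε₁0, hε₁1, hI⟩ := dc_deficit_ge γ (2 * (K + 2 * K ^ 2)) B Lmax rmin (ν / 8) hγ0 hγ1 hr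
    (by positivity)
  obtain ⟨ε₂, hε₂0, hε₂1, hCl⟩ := dc_deficit_ge γ 1 B Lmax rmin (ν / 8) hγ0 hγ1 hr (by positivity)
  obtain ⟨C, hC⟩ := dcr_c_det K
  set ξ : ℝ := ν / 8 with hξdef
  have hξ : 0 < ξ := by positivity
  set N : ℕ := ⌊Lmax / ξ⌋₊ + 1 with hN
  set Ct : ℝ := 2 * (Real.log N + C) with hCt
  set M : ℝ := 4 * |Ct| / ν + 1 with hM
  have hM0 : 0 < M := by positivity
  refine ⟨min ε₁ (min ε₂ (Real.exp (-M))), lt_min hε₁0 (lt_min hε₂0 (Real.exp_pos _)),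
    lt_of_le_of_lt (min_le_left _ _) hε₁1, ?_⟩
  intro S ε r L b a D₁ D₂ h0 hlt hB hr0 hL hT1 hT2 H₁ H₂
  have hlt1 : ε < ε₁ := lt_of_lt_of_le hlt (min_le_left _ _)
  have hlt2 : ε < ε₂ := lt_of_lt_of_le hlt ((min_le_right _ _).trans (min_le_left _ _))
  have hlt3 : ε < Real.exp (-M) := lt_of_lt_of_le hlt ((min_le_right _ _).trans (min_le_right _ _))
  have h1 : ε < 1 := hlt1.trans hε₁1
  -- the logarithm is large
  have hlg : M < lg ε := by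
    unfold lg
    rw [one_div, Real.log_inv]
    have := Real.log_lt_log h0 hlt3
    rw [Real.log_exp] at this
    linarith
  have hl : 0 < lg ε := hM0.trans hlg
  have hCtl : Ct / lg ε ≤ ν / 4 := by
    rw [div_le_iff₀ hl]
    have e1 : ν / 4 * M = |Ct| + ν / 4 := by
      rw [hM]; field_simp
    have e2 : ν / 4 * M ≤ ν / 4 * lg ε := mul_le_mul_of_nonneg_left hlg.le (by positivity)
    linarith [le_abs_self Ct]
  -- shape relations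
  obtain ⟨ωs, hωs⟩ := ent_exists_supp S.P
  have hωs' : 0 < S.P.p ωs := lt_of_le_of_ne (S.P.nonneg ωs) (Ne.symm hωs)
  obtain ⟨hb, hba, haL, -⟩ := H₁ ωs hωs'
  replace hb : 0 ≤ b := hb
  replace hba : b ≤ a := hba
  replace haL : a + r ≤ L := haL
  have hrn : 0 ≤ r := by
    rcases hr0 with h | h
    · exact h.ge
    · exact hr.le.trans h
  have he : 0 ≤ a - b := by linarith
  have heL : a - b ≤ Lmax := by linarith
  -- the two new labels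
  obtain ⟨geoI, hgI, HI⟩ := dcr_i_label S K ε r L b a ξ D₁ D₂ h0 h1 hba hξ H₁ H₂
  obtain ⟨geoC, hgC, HC⟩ := dcr_c_label S ε r L b a ξ D₁ D₂ h0 h1 hb hba hrn haL hξ
  have dI := hI S ε r L _ _ geoI h0 hlt1 hB hr0 (by linarith) hL HI
  have dC := hCl S ε r L _ _ geoC h0 hlt2 hB hr0 (by linarith) hL HC
  -- information
  have info := dcr_info S.P S.T (S.Ct ε r) D₁ D₂ (dcrDc S ε b (a - b) r ξ D₁ D₂)
    (fun ω ω' h => congrArg (fun x => x.2.1) h)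
  have htagN : ∀ ω, dcrTag ε (a - b) ξ (D₁ ω) (D₂ ω) < N :=
    fun ω => dcr_tag_lt ε (a - b) ξ Lmax _ _ h0 h1 he hξ heL
  have det1 := hC S ε r L b a ξ N D₁ D₂ D₁ h0 h1 hrn hba hξ hT1 hT1 H₁ htagN (fun ω => by
    rw [sub_self, Real.sin_zero, abs_zero]
    exact (Real.rpow_pos_of_pos h0 _).le)
  have det2 := hC S ε r L b a ξ N D₁ D₂ D₂ h0 h1 hrn hba hξ hT1 hT2 H₂ htagN (fun ω =>
    (dcr_sepd_mem ε (a - b) _ h0 h1 he).2.2.trans
      (Real.rpow_le_rpow_of_exponent_ge h0 h1.le (dcr_tag_le ε (a - b) ξ _ _ h0 h1 he hξ).1))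
  -- weights
  have wgain : 2 * γ * S.P.ev (fun ω => (a - b) - sepd ε (a - b) ((D₁ ω).1.th - (D₂ ω).1.th))
      + (2 * ((1 + γ) * b + (1 - γ) * a) - 2 * ξ) ≤
      S.P.ev (fun ω => wt γ (geoI (FLaw.pair D₁ D₂ ω)))
        + S.P.ev (fun ω => wt γ (geoC (dcrDc S ε b (a - b) r ξ D₁ D₂ ω))) := by
    rw [← ent_ev_mul_left, ← ent_ev_add, ← ent_ev_const S.P (2 * ((1 + γ) * b + (1 - γ) * a) - 2 * ξ),
      ← ent_ev_add]
    refine ent_ev_mono S.P fun ω _ => ?_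
    obtain ⟨t1, -⟩ := dcr_tag_le ε (a - b) ξ (D₁ ω) (D₂ ω) h0 h1 he hξ
    have hvp : dcrVp ε (a - b) ξ (D₁ ω) (D₂ ω) ≤ (dcrTag ε (a - b) ξ (D₁ ω) (D₂ ω) : ℝ) * ξ + ξ :=
      min_le_right _ _
    unfold wt
    rw [(hgI _).1, (hgI _).2, (hgC _).1, (hgC _).2]
    show _ ≤ (1 + γ) * (a - dcrVp ε (a - b) ξ (D₁ ω) (D₂ ω)) + (1 - γ) * a
      + ((1 + γ) * b + (1 - γ) * (b + (dcrTag ε (a - b) ξ (D₁ ω) (D₂ ω) : ℝ) * ξ))
    nlinarith
  have w1 : S.P.ev (fun ω => wt γ (rd b a (D₁ ω))) = (1 + γ) * b + (1 - γ) * a :=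
    ent_ev_const S.P ((1 + γ) * b + (1 - γ) * a)
  have w2 : S.P.ev (fun ω => wt γ (rd b a (D₂ ω))) = (1 + γ) * b + (1 - γ) * a :=
    ent_ev_const S.P ((1 + γ) * b + (1 - γ) * a)
  have info' := div_le_div_of_nonneg_right info hl.le
  have det' : (S.P.entC (dcrDc S ε b (a - b) r ξ D₁ D₂) D₁ + S.P.entC (dcrDc S ε b (a - b) r ξ D₁ D₂) D₂)
      / lg ε ≤ Ct / lg ε := div_le_div_of_nonneg_right (by rw [hCt]; linarith) hl.le
  simp only [add_div] at info' det'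
  unfold CSys.deficit CSys.score at dI dC ⊢
  rw [w1, w2]
  linarith

end Claimed.Agent.R255
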