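import Claimed.Agent.R255.Cl.Dich.Ns
import Claimed.Agent.R255.Cl.Dich.Rep
import Claimed.Agent.R255.Ent.Star

/-!
# Row 255 (BR paper), chapter DICHOTOMY (P4.6-P4.8), package DC-BDASP      (architect helper40; prefix `dc_`)
Plan and vocabulary: `Cl/DichDefs.lean`.  The owner of the package edits ONLY this file (helper lemmas above the contracts, or in `Cl/Dich/BdAsp/*.lean`).  Do not change the statements without asking helper40.
-/

set_option autoImplicit false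

namespace Claimed.Agent.R255

open Filter Topology
open Classical

/-- `NS` is monotone in the deficit -/
theorem dc_ba_ns_mono {γ ε e δ δ' : ℝ} (h : NS γ ε e δ) (hδ : δ ≤ δ') : NS γ ε e δ' := by
  obtain ⟨S, G, h1, h2, h3, h4⟩ := h
  exact ⟨S, G, h1, h2, h3, h4.trans hδ⟩

/-- **BDASP-A** collision bound with the argmax predictor. -/
theorem dc_ba_collision {Ω γ' Γ : Type} [Fintype Ω] [Fintype Γ] (P : FLaw Ω) (U : Ω → Γ) (C : Ω → γ')
    (cell : Γ → ℤ) (nbr : ℤ → Finset ℤ) (N : ℕ) (hN : ∀ k, (nbr k).card ≤ N) :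
    ∃ φ : γ' → ℤ, (P.ext (P.kerOf U C)).pr (fun x => cell x.2 ∈ nbr (cell (U x.1)))
      ≤ N * P.pr (fun ω => cell (U ω) = φ (C ω)) := by
  -- the argmax predictor
  have hmax : ∀ c : γ', ∃ k₀ : ℤ, ∀ k : ℤ, P.pr (fun ω => cell (U ω) = k ∧ C ω = c)
      ≤ P.pr (fun ω => cell (U ω) = k₀ ∧ C ω = c) := by
    intro c
    obtain ⟨k₀, _, hk₀⟩ := Finset.exists_max_image (insert 0 (Finset.univ.image (fun ω => cell (U ω))))
      (fun k => P.pr (fun ω => cell (U ω) = k ∧ C ω = c)) ⟨0, Finset.mem_insert_self _ _⟩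
    refine ⟨k₀, fun k => ?_⟩
    by_cases hk : k ∈ insert 0 (Finset.univ.image (fun ω => cell (U ω)))
    · exact hk₀ k hk
    · have h0 : P.pr (fun ω => cell (U ω) = k ∧ C ω = c) = 0 := by
        apply ent_pr_eq_zero
        intro ω _ h
        apply hk
        rw [← h.1]
        exact Finset.mem_insert_of_mem (Finset.mem_image_of_mem _ (Finset.mem_univ ω))
      rw [h0]
      exact ent_pr_nonneg _ _
  choose φ hφ using hmax
  refine ⟨φ, ?_⟩
  -- the left side as an expectation of conditional probabilities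
  have h1 : (P.ext (P.kerOf U C)).pr (fun x => cell x.2 ∈ nbr (cell (U x.1)))
      = P.ev (fun ω => (P.cfib C ω).pr (fun ω' => cell (U ω') ∈ nbr (cell (U ω)))) := by
    have e2 : ∀ ω, (P.cfib C ω).pr (fun ω' => cell (U ω') ∈ nbr (cell (U ω)))
        = ((P.cfib C ω).map U).pr (fun u => cell u ∈ nbr (cell (U ω))) := fun ω =>
      (ent_map_pr (P.cfib C ω) U (fun u => cell u ∈ nbr (cell (U ω)))).symm
    simp only [e2]
    unfold FLaw.pr FLaw.ev
    rw [Fintype.sum_prod_type]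
    refine Finset.sum_congr rfl fun ω _ => ?_
    rw [Finset.mul_sum]
    refine Finset.sum_congr rfl fun u _ => ?_
    split_ifs
    · rfl
    · simp
  rw [h1, ent_pr_tower P C (fun ω => cell (U ω) = φ (C ω)), ← ent_ev_mul_left]
  refine ent_ev_mono P fun ω hω => ?_
  have hpos := ent_fib_pos P C hω
  have h2 : (P.cfib C ω).pr (fun ω' => cell (U ω') ∈ nbr (cell (U ω)))
      ≤ ∑ k ∈ nbr (cell (U ω)), (P.cfib C ω).pr (fun ω' => cell (U ω') = k) := by
    refine le_trans (ent_pr_mono _ fun ω' _ h => ?_)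
      (ent_pr_exists_le (P.cfib C ω) (nbr (cell (U ω))) (fun k ω' => cell (U ω') = k))
    exact ⟨_, h, rfl⟩
  have h3 : ∀ k, (P.cfib C ω).pr (fun ω' => cell (U ω') = k)
      ≤ (P.cfib C ω).pr (fun ω' => cell (U ω') = φ (C ω')) := by
    intro k
    rw [ent_cfib_pr P C hpos, ent_cfib_pr P C hpos]
    refine div_le_div_of_nonneg_right ((hφ (C ω) k).trans (le_of_eq ?_)) hpos.le
    refine ent_pr_congr P fun ω' _ => ?_
    constructor
    · rintro ⟨a, b⟩
      exact ⟨by rw [b]; exact a, b⟩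
    · rintro ⟨a, b⟩
      exact ⟨by rw [b] at a; exact a, b⟩
  calc (P.cfib C ω).pr (fun ω' => cell (U ω') ∈ nbr (cell (U ω)))
      ≤ ∑ k ∈ nbr (cell (U ω)), (P.cfib C ω).pr (fun ω' => cell (U ω') = k) := h2
    _ ≤ ∑ _k ∈ nbr (cell (U ω)), (P.cfib C ω).pr (fun ω' => cell (U ω') = φ (C ω')) :=
        Finset.sum_le_sum fun k _ => h3 k
    _ = ((nbr (cell (U ω))).card : ℝ) * (P.cfib C ω).pr (fun ω' => cell (U ω') = φ (C ω')) := by
        rw [Finset.sum_const, nsmul_eq_mul]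
    _ ≤ N * (P.cfib C ω).pr (fun ω' => cell (U ω') = φ (C ω')) :=
        mul_le_mul_of_nonneg_right (by exact_mod_cast hN _) (ent_pr_nonneg _ _)

/-- **BDASP-B** close frames have neighbouring orientation cells (wrap-around at `π` included). -/
theorem dc_ba_close (ε d : ℝ) (h0 : 0 < ε) (h1 : ε < 1) (hd : 0 ≤ d) :
    ∃ nbr : ℤ → Finset ℤ, (∀ k, (nbr k).card ≤ 3 * (⌈(4 : ℝ) * 3⌉₊ + 1)) ∧
      ∀ x y : ℝ, 0 ≤ x → x < Real.pi → 0 ≤ y → y < Real.pi → |Real.sin (x - y)| ≤ ε ^ d →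
        tcell ε d y ∈ nbr (tcell ε d x) := by
  have hη : 0 < ε ^ d := Real.rpow_pos_of_pos h0 d
  refine ⟨fun k =>
    (Finset.Icc ⌊(crep ε d k - 3 * ε ^ d) * 2 ^ (tlev ε d)⌋
      (⌊(crep ε d k - 3 * ε ^ d) * 2 ^ (tlev ε d)⌋ + (⌈(4 : ℝ) * 3⌉₊ : ℤ))) ∪
    ((Finset.Icc ⌊(crep ε d k - Real.pi - 3 * ε ^ d) * 2 ^ (tlev ε d)⌋
      (⌊(crep ε d k - Real.pi - 3 * ε ^ d) * 2 ^ (tlev ε d)⌋ + (⌈(4 : ℝ) * 3⌉₊ : ℤ))) ∪
    (Finset.Icc ⌊(crep ε d k + Real.pi - 3 * ε ^ d) * 2 ^ (tlev ε d)⌋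
      (⌊(crep ε d k + Real.pi - 3 * ε ^ d) * 2 ^ (tlev ε d)⌋ + (⌈(4 : ℝ) * 3⌉₊ : ℤ)))), ?_, ?_⟩
  · intro k
    refine (Finset.card_union_le _ _).trans ?_
    refine (add_le_add_right (Finset.card_union_le _ _) _).trans ?_
    rw [tl_card_Icc_nat, tl_card_Icc_nat, tl_card_Icc_nat]
    omega
  · intro x y hx0 hx1 hy0 hy1 hs
    have hrep : crep ε d (tcell ε d x) = trep ε d x := rfl
    have hxr : |x - trep ε d x| ≤ ε ^ d := tl_abs_sub_trep h0 d x
    have hpi := Real.pi_pos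
    have hpi4 : Real.pi < 4 := Real.pi_lt_four
    -- Jordan
    have hJ : ∀ s : ℝ, 0 ≤ s → s ≤ Real.pi / 2 → s ≤ 2 * Real.sin s := by
      intro s hs0 hs1
      have h := Real.mul_le_sin hs0 hs1
      have h' : 2 * s ≤ Real.pi * Real.sin s := by
        rw [div_mul_eq_mul_div, div_le_iff₀ hpi] at h
        linarith
      have hsin : 0 ≤ Real.sin s := Real.sin_nonneg_of_nonneg_of_le_pi hs0 (by linarith)
      nlinarith
    have hcases : |y - x| ≤ 2 * ε ^ d ∨ |y - (x - Real.pi)| ≤ 2 * ε ^ d ∨ |y - (x + Real.pi)| ≤ 2 * ε ^ d := by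
      have hs' := abs_le.1 hs
      rcases le_total 0 (x - y) with ht | ht
      · rcases le_total (x - y) (Real.pi / 2) with h2 | h2
        · left
          have := hJ (x - y) ht h2
          rw [abs_le]
          constructor <;> linarith
        · right; left
          have := hJ (Real.pi - (x - y)) (by linarith) (by linarith)
          rw [Real.sin_pi_sub] at this
          rw [abs_le]
          constructor <;> linarith
      · rcases le_total (y - x) (Real.pi / 2) with h2 | h2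
        · left
          have := hJ (y - x) (by linarith) h2
          have e : Real.sin (y - x) = - Real.sin (x - y) := by rw [← Real.sin_neg]; ring_nf
          rw [e] at this
          rw [abs_le]
          constructor <;> linarith
        · right; right
          have := hJ (Real.pi - (y - x)) (by linarith) (by linarith)
          rw [Real.sin_pi_sub] at this
          have e : Real.sin (y - x) = - Real.sin (x - y) := by rw [← Real.sin_neg]; ring_nf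
          rw [e] at this
          rw [abs_le]
          constructor <;> linarith
    have hxr' := abs_le.1 hxr
    simp only [Finset.mem_union, hrep]
    rcases hcases with h | h | h
    · left
      apply tl_cell_count h0 h1 hd
      have h' := abs_le.1 h
      rw [abs_le]
      constructor <;> linarith
    · right; left
      apply tl_cell_count h0 h1 hd
      have h' := abs_le.1 h
      rw [abs_le]
      constructor <;> linarith
    · right; right
      apply tl_cell_count h0 h1 hd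
      have h' := abs_le.1 h
      rw [abs_le]
      constructor <;> linarith

/-- the support of the replica law -/
theorem dc_ba_supp (S : CSys) (G : S.Ω → LV) (x : S.Ω × Set.range G)
    (hx : 0 < (S.P.ext (S.P.kerOf (rgf G) S.T)).p x) :
    0 < S.P.p x.1 ∧ ∃ ω', 0 < S.P.p ω' ∧ S.T ω' = S.T x.1 ∧ G ω' = (x.2 : LV) := by
  have e : (S.P.ext (S.P.kerOf (rgf G) S.T)).p x
      = S.P.p x.1 * (S.P.cfib S.T x.1).pr (fun ω' => rgf G ω' = x.2) := rfl
  rw [e] at hx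
  have h1 : 0 < S.P.p x.1 := by
    rcases (S.P.nonneg x.1).eq_or_lt with h | h
    · rw [← h, zero_mul] at hx
      exact absurd hx (lt_irrefl _)
    · exact h
  have h2 : 0 < (S.P.cfib S.T x.1).pr (fun ω' => rgf G ω' = x.2) := by
    rcases (ent_pr_nonneg (S.P.cfib S.T x.1) (fun ω' => rgf G ω' = x.2)).eq_or_lt with h | h
    · rw [← h, mul_zero] at hx
      exact absurd hx (lt_irrefl _)
    · exact h
  refine ⟨h1, ?_⟩
  obtain ⟨ω', hω', hp⟩ := (ent_pr_pos_iff _ _).1 h2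
  have hfib : 0 < S.P.pr (fun ω => S.T ω = S.T x.1) := ent_fib_pos S.P S.T h1.ne'
  obtain ⟨a1, a2⟩ := (ent_cnd_supp S.P (fun ω => S.T ω = S.T x.1) hfib).1 hp
  refine ⟨ω', lt_of_le_of_ne (S.P.nonneg ω') (Ne.symm a2), a1, ?_⟩
  rw [← hω', ent_rgf_val]

/-- the replica is a label at duration `0`, enlargement `3` -/
theorem dc_ba_label2 (S : CSys) (ε e : ℝ) (h0 : 0 < ε) (h1 : ε < 1) (G : S.Ω → LV) (hB : S.Bdd 1)
    (hL : S.IsLabel 1 ε 1 (1 + e) G (rd 0 e)) :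
    (S.adjoin (S.P.kerOf (rgf G) S.T)).IsLabel 3 ε 0 (1 + e) (fun x => (x.2 : LV)) (rd 0 e) := by
  intro x hx
  obtain ⟨hx1, ω', hω', hT, hG⟩ := dc_ba_supp S G x hx
  obtain ⟨c1, c2, c3, c4, c5, c6⟩ := hL ω' hω'
  rw [hT, hG] at c5 c6
  rw [hG] at c1 c2 c3 c4
  have b1 := (hB x.1 hx1).2.2.2.2
  have b2 := (hB ω' hω').2.2.2.2
  refine ⟨c1, c2, by linarith, ?_, tl_rl_inRect_mono h0 h1 le_rfl le_rfl (by norm_num) c5,
    tl_rl_inRect_mono h0 h1 (by linarith) (by linarith) (by norm_num) c6⟩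
  show |S.c x.1 - (rd 0 e (x.2 : LV)).tc| ≤ 3 * ε ^ (0 : ℝ)
  rw [Real.rpow_zero, mul_one]
  rw [Real.rpow_one, one_mul] at c4
  rw [abs_le] at b1 b2 c4 ⊢
  constructor <;> linarith [b1.1, b1.2, b2.1, b2.2, c4.1, c4.2]

/-- the replica has the same information on the particle -/
theorem dc_ba_mi2 {Ω ι : Type} [Fintype Ω] (P : FLaw Ω) (T : Ω → ι) (G : Ω → LV) :
    (P.ext (P.kerOf (rgf G) T)).mi (fun x => T x.1) (fun x => (x.2 : LV)) = P.mi T G := by
  unfold FLaw.mi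
  have e1 := ent_kerOf_ent P (rgf G) T (fun _ c => c)
  have e2 := ent_kerOf_ent P (rgf G) T (fun u _ => (u : LV))
  have e3 := ent_kerOf_ent P (rgf G) T (fun u c => (c, (u : LV)))
  have e4 : (fun ω => ((rgf G ω : Set.range G) : LV)) = G := funext fun ω => ent_rgf_val G ω
  have e5 : (fun ω => (T ω, ((rgf G ω : Set.range G) : LV))) = FLaw.pair T G := by
    funext ω
    rw [ent_rgf_val]
    rfl
  rw [e4] at e2
  rw [e5] at e3
  have e6 : FLaw.pair (fun x : Ω × Set.range G => T x.1) (fun x => (x.2 : LV))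
      = fun x : Ω × Set.range G => (T x.1, (x.2 : LV)) := rfl
  rw [e6, e1, e2, e3]

/-- the deficit of the replica -/
theorem dc_ba_deficit2 (S : CSys) (γ ε t L b a : ℝ) (G : S.Ω → LV) :
    (S.adjoin (S.P.kerOf (rgf G) S.T)).deficit γ ε t L (fun x => (x.2 : LV)) (rd b a)
      = S.deficit γ ε t L G (rd b a) := by
  rw [← ((dc_adjoin_keep S _ (S.P.kerOf (rgf G) S.T)).2 LV G (rd b a)).2 γ ε t L]
  unfold CSys.deficit CSys.score
  have e1 : (S.adjoin (S.P.kerOf (rgf G) S.T)).P.mi (S.adjoin (S.P.kerOf (rgf G) S.T)).T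
      (fun x => (x.2 : LV)) = S.P.mi S.T G := dc_ba_mi2 S.P S.T G
  have e2 : (S.adjoin (S.P.kerOf (rgf G) S.T)).P.mi (S.adjoin (S.P.kerOf (rgf G) S.T)).T
      (fun x => G x.1) = S.P.mi S.T G := ent_ext_mi_fst S.P _ S.T G
  rw [e1, e2]
  rfl

/-- conditional information only depends on the partitions -/
theorem dc_ba_miC_congr {Ω α α' β β' δ δ' : Type} [Fintype Ω] (Q : FLaw Ω) (X : Ω → α) (X' : Ω → α')
    (Y : Ω → β) (Y' : Ω → β') (Z : Ω → δ) (Z' : Ω → δ')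
    (hX : ∀ ω ω', X ω = X ω' ↔ X' ω = X' ω') (hY : ∀ ω ω', Y ω = Y ω' ↔ Y' ω = Y' ω')
    (hZ : ∀ ω ω', Z ω = Z ω' ↔ Z' ω = Z' ω') : Q.miC X Y Z = Q.miC X' Y' Z' := by
  unfold FLaw.miC
  rw [ent_congr_ker Q (FLaw.pair X Z) (FLaw.pair X' Z') (fun ω ω' _ _ => by
      simp only [FLaw.pair, Prod.mk.injEq, hX ω ω', hZ ω ω']),
    ent_congr_ker Q (FLaw.pair Y Z) (FLaw.pair Y' Z') (fun ω ω' _ _ => by
      simp only [FLaw.pair, Prod.mk.injEq, hY ω ω', hZ ω ω']),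
    ent_congr_ker Q (FLaw.pair (FLaw.pair X Y) Z) (FLaw.pair (FLaw.pair X' Y') Z') (fun ω ω' _ _ => by
      simp only [FLaw.pair, Prod.mk.injEq, hX ω ω', hY ω ω', hZ ω ω']),
    ent_congr_ker Q Z Z' (fun ω ω' _ _ => hZ ω ω')]

/-- the replica is conditionally independent of the label given the particle and any old observation -/
theorem dc_ba_miC {Ω ι δ : Type} [Fintype Ω] (P : FLaw Ω) (T : Ω → ι) (G : Ω → LV) (C : Ω → δ) :
    (P.ext (P.kerOf (rgf G) T)).miC (fun x => G x.1) (fun x => (x.2 : LV))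
      (FLaw.pair (fun x => T x.1) (fun x => C x.1)) = 0 := by
  have hci := ent_resample_ci P (P.kerOf (rgf G) T) T (fun ω ω' h => ent_kerOf_congr P (rgf G) T h)
    (fun ω => (G ω, C ω))
  have h1 := (ent_ci_iff _ _ _ _).1 hci
  have h2 := ent_miC_chain (P.ext (P.kerOf (rgf G) T)) (fun x => x.2) (fun x => G x.1) (fun x => C x.1)
    (fun x => T x.1)
  have e : FLaw.pair (fun x : Ω × Set.range G => G x.1) (fun x => C x.1)
      = fun x : Ω × Set.range G => (G x.1, C x.1) := rfl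
  rw [e, h1] at h2
  have h3 := ent_miC_nonneg (P.ext (P.kerOf (rgf G) T)) (fun x => x.2) (fun x => C x.1) (fun x => T x.1)
  have h4 := ent_miC_nonneg (P.ext (P.kerOf (rgf G) T)) (fun x => x.2) (fun x => G x.1)
    (FLaw.pair (fun x => C x.1) (fun x => T x.1))
  have h5 : (P.ext (P.kerOf (rgf G) T)).miC (fun x => x.2) (fun x => G x.1)
    (FLaw.pair (fun x => C x.1) (fun x => T x.1)) = 0 := by linarith
  rw [ent_miC_comm, ← h5]
  apply dc_ba_miC_congr
  · intro ω ω'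
    exact Subtype.ext_iff.symm
  · intro ω ω'
    exact Iff.rfl
  · intro ω ω'
    simp only [FLaw.pair, Prod.mk.injEq]
    exact and_comm

/-- **BDASP-C** the replica of the label given the particle and the two-label inequality. -/
theorem dc_ba_replica (γ Emax : ℝ) (hγ0 : 0 < γ) (hγ1 : γ < 1) :
    ∃ ε₀ : ℝ, 0 < ε₀ ∧ ε₀ < 1 ∧ ∀ (S : CSys) (ε e η : ℝ) (G : S.Ω → LV), 0 < ε → ε < ε₀ → 0 ≤ e → e ≤ Emax →
      η ≤ 1 → S.Bdd 1 → ThN G → S.IsLabel 1 ε 1 (1 + e) G (rd 0 e) → S.deficit γ ε 1 (1 + e) G (rd 0 e) ≤ η →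
      2 * γ * (S.P.ext (S.P.kerOf (rgf G) S.T)).ev
        (fun x => e - sepd ε e ((G x.1).1.th - (x.2 : LV).1.th)) ≤ 7 := by
  obtain ⟨εa, ha0, ha1, hrep⟩ := dc_rep γ 3 1 (1 + Emax) 1 (1 / 2) hγ0 hγ1 one_pos (by norm_num)
  obtain ⟨εb, hb0, hb1, herr⟩ := dc_small_err (4 * Real.log 2) (1 / 2) (by norm_num)
  refine ⟨min εa εb, lt_min ha0 hb0, lt_of_le_of_lt (min_le_left _ _) ha1, ?_⟩
  intro S ε e η G h0 hε he0 heE hη hB hT hL hD
  have hεa : ε < εa := lt_of_lt_of_le hε (min_le_left _ _)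
  have hεb : ε < εb := lt_of_lt_of_le hε (min_le_right _ _)
  have h1 : ε < 1 := hεa.trans ha1
  have hkeep := dc_adjoin_keep S _ (S.P.kerOf (rgf G) S.T)
  have hT2 : ThN (fun x : S.Ω × Set.range G => (x.2 : LV)) := by
    intro x
    obtain ⟨ω', hω'⟩ := x.2.2
    show 0 ≤ (x.2 : LV).1.th ∧ (x.2 : LV).1.th < Real.pi
    rw [← hω']
    exact hT ω'
  have hL1 : (S.adjoin (S.P.kerOf (rgf G) S.T)).IsLabel 3 ε 0 (1 + e) (fun x => G x.1) (rd 0 e) :=
    tl_label_mono _ 1 3 ε 0 1 (1 + e) (1 + e) h0 h1 zero_le_one le_rfl (by norm_num) LV _ _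
      ((hkeep.2 LV G (rd 0 e)).1 1 ε 1 (1 + e) hL)
  have key := hrep (S.adjoin (S.P.kerOf (rgf G) S.T)) ε 0 (1 + e) 0 e (fun x => G x.1) (fun x => (x.2 : LV))
    h0 hεa (hkeep.1 1 hB) (Or.inl rfl) (by linarith) (fun x => hT x.1) hT2 hL1
    (dc_ba_label2 S ε e h0 h1 G hB hL)
  rw [dc_ba_deficit2, (hkeep.2 LV G (rd 0 e)).2 γ ε 0 (1 + e)] at key
  have hmi : (S.adjoin (S.P.kerOf (rgf G) S.T)).P.miC (fun x => G x.1) (fun x => (x.2 : LV))
      (FLaw.pair (S.adjoin (S.P.kerOf (rgf G) S.T)).T ((S.adjoin (S.P.kerOf (rgf G) S.T)).Ct ε 0)) = 0 :=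
    dc_ba_miC S.P S.T G (S.Ct ε 0)
  rw [hmi, zero_div, add_zero] at key
  have hdur := dc_deficit_dur S γ ε 0 1 (1 + e) LV G (rd 0 e)
  have hSt := tl_St_incr S ε 0 1 h0 h1 le_rfl zero_le_one
  have hβ := beta_nonneg γ hγ0 hγ1
  have herr' := herr ε h0 hεb
  have e4 : 4 * Real.log 2 / lg ε = 4 * (Real.log 2 / lg ε) := by ring
  rw [e4] at herr'
  simp only [sub_zero] at key
  refine le_trans (le_of_eq ?_) (key.trans ?_)
  · rfl
  · nlinarith

/-- Markov: an abstract form -/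
theorem dc_ba_markov {Ω : Type} [Fintype Ω] (Q : FLaw Ω) (f : Ω → ℝ) (γ : ℝ) (hγ : 0 < γ)
    (hf : ∀ x, 0 ≤ f x) (hev : 2 * γ * Q.ev f ≤ 7) : 1 / 2 ≤ Q.pr (fun x => f x < 7 / γ) := by
  have hKa : 0 < 7 / γ := by positivity
  have hmk : Q.pr (fun x => 7 / γ ≤ f x) ≤ 1 / 2 := by
    refine (ent_markov Q (fun x _ => hf x) hKa).trans ?_
    rw [div_le_iff₀ hKa]
    have : 1 / 2 * (7 / γ) = 7 / (2 * γ) := by field_simp
    rw [this, le_div_iff₀ (by positivity)]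
    linarith
  have h2 := ent_pr_not Q (fun x => 7 / γ ≤ f x)
  have h3 : Q.pr (fun x => ¬ 7 / γ ≤ f x) = Q.pr (fun x => f x < 7 / γ) :=
    ent_pr_congr Q (fun x _ => not_le)
  linarith

/-- the event `A`: the orientation cell is predicted by the particle -/
theorem dc_ba_event (γ ε e d : ℝ) (hγ : 0 < γ) (h0 : 0 < ε) (h1 : ε < 1) (he0 : 0 ≤ e) (hd0 : 0 ≤ d)
    (hd : d = e - 7 / γ) (S : CSys) (G : S.Ω → LV) (hT : ThN G)
    (hev : 2 * γ * (S.P.ext (S.P.kerOf (rgf G) S.T)).ev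
        (fun x => e - sepd ε e ((G x.1).1.th - (x.2 : LV).1.th)) ≤ 7) :
    ∃ φ : S.ι → ℤ, 1 / (2 * ((3 * (⌈(4 : ℝ) * 3⌉₊ + 1) : ℕ) : ℝ))
      ≤ S.P.pr (fun ω => ori ε d G ω = φ (S.T ω)) := by
  obtain ⟨nbr, hcard, hclose⟩ := dc_ba_close ε d h0 h1 hd0
  obtain ⟨φ, hφ⟩ := dc_ba_collision S.P (rgf G) S.T (fun u => tcell ε d (u : LV).1.th) nbr _ hcard
  refine ⟨φ, ?_⟩
  have hhalf := dc_ba_markov _ _ γ hγ (fun x => by
    have := (dc_sepd_mem ε e ((G x.1).1.th - (x.2 : LV).1.th) h0 h1 he0).2.1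
    linarith) hev
  have h3 : (S.P.ext (S.P.kerOf (rgf G) S.T)).pr
      (fun x => e - sepd ε e ((G x.1).1.th - (x.2 : LV).1.th) < 7 / γ)
      ≤ (S.P.ext (S.P.kerOf (rgf G) S.T)).pr
    (fun x => tcell ε d (x.2 : LV).1.th ∈ nbr (tcell ε d ((rgf G x.1 : Set.range G) : LV).1.th)) := by
    apply ent_pr_mono
    intro x _ hx
    rw [ent_rgf_val]
    obtain ⟨ω', hω'⟩ := x.2.2
    have hs := (dc_sepd_mem ε e ((G x.1).1.th - (x.2 : LV).1.th) h0 h1 he0).2.2
    refine hclose _ _ (hT x.1).1 (hT x.1).2 (by rw [← hω']; exact (hT ω').1) (by rw [← hω']; exact (hT ω').2)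
      (hs.trans (Real.rpow_le_rpow_of_exponent_ge h0 h1.le (by rw [hd]; linarith)))
  have h4 : S.P.pr (fun ω => tcell ε d ((rgf G ω : Set.range G) : LV).1.th = φ (S.T ω))
      = S.P.pr (fun ω => ori ε d G ω = φ (S.T ω)) := by
    apply ent_pr_congr
    intro ω _
    rw [ent_rgf_val]
    rfl
  have h5 := (hhalf.trans h3).trans hφ
  rw [h4] at h5
  generalize ((3 * (⌈(4 : ℝ) * 3⌉₊ + 1) : ℕ) : ℝ) = M at h5 ⊢
  have hp1 := ent_pr_le_one S.P (fun ω => ori ε d G ω = φ (S.T ω))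
  have hp0 := ent_pr_nonneg S.P (fun ω => ori ε d G ω = φ (S.T ω))
  have hM : 0 < M := by
    by_contra hcon
    rw [not_lt] at hcon
    nlinarith
  rw [div_le_iff₀ (by positivity)]
  nlinarith

/-- Step 3 of P4.6: the aspect can be reduced to at most `Ka` (depending on `γ` only) at the cost of a constant factor in the deficit.
`S, G` from `NS`.  Replica `G'` of `G` given `T` (`S.adjoin`); both are labels at duration `0` (enlargement `3`) with deficit `≤ η + 2 + o(1)` (`dc_deficit_dur`, `tl_St_le`); `I(G;G'|T,C_0) = 0`.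
`dc_rep` (`r = 0`): `2γ E(e - v) ≤ 7`; Markov: `P(v ≥ e - Ka) ≥ 1/2`, `Ka = 7/γ`; `d = (e - Ka)₊`; cells `k = ori ε d G`; close frames have neighbouring cells (≤ 15 candidates incl. wrap-around at `π`):
`1/2 ≤ 15 E_T max_k P(k | T)`; `φ(T)` = argmax; `A = {ori ε d G = φ(T)}`, `P(A) ≥ 1/30`; on `S.condOn A`: deficit `≤ 30 (η + o(1))` (`dc_deficit_cond`), `H(ori ε d G | T, C_0) = 0`; `dc_ns_of_loc` (`r = 0`, `t = 1`). -/
theorem dc_bdasp (γ : ℝ) (h0 : 0 < γ) (h1 : γ < 1) : ∃ c Ka : ℝ, 0 < c ∧ 0 < Ka ∧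
    ∀ Emax ν : ℝ, 0 < ν → ∃ ε₁ : ℝ, 0 < ε₁ ∧ ∀ ε e η : ℝ, 0 < ε → ε < ε₁ → ε < 1 → 0 ≤ e → e ≤ Emax →
      0 ≤ η → η ≤ 1 → NS γ ε e η → ∃ e' : ℝ, 0 ≤ e' ∧ e' ≤ Ka ∧ NS γ ε e' (c * η + ν) := by
  obtain ⟨N, hNdef⟩ : ∃ N : ℕ, N = 3 * (⌈(4 : ℝ) * 3⌉₊ + 1) := ⟨_, rfl⟩
  have hN1 : (1 : ℝ) ≤ N := by
    have : 1 ≤ N := by omega
    exact_mod_cast this
  have hKa : 0 < 7 / γ := by positivity
  refine ⟨2 * N, 7 / γ, by positivity, hKa, ?_⟩
  intro Emax ν hν
  obtain ⟨εa, ha0, ha1, hrep⟩ := dc_ba_replica γ Emax h0 h1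
  obtain ⟨εb, hb0, hb1, hcond⟩ := dc_deficit_cond γ 1 1 (1 + Emax) 1 (ν / (4 * N)) h0 h1 one_pos (by positivity)
  obtain ⟨εc, hc0, hc1, hloc⟩ := dc_ns_of_loc γ 1 1 (1 + Emax) 1 (ν / 2) h0 h1 one_pos (by positivity)
  refine ⟨min εa (min εb εc), lt_min ha0 (lt_min hb0 hc0), ?_⟩
  intro ε e η hε0 hε hε1 he0 heE hη0 hη1 hNS
  have hεa : ε < εa := lt_of_lt_of_le hε (min_le_left _ _)
  have hεb : ε < εb := lt_of_lt_of_le hε ((min_le_right _ _).trans (min_le_left _ _))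
  have hεc : ε < εc := lt_of_lt_of_le hε ((min_le_right _ _).trans (min_le_right _ _))
  by_cases heK : e ≤ 7 / γ
  · exact ⟨e, he0, heK, dc_ba_ns_mono hNS (by nlinarith)⟩
  rw [not_le] at heK
  obtain ⟨S, G, hB, hT, hL, hD⟩ := hNS
  obtain ⟨d, hd⟩ : ∃ d, d = e - 7 / γ := ⟨_, rfl⟩
  have hd0 : 0 < d := by rw [hd]; linarith
  have hev := hrep S ε e η G hε0 hεa he0 heE hη1 hB hT hL hD
  obtain ⟨φ, hPA'⟩ := dc_ba_event γ ε e d h0 hε0 hε1 he0 hd0.le hd S G hT hev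
  rw [← hNdef] at hPA'
  -- the event
  obtain ⟨A, hA⟩ : ∃ A : S.Ω → Prop, A = fun ω => ori ε d G ω = φ (S.T ω) := ⟨_, rfl⟩
  have hPA : 1 / (2 * (N : ℝ)) ≤ S.P.pr A := by rw [hA]; exact hPA'
  have hPA0 : 0 < S.P.pr A := lt_of_lt_of_le (by positivity) hPA
  have hdc := hcond S ε 1 (1 + e) LV G (rd 0 e) A hε0 hεb hB (Or.inr le_rfl) (by linarith) (by linarith) hL hPA0
  have hkeep := dc_cond_keep S A
  have hdefA : (S.condOn A).deficit γ ε 1 (1 + e) G (rd 0 e) ≤ 2 * N * (η + ν / (4 * N)) := by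
    have hnn : 0 ≤ η + ν / (4 * N) := by positivity
    by_cases hneg : (S.condOn A).deficit γ ε 1 (1 + e) G (rd 0 e) ≤ 0
    · exact hneg.trans (by positivity)
    · rw [not_le] at hneg
      have h6 : 1 / (2 * (N : ℝ)) * (S.condOn A).deficit γ ε 1 (1 + e) G (rd 0 e) ≤ η + ν / (4 * N) :=
        (mul_le_mul_of_nonneg_right hPA hneg.le).trans (hdc.trans (by linarith))
      have h7 : (S.condOn A).deficit γ ε 1 (1 + e) G (rd 0 e)
          = 2 * N * (1 / (2 * (N : ℝ)) * (S.condOn A).deficit γ ε 1 (1 + e) G (rd 0 e)) := by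
        field_simp
      rw [h7]
      exact mul_le_mul_of_nonneg_left h6 (by positivity)
  have hz : (S.condOn A).P.entC (ori ε d G) (FLaw.pair (S.condOn A).T ((S.condOn A).Ct ε 0)) = 0 := by
    apply ent_entC_eq_zero
    intro ω ω' hω hω' hp
    have a1 : A ω := ((ent_cnd_supp S.P A hPA0).1 hω).1
    have a2 : A ω' := ((ent_cnd_supp S.P A hPA0).1 hω').1
    rw [hA] at a1 a2
    have a3 : S.T ω = S.T ω' := congrArg Prod.fst hp
    exact a1.trans ((congrArg φ a3).trans a2.symm)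
  have hns := hloc (S.condOn A) ε 0 1 (1 + e) 0 e d G hε0 hεc (hkeep.1 1 hB) (hkeep.2 1 ε 1 (1 + e) LV G (rd 0 e) hL)
    (by linarith) (Or.inl rfl) (by norm_num) hd0.le (by rw [hd]; linarith)
  rw [hz] at hns
  simp only [sub_zero, Real.rpow_one, div_one, mul_zero, zero_div, add_zero] at hns
  have he' : e - d = 7 / γ := by rw [hd]; ring
  rw [he'] at hns
  refine ⟨7 / γ, hKa.le, le_rfl, dc_ba_ns_mono hns ?_⟩
  have h8 : 2 * (N : ℝ) * (η + ν / (4 * N)) = 2 * N * η + ν / 2 := by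
    field_simp
    ring
  linarith

end Claimed.Agent.R255
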