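import Claimed.Agent.R255.Cl.Dich.Repl

/-!
# Row 255 (BR paper), chapter DICHOTOMY (P4.6-P4.8), package DC-COH      (architect helper40; prefix `dc_`)
Plan and vocabulary: `Cl/DichDefs.lean`.  The owner of the package edits ONLY this file (helper lemmas above the contracts, or in `Cl/Dich/Coh/*.lean`).  Do not change the statements without asking helper40.
-/

set_option autoImplicit false

namespace Claimed.Agent.R255

open Filter Topology
open Classical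

/-- from `P(E) Δ_E ≤ s` and `P(E) ≥ ν/2` -/
theorem dc_coh_div (p Δ s ν : ℝ) (hν : 0 < ν) (hs : 0 ≤ s) (hp : ν / 2 ≤ p) (h : p * Δ ≤ s) : Δ ≤ 2 / ν * s := by
  have hp0 : 0 < p := by linarith
  have h1 : Δ ≤ s / p := by rw [le_div_iff₀ hp0]; linarith
  refine h1.trans ?_
  rw [div_le_iff₀ hp0]
  have : 1 ≤ 2 / ν * p := by
    rw [div_mul_eq_mul_div, le_div_iff₀ hν]; linarith
  nlinarith

/-- **the first bad event is small** (the heart of (4.9)).  `A` = the frame of `G_t` and the frame of the replica of `G_r` are separated at depth `d`. -/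
theorem dc_coh_A (γ K B Lmax rmin ν ν₀ : ℝ) (hγ0 : 0 < γ) (hγ1 : γ < 1) (hr : 0 < rmin) (hν : 0 < ν)
    (hν₀ : 0 < ν₀) :
    ∃ ε₀ : ℝ, 0 < ε₀ ∧ ε₀ < 1 ∧ ∀ (S : CSys) (ε r t L br ar bt at' d : ℝ) (Gr Gt : S.Ω → LV),
      0 < ε → ε < ε₀ → S.Bdd B → rmin ≤ r → r ≤ t → L ≤ Lmax → ThN Gr → ThN Gt →
      S.IsLabel K ε r L Gr (rd br ar) → S.IsLabel K ε t L Gt (rd bt at') →
      S.deficit γ ε r L Gr (rd br ar) ≤ γ * ν₀ * ν / 32 → S.deficit γ ε t L Gt (rd bt at') ≤ γ * ν₀ * ν / 32 →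
      0 ≤ d → d + ν₀ ≤ (ar - br) - Kc γ * (|br - bt| + |ar - at'| + |t - r|) →
      (S.P.twin (FLaw.pair S.T (S.Ct ε r))).pr
        (fun x => ε ^ d < |Real.sin ((Gt x.1).1.th - (Gr x.2).1.th)|) < ν / 2 := by
  obtain ⟨K₁, hK₁⟩ : ∃ K₁, K₁ = |K| + 1 := ⟨_, rfl⟩
  have hKK : K ≤ K₁ := by rw [hK₁]; linarith [le_abs_self K]
  have hKK1 : K + 1 ≤ K₁ := by rw [hK₁]; linarith [le_abs_self K]
  have h1K : 1 ≤ K₁ := by rw [hK₁]; linarith [abs_nonneg K]
  obtain ⟨ε₁, hε₁0, hε₁1, hrep⟩ := dc_rep γ K₁ B Lmax rmin (γ * ν₀ / 4) hγ0 hγ1 hr (by positivity)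
  obtain ⟨ε₂, hε₂0, hε₂1, hcond⟩ :=
    dc_deficit_cond γ K₁ B Lmax rmin (γ * ν₀ * ν / 32) hγ0 hγ1 hr (by positivity)
  obtain ⟨CK, hresh⟩ := dc_reshape K
  obtain ⟨ε₃, hε₃0, hε₃1, hsm⟩ :=
    tl_l2_small (2 * Real.log 2 + CK + Real.log (2 / ν)) (γ * ν₀ / 4) (by positivity)
  refine ⟨min ε₁ (min ε₂ ε₃), lt_min hε₁0 (lt_min hε₂0 hε₃0), lt_of_le_of_lt (min_le_left _ _) hε₁1, ?_⟩
  intro S ε r t L br ar bt at' d Gr Gt h0 hε hB hrr hrt hL hthr htht hlr hlt hdr hdt hd0 hd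
  have hεa : ε < ε₁ := lt_of_lt_of_le hε (min_le_left _ _)
  have hεb : ε < ε₂ := lt_of_lt_of_le hε ((min_le_right _ _).trans (min_le_left _ _))
  have hεc : ε < ε₃ := lt_of_lt_of_le hε ((min_le_right _ _).trans (min_le_right _ _))
  have h1 : ε < 1 := lt_trans hεa hε₁1
  have hl := tl_l2_lg_pos ε h0 h1
  have hr0 : 0 ≤ r := by linarith
  -- the shapes
  obtain ⟨ω₁, hω₁⟩ := ent_exists_supp S.P
  have hω₁' : 0 < S.P.p ω₁ := lt_of_le_of_ne (S.P.nonneg _) (Ne.symm hω₁)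
  obtain ⟨p1, p2, p3, -⟩ := hlr ω₁ hω₁'
  obtain ⟨q1, q2, q3, -⟩ := hlt ω₁ hω₁'
  have p1' : 0 ≤ br := p1
  have p2' : br ≤ ar := p2
  have p3' : ar + r ≤ L := p3
  have q1' : 0 ≤ bt := q1
  have q2' : bt ≤ at' := q2
  have q3' : at' + t ≤ L := q3
  set C := FLaw.pair S.T (S.Ct ε r) with hC
  set A : S.Ω × S.Ω → Prop := fun x => ε ^ d < |Real.sin ((Gt x.1).1.th - (Gr x.2).1.th)| with hA
  by_contra hcon
  have hPA : ν / 2 ≤ (S.P.twin C).pr A := not_lt.1 hcon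
  have hPA0 : 0 < (S.P.twin C).pr A := by linarith
  -- labels on the two-copy system
  have l1 : (S.twin C).IsLabel K₁ ε t L (fun x => Gt x.1) (rd bt at') :=
    tl_label_mono _ K K₁ ε t t L L h0 h1 le_rfl le_rfl hKK _ _ _ (dc_rp_label_fst S C K ε t L _ Gt _ hlt)
  have l2 : (S.twin C).IsLabel K₁ ε r L (fun x => Gr x.2) (rd br ar) :=
    tl_label_mono _ (K + 1) K₁ ε r r L L h0 h1 le_rfl le_rfl hKK1 _ _ _
      (dc_rp_label_snd S K ε r L h0 _ Gr _ hlr)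
  have hB2 := dc_rp_bdd S C B hB
  -- conditional deficits
  have k1 := hcond (S.twin C) ε t L _ (fun x => Gt x.1) (rd bt at') A h0 hεb hB2 (Or.inr (hrr.trans hrt))
    (by linarith) hL l1 hPA0
  have k2 := hcond (S.twin C) ε r L _ (fun x => Gr x.2) (rd br ar) A h0 hεb hB2 (Or.inr hrr)
    (by linarith) hL l2 hPA0
  rw [dc_rp_deficit_fst] at k1
  rw [dc_rp_deficit_snd S C Prod.fst (fun _ => rfl)] at k2
  have k1' := dc_coh_div _ _ (γ * ν₀ * ν / 32 + γ * ν₀ * ν / 32) ν hν (by positivity) hPA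
    (k1.trans (by linarith))
  have k2' := dc_coh_div _ _ (γ * ν₀ * ν / 32 + γ * ν₀ * ν / 32) ν hν (by positivity) hPA
    (k2.trans (by linarith))
  have hsmall : 2 / ν * (γ * ν₀ * ν / 32 + γ * ν₀ * ν / 32) = γ * ν₀ / 8 := by field_simp; ring
  rw [hsmall] at k1' k2'
  -- the conditioned system and its first marginal
  set R : FLaw (S.Ω × S.Ω) := (S.P.twin C).cnd A with hR
  replace k1' : ((S.twin C).withLaw R).deficit γ ε t L (fun x => Gt x.1) (rd bt at') ≤ γ * ν₀ / 8 := k1'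
  replace k2' : ((S.twin C).withLaw R).deficit γ ε r L (fun x => Gr x.2) (rd br ar) ≤ γ * ν₀ / 8 := k2'
  have keepB : ∀ B, (S.twin C).Bdd B → ((S.twin C).withLaw R).Bdd B := (dc_cond_keep (S.twin C) A).1
  have keepL : ∀ (K ε t L : ℝ) (Γ : Type) (G : (S.twin C).Ω → Γ) (geo : Γ → Geo),
      (S.twin C).IsLabel K ε t L G geo → ((S.twin C).withLaw R).IsLabel K ε t L G geo :=
    (dc_cond_keep (S.twin C) A).2
  have hBA : (S.withLaw (R.map Prod.fst)).Bdd B := dc_rp_proj_bdd S C R B (keepB B hB2)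
  have m1 : (S.withLaw (R.map Prod.fst)).IsLabel K ε t L Gt (rd bt at') :=
    (dc_rp_proj_label S C R K ε t L _ Gt _).1
      (keepL K ε t L _ _ _ (dc_rp_label_fst S C K ε t L _ Gt _ hlt))
  rw [dc_rp_proj_deficit] at k1'
  -- change of duration
  have m2 : (S.withLaw (R.map Prod.fst)).IsLabel K ε r L Gt (rd bt at') := dc_label_mono (S.withLaw (R.map Prod.fst)) K ε r t L L h0 h1 hrt le_rfl _ _ _ m1
  have m3 := dc_deficit_dur (S.withLaw (R.map Prod.fst)) γ ε r t L _ Gt (rd bt at')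
  have m4 := tl_St_incr (S.withLaw (R.map Prod.fst)) ε r t h0 h1 hr0 hrt
  have hβ := beta_nonneg γ hγ0 hγ1
  have m5 : (S.withLaw (R.map Prod.fst)).deficit γ ε r L Gt (rd bt at') ≤ γ * ν₀ / 8 + 2 * (t - r) + 2 * Real.log 2 / lg ε := by
    have : 0 ≤ beta γ * (t - r) := mul_nonneg hβ (by linarith)
    have e : 2 * Real.log 2 / lg ε = 2 * (Real.log 2 / lg ε) := by ring
    rw [e]
    linarith
  -- reshape
  obtain ⟨G', g1, g2, -, -, g4, g5⟩ := hresh (S.withLaw (R.map Prod.fst)) γ ε r L bt at' br ar _ Gt (rd bt at') hγ0 hγ1 h0 h1 hr0 m2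
    (fun _ => ⟨rfl, rfl⟩) p1' p2' p3'
  have n1 : ((S.twin C).withLaw R).IsLabel K₁ ε r L (fun x => G' x.1) (rd br ar) :=
    tl_label_mono _ 1 K₁ ε r r L L h0 h1 le_rfl le_rfl h1K _ _ _
      ((dc_rp_proj_label S C R 1 ε r L _ G' _).2 g4)
  have n2 : ((S.twin C).withLaw R).IsLabel K₁ ε r L (fun x => Gr x.2) (rd br ar) :=
    keepL K₁ ε r L _ _ _ l2
  have hrp := hrep ((S.twin C).withLaw R) ε r L br ar (fun x => G' x.1) (fun x => Gr x.2) h0 hεa
    (keepB B hB2) (Or.inr hrr) hL (fun x => g1 x.1) (fun x => hthr x.2) n1 n2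
  have hpd := dc_rp_proj_deficit S C R γ ε r L LV G' (rd br ar)
  -- conditional information
  have hmi : ((S.twin C).withLaw R).P.miC (fun x => G' x.1) (fun x => Gr x.2)
      (FLaw.pair ((S.twin C).withLaw R).T (((S.twin C).withLaw R).Ct ε r)) ≤ Real.log (2 / ν) := by
    refine (dc_rp_miC_cond S.P C G' Gr A hPA0).trans ?_
    refine Real.log_le_log (by positivity) ?_
    rw [div_le_div_iff₀ hPA0 hν]
    linarith
  -- lower bound of the left hand side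
  have hlow : (ar - br) - d ≤ ((S.twin C).withLaw R).P.ev
      (fun x => (ar - br) - sepd ε (ar - br) ((G' x.1).1.th - (Gr x.2).1.th)) := by
    rw [← ent_ev_const ((S.twin C).withLaw R).P ((ar - br) - d)]
    refine ent_ev_mono _ fun x hx => ?_
    have hxA : A x := ((ent_cnd_supp (S.P.twin C) A hPA0).1 hx).1
    obtain ⟨s1, s2, s3⟩ := dc_sepd_mem ε (ar - br) ((G' x.1).1.th - (Gr x.2).1.th) h0 h1 (by linarith)
    have tri := dc_rp_sin_tri (Gt x.1).1.th (G' x.1).1.th (Gr x.2).1.th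
    have hz : |Real.sin ((Gt x.1).1.th - (G' x.1).1.th)| = 0 := by
      have := g2 x.1
      have e : (Gt x.1).1.th - (G' x.1).1.th = -((G' x.1).1.th - (rd bt at' (Gt x.1)).th) := by
        show _ = -((G' x.1).1.th - (Gt x.1).1.th)
        ring
      rw [e, Real.sin_neg, this, neg_zero, abs_zero]
    have hlt : ε ^ d < ε ^ sepd ε (ar - br) ((G' x.1).1.th - (Gr x.2).1.th) := by
      have hxA' : ε ^ d < |Real.sin ((Gt x.1).1.th - (Gr x.2).1.th)| := hxA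
      linarith
    have : sepd ε (ar - br) ((G' x.1).1.th - (Gr x.2).1.th) ≤ d := by
      by_contra hc
      exact absurd (Real.rpow_le_rpow_of_exponent_ge h0 h1.le (not_le.1 hc).le) (not_le.2 hlt)
    linarith
  -- arithmetic
  have hsm' := hsm ε h0 hεc
  have hmi' : ((S.twin C).withLaw R).P.miC (fun x => G' x.1) (fun x => Gr x.2)
      (FLaw.pair ((S.twin C).withLaw R).T (((S.twin C).withLaw R).Ct ε r)) / lg ε ≤ Real.log (2 / ν) / lg ε :=
    div_le_div_of_nonneg_right hmi hl.le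
  rw [add_div, add_div] at hsm'
  have hD0 : 0 ≤ |br - bt| + |ar - at'| + |t - r| := by positivity
  have hKc : γ * (Kc γ * (|br - bt| + |ar - at'| + |t - r|)) = 3 * (|br - bt| + |ar - at'| + |t - r|) := by
    unfold Kc; field_simp
  have htr : |t - r| = t - r := abs_of_nonneg (by linarith)
  have hmul : 2 * γ * ((ar - br) - d) ≤ 2 * γ * ((S.twin C).withLaw R).P.ev
      (fun x => (ar - br) - sepd ε (ar - br) ((G' x.1).1.th - (Gr x.2).1.th)) :=
    mul_le_mul_of_nonneg_left hlow (by positivity)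
  have hge : 2 * (γ * ν₀) + 6 * (|br - bt| + |ar - at'| + |t - r|) ≤ 2 * γ * ((ar - br) - d) := by
    have h2 : 2 * γ * (ν₀ + Kc γ * (|br - bt| + |ar - at'| + |t - r|)) ≤ 2 * γ * ((ar - br) - d) :=
      mul_le_mul_of_nonneg_left (by linarith) (by positivity)
    have h3 : 2 * γ * (ν₀ + Kc γ * (|br - bt| + |ar - at'| + |t - r|)) =
        2 * (γ * ν₀) + 2 * (γ * (Kc γ * (|br - bt| + |ar - at'| + |t - r|))) := by ring
    rw [h3, hKc] at h2
    linarith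
  have hγν : 0 < γ * ν₀ := by positivity
  have hb1 := abs_nonneg (br - bt)
  have hb2 := abs_nonneg (ar - at')
  linarith

/-- **Coherence (4.9)**: the frames of two near-saturated labels at durations `r ≤ t` on one system agree at every depth `d ≤ e(r) - K_γ D - ν₀`.
PROOF: `G'_r` = replica of `G_r` given `(T, C_r)`.  If `A = {|sin(th_t - th'_r)| > ε^d}` has mass `≥ ν/2` (`dc_coh_A`): CONDITION FIRST (`dc_deficit_cond`: the deficits stay small; conditional information `≤ log(1/P(A))`, L2.3),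
THEN pass to duration `r` (`dc_label_mono`, `dc_deficit_dur`, `tl_St_incr`) and reshape `G_t` to `(b_r, a_r)` (`dc_reshape`, applied on the first marginal of the conditioned two-copy system): deficit `≤ small + 2D`;
`dc_rep` gives `2γ(e_r - d) ≤ 2D + small`: contradiction.
`dc_rep` for `(G_r, G'_r)` + Markov: `|sin(th_r - th'_r)| ≤ ε^d` with probability `≥ 1 - ν/2`.  Triangle inequality for `|sin|`. -/
theorem dc_coh (γ K B Lmax rmin ν ν₀ : ℝ) (hγ0 : 0 < γ) (hγ1 : γ < 1) (hr : 0 < rmin) (hν : 0 < ν)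
    (hν₀ : 0 < ν₀) :
    ∃ ε₀ θ : ℝ, 0 < ε₀ ∧ ε₀ < 1 ∧ 0 < θ ∧ ∀ (S : CSys) (ε r t L br ar bt at' d : ℝ) (Gr Gt : S.Ω → LV),
      0 < ε → ε < ε₀ → S.Bdd B → rmin ≤ r → r ≤ t → L ≤ Lmax → ThN Gr → ThN Gt →
      S.IsLabel K ε r L Gr (rd br ar) → S.IsLabel K ε t L Gt (rd bt at') →
      S.deficit γ ε r L Gr (rd br ar) ≤ θ → S.deficit γ ε t L Gt (rd bt at') ≤ θ →
      0 ≤ d → d + ν₀ ≤ (ar - br) - Kc γ * (|br - bt| + |ar - at'| + |t - r|) →
      S.P.pr (fun ω => 2 * ε ^ d < |Real.sin ((Gr ω).1.th - (Gt ω).1.th)|) ≤ ν := by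
  obtain ⟨ε₁, hε₁0, hε₁1, hA⟩ := dc_coh_A γ K B Lmax rmin ν ν₀ hγ0 hγ1 hr hν hν₀
  obtain ⟨ε₂, hε₂0, hε₂1, hrep⟩ :=
    dc_rep γ (K + 1) B Lmax rmin (γ * ν₀ * ν / 4) hγ0 hγ1 hr (by positivity)
  refine ⟨min ε₁ ε₂, γ * ν₀ * ν / 32, lt_min hε₁0 hε₂0, lt_of_le_of_lt (min_le_left _ _) hε₁1,
    by positivity, ?_⟩
  intro S ε r t L br ar bt at' d Gr Gt h0 hε hB hrr hrt hL hthr htht hlr hlt hdr hdt hd0 hd
  have hεa : ε < ε₁ := lt_of_lt_of_le hε (min_le_left _ _)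
  have hεb : ε < ε₂ := lt_of_lt_of_le hε (min_le_right _ _)
  have h1 : ε < 1 := lt_trans hεa hε₁1
  have hPA := hA S ε r t L br ar bt at' d Gr Gt h0 hεa hB hrr hrt hL hthr htht hlr hlt hdr hdt hd0 hd
  obtain ⟨ω₁, hω₁⟩ := ent_exists_supp S.P
  obtain ⟨-, p2, -⟩ := hlr ω₁ (lt_of_le_of_ne (S.P.nonneg _) (Ne.symm hω₁))
  have p2' : br ≤ ar := p2
  have he0 : 0 ≤ ar - br := by linarith
  set C := FLaw.pair S.T (S.Ct ε r) with hC
  -- the second bad event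
  have hr2 := hrep (S.twin C) ε r L br ar (fun x => Gr x.1) (fun x => Gr x.2) h0 hεb (dc_rp_bdd S C B hB)
    (Or.inr hrr) hL (fun x => hthr x.1) (fun x => hthr x.2)
    (tl_label_mono _ K (K + 1) ε r r L L h0 h1 le_rfl le_rfl (by linarith) _ _ _
      (dc_rp_label_fst S C K ε r L _ Gr _ hlr))
    (dc_rp_label_snd S K ε r L h0 _ Gr _ hlr)
  rw [dc_rp_deficit_fst, dc_rp_deficit_snd S C Prod.fst (fun _ => rfl)] at hr2
  have hmi : (S.twin C).P.miC (fun x => Gr x.1) (fun x => Gr x.2)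
      (FLaw.pair (S.twin C).T ((S.twin C).Ct ε r)) = 0 := dc_rp_miC S.P C Gr Gr
  rw [hmi, zero_div] at hr2
  have hev : (S.P.twin C).ev (fun x => (ar - br) - sepd ε (ar - br) ((Gr x.1).1.th - (Gr x.2).1.th))
      ≤ ν₀ * (ν / 2) := by
    have : 2 * γ * (S.P.twin C).ev (fun x => (ar - br) - sepd ε (ar - br) ((Gr x.1).1.th - (Gr x.2).1.th))
        ≤ 2 * γ * (ν₀ * (ν / 2)) := by
      have hpos : 0 < γ * ν₀ * ν := by positivity
      calc _ ≤ _ := hr2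
        _ ≤ γ * ν₀ * ν / 32 + γ * ν₀ * ν / 32 + 0 + γ * ν₀ * ν / 4 := by linarith
        _ ≤ 2 * γ * (ν₀ * (ν / 2)) := by nlinarith
    exact le_of_mul_le_mul_left this (by positivity)
  have hPB : (S.P.twin C).pr
      (fun x => ν₀ ≤ (ar - br) - sepd ε (ar - br) ((Gr x.1).1.th - (Gr x.2).1.th)) ≤ ν / 2 := by
    refine (ent_markov _ (fun x _ => ?_) hν₀).trans ?_
    · have := (dc_sepd_mem ε (ar - br) ((Gr x.1).1.th - (Gr x.2).1.th) h0 h1 he0).2.1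
      linarith
    · rw [div_le_iff₀ hν₀]
      linarith
  -- union bound
  rw [← dc_rp_pr_fst S.P C (fun ω => 2 * ε ^ d < |Real.sin ((Gr ω).1.th - (Gt ω).1.th)|)]
  have hsub : (S.P.twin C).pr (fun x => 2 * ε ^ d < |Real.sin ((Gr x.1).1.th - (Gt x.1).1.th)|) ≤
      (S.P.twin C).pr (fun x => ε ^ d < |Real.sin ((Gt x.1).1.th - (Gr x.2).1.th)| ∨
        ν₀ ≤ (ar - br) - sepd ε (ar - br) ((Gr x.1).1.th - (Gr x.2).1.th)) := by
    refine ent_pr_mono _ fun x _ hx => ?_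
    by_contra hc
    push Not at hc
    obtain ⟨c1, c2⟩ := hc
    obtain ⟨s1, s2, s3⟩ := dc_sepd_mem ε (ar - br) ((Gr x.1).1.th - (Gr x.2).1.th) h0 h1 he0
    have hD0 : 0 ≤ Kc γ * (|br - bt| + |ar - at'| + |t - r|) := by
      unfold Kc; positivity
    have hdv : d ≤ sepd ε (ar - br) ((Gr x.1).1.th - (Gr x.2).1.th) := by linarith
    have t1 : |Real.sin ((Gr x.1).1.th - (Gr x.2).1.th)| ≤ ε ^ d :=
      s3.trans (Real.rpow_le_rpow_of_exponent_ge h0 h1.le hdv)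
    have t2 : |Real.sin ((Gr x.2).1.th - (Gt x.1).1.th)| ≤ ε ^ d := by
      have e : (Gr x.2).1.th - (Gt x.1).1.th = -((Gt x.1).1.th - (Gr x.2).1.th) := by ring
      rw [e, Real.sin_neg, abs_neg]
      exact c1
    have tri := dc_rp_sin_tri (Gr x.1).1.th (Gr x.2).1.th (Gt x.1).1.th
    linarith
  have hor := ent_pr_or_le (S.P.twin C) (fun x => ε ^ d < |Real.sin ((Gt x.1).1.th - (Gr x.2).1.th)|)
    (fun x => ν₀ ≤ (ar - br) - sepd ε (ar - br) ((Gr x.1).1.th - (Gr x.2).1.th))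
  linarith

end Claimed.Agent.R255
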