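import Claimed.Agent.R255.Cl.Dich.Near
import Claimed.Agent.R255.Cl.Dich.BdAsp

/-!
# Row 255 (BR paper), chapter DICHOTOMY (P4.6-P4.8), package DC-LEAST      (architect helper40; prefix `dc_`)
Plan and vocabulary: `Cl/DichDefs.lean`.
-/

set_option autoImplicit false

namespace Claimed.Agent.R255

open Filter Topology
open Classical

theorem NS.mono {γ ε e δ δ' : ℝ} (h : NS γ ε e δ) (hδ : δ ≤ δ') : NS γ ε e δ' := by
  obtain ⟨S, G, a1, a2, a3, a4⟩ := h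
  exact ⟨S, G, a1, a2, a3, le_trans a4 hδ⟩

/-- approximation criterion for membership in `AspSet` -/
theorem dc_asp_of_approx (γ : ℝ) (h0 : 0 < γ) (h1 : γ < 1) (e : ℝ) (he : 0 ≤ e)
    (H : ∀ δ : ℝ, 0 < δ → ∀ ε₀ : ℝ, 0 < ε₀ → ∃ ε e' : ℝ, 0 < ε ∧ ε < ε₀ ∧ ε < 1 ∧ 0 ≤ e' ∧ |e - e'| ≤ δ ∧
      NS γ ε e' δ) : e ∈ AspSet γ := by
  obtain ⟨C, hC⟩ := dc_ns_reshape
  refine ⟨he, fun δ hδ ε₀ hε₀ => ?_⟩
  obtain ⟨ε₂, h20, -, herr⟩ := dc_small_err C (δ / 4) (by positivity)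
  obtain ⟨ε, e', a1, a2, a3, a4, a5, a6⟩ := H (δ / 16) (by positivity) (min ε₀ ε₂) (lt_min hε₀ h20)
  refine ⟨ε, a1, lt_of_lt_of_le a2 (min_le_left _ _), a3, ?_⟩
  have h2 := hC γ ε e' e (δ / 16) h0 h1 a1 a3 a4 he a6
  have h3 := herr ε a1 (lt_of_lt_of_le a2 (min_le_right _ _))
  exact h2.mono (by linarith)

/-- existence of a saturated normalised sequence of bounded aspect.
For `k ≥ 1` take `(ε_k, e_k)` with `ε_k < 1/k`, `e_k ≤ Ka`, `NS γ ε_k e_k ((c+1)/k)` (`dc_near`, `dc_bdasp`); `e* = ulim e_k`; `dc_ns_reshape`. -/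
theorem dc_asp_nonempty (γ : ℝ) (h0 : 0 < γ) (h1 : γ < 1) (hβ : γ < beta γ) : (AspSet γ).Nonempty := by
  obtain ⟨c, Ka, hc, hKa, hbd⟩ := dc_bdasp γ h0 h1
  have step : ∀ k : ℕ, ∃ ε e : ℝ, 0 < ε ∧ ε < 1 / ((k : ℝ) + 1) ∧ ε < 1 ∧ 0 ≤ e ∧ e ≤ Ka ∧
      NS γ ε e ((c + 1) / ((k : ℝ) + 1)) := by
    intro k
    have hk : (0 : ℝ) < 1 / ((k : ℝ) + 1) := by positivity
    obtain ⟨Emax, hnear⟩ := dc_near γ h0 h1 hβ (1 / ((k : ℝ) + 1)) hk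
    obtain ⟨ε₁, h10, hb⟩ := hbd Emax (1 / ((k : ℝ) + 1)) hk
    obtain ⟨ε, e, a1, a2, a3, a4, a5, a6⟩ := hnear (min ε₁ (1 / ((k : ℝ) + 1))) (lt_min h10 hk)
    have hk1 : 1 / ((k : ℝ) + 1) ≤ 1 := by
      rw [div_le_one (by positivity)]
      have : (0 : ℝ) ≤ k := Nat.cast_nonneg k
      linarith
    obtain ⟨e', b1, b2, b3⟩ := hb ε e (1 / ((k : ℝ) + 1)) a1 (lt_of_lt_of_le a2 (min_le_left _ _)) a3 a4 a5
      hk.le hk1 a6
    refine ⟨ε, e', a1, lt_of_lt_of_le a2 (min_le_right _ _), a3, b1, b2, b3.mono (le_of_eq ?_)⟩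
    ring
  choose ε e s1 s2 s3 s4 s5 s6 using step
  have hbdd : UBdd e := UBdd.of_le 0 Ka (Eventually.of_forall fun k => ⟨s4 k, s5 k⟩)
  have hlim := ulim_tendsto e hbdd
  refine ⟨ulim e, dc_asp_of_approx γ h0 h1 _ (const_le_ulim e 0 hbdd (Eventually.of_forall s4)) ?_⟩
  intro δ hδ ε₀ hε₀
  have e1 : ∀ᶠ k in uf, |ulim e - e k| ≤ δ := by
    have := (Metric.tendsto_nhds.mp hlim) δ hδ
    filter_upwards [this] with k hk
    rw [Real.dist_eq, abs_sub_comm] at hk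
    exact hk.le
  have t0 : Tendsto (fun k : ℕ => 1 / ((k : ℝ) + 1)) atTop (𝓝 0) := tendsto_one_div_add_atTop_nhds_zero_nat
  have e2 : ∀ᶠ k : ℕ in uf, 1 / ((k : ℝ) + 1) < ε₀ := uf_le_atTop (t0.eventually (gt_mem_nhds hε₀))
  have e3 : ∀ᶠ k : ℕ in uf, (c + 1) / ((k : ℝ) + 1) < δ := by
    have t1 : Tendsto (fun k : ℕ => (c + 1) * (1 / ((k : ℝ) + 1))) atTop (𝓝 ((c + 1) * 0)) :=
      t0.const_mul _
    rw [mul_zero] at t1
    have := uf_le_atTop (t1.eventually (gt_mem_nhds hδ))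
    filter_upwards [this] with k hk
    rwa [mul_one_div] at hk
  have := uf_neBot
  obtain ⟨k, k1, k2, k3⟩ := (e1.and (e2.and e3)).exists
  exact ⟨ε k, e k, s1 k, lt_trans (s2 k) k2, s3 k, s4 k, k1, (s6 k).mono k3.le⟩

/-- `AspSet γ` is closed (`dc_ns_reshape`) -/
theorem dc_asp_closed (γ : ℝ) (h0 : 0 < γ) (h1 : γ < 1) : IsClosed (AspSet γ) := by
  rw [← closure_subset_iff_isClosed]
  intro e he
  rw [Metric.mem_closure_iff] at he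
  have he0 : 0 ≤ e := by
    by_contra h
    push Not at h
    obtain ⟨e', h2, h3⟩ := he (-e) (by linarith)
    rw [Real.dist_eq] at h3
    have := h2.1
    have := (abs_lt.mp h3).1
    linarith
  refine dc_asp_of_approx γ h0 h1 e he0 fun δ hδ ε₀ hε₀ => ?_
  obtain ⟨e', h2, h3⟩ := he δ hδ
  obtain ⟨ε, a1, a2, a3, a4⟩ := h2.2 δ hδ ε₀ hε₀
  rw [Real.dist_eq] at h3
  exact ⟨ε, e', a1, a2, a3, h2.1, h3.le, a4⟩

/-- **Proposition 4.6**: the least aspect is attained -/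
theorem dc_least (γ : ℝ) (h0 : 0 < γ) (h1 : γ < 1) (hβ : γ < beta γ) : ∃ m : ℝ, IsLeast (AspSet γ) m := by
  have hne := dc_asp_nonempty γ h0 h1 hβ
  have hbd : BddBelow (AspSet γ) := ⟨0, fun e he => he.1⟩
  exact ⟨sInf (AspSet γ), (dc_asp_closed γ h0 h1).csInf_mem hne hbd, fun e he => csInf_le hbd he⟩

end Claimed.Agent.R255
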