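import Claimed.Agent.R255.Cl.Dich.Repl

/-!
# Row 255 (BR paper), chapter DICHOTOMY (P4.6-P4.8), package DC-ZOE      (architect helper40; prefix `dc_`)
Plan and vocabulary: `Cl/DichDefs.lean`.  The owner of the package edits ONLY this file (helper lemmas above the contracts, or in `Cl/Dich/Zoe/*.lean`).  Do not change the statements without asking helper40.
-/

set_option autoImplicit false

namespace Claimed.Agent.R255

open Filter Topology
open Classical

/-- `log (ε^(-s)) = s ℓ` -/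
theorem dc_zoe_log_rpow (ε s : ℝ) (h0 : 0 < ε) : Real.log (ε ^ (-s)) = s * lg ε := by
  unfold lg
  rw [Real.log_rpow h0, one_div, Real.log_inv]
  ring

/-- refinement of the orientation cell from depth `d` to depth `e ≥ d` -/
theorem dc_zoe_refine {Ω : Type} [Fintype Ω] (P : FLaw Ω) (ε d e : ℝ) (h0 : 0 < ε) (h1 : ε < 1) (hde : d ≤ e)
    (G : Ω → LV) : P.entC (ori ε e G) (ori ε d G) ≤ Real.log 3 + (e - d) * lg ε := by
  set m := tlev ε e - tlev ε d with hm
  have hp : (0 : ℝ) < 2 ^ m := by positivity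
  have h := ie_entC_int_le P (ori ε e G) (ori ε d G) (fun k => (k : ℝ) * 2 ^ m + 2 ^ m / 2) (2 ^ m / 2)
    (by positivity) (fun ω _ => by
      have := ig_rel_nonneg ε d e (G ω).1.th h0 h1 hde
      rw [← hm] at this
      show |(tcell ε e (G ω).1.th : ℝ) - ((tcell ε d (G ω).1.th : ℝ) * 2 ^ m + 2 ^ m / 2)| ≤ 2 ^ m / 2
      rw [abs_le]
      constructor <;> linarith [this.1, this.2])
  refine h.trans ?_
  have hr : (2 : ℝ) ^ m ≤ 2 * ε ^ (-(e - d)) := by
    have := ig_ratio_le ε d (e - d) h0 h1 (by linarith)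
    rwa [show d + (e - d) = e by ring] at this
  have hone : 1 ≤ ε ^ (-(e - d)) :=
    Real.one_le_rpow_of_pos_of_le_one_of_nonpos h0 h1.le (by linarith)
  have hpos : 0 < ε ^ (-(e - d)) := by linarith
  calc Real.log (2 * (2 ^ m / 2) + 1) ≤ Real.log (3 * ε ^ (-(e - d))) :=
        Real.log_le_log (by positivity) (by linarith)
    _ = Real.log 3 + (e - d) * lg ε := by
        rw [Real.log_mul (by norm_num) hpos.ne', dc_zoe_log_rpow ε _ h0]

/-- **Zero orientation entropy**: the frame of a near-saturated label of fixed shape is determined by `(T, C_u)` at its full depth `e = a - b`.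
PROOF: replica `G'` of `G` given `(T, C_u)` (`S.adjoin`, kernel = conditional law; `G'` is a label with enlargement `K + 1`); `dc_rep` with vanishing conditional information; Markov: `v ≥ e - ν'` with probability `→ 1`;
collision bound: `P(close | x) ≤ max_k P(nbr k | x)`; (2.3) `ent_ambiguity`; refinement from depth `e - ν'` to `e` costs `ν'`. -/
theorem dc_zoe (γ K B Lmax umin ν : ℝ) (hγ0 : 0 < γ) (hγ1 : γ < 1) (hu : 0 < umin) (hν : 0 < ν) :
    ∃ ε₀ θ : ℝ, 0 < ε₀ ∧ ε₀ < 1 ∧ 0 < θ ∧ ∀ (S : CSys) (ε u L b a : ℝ) (G : S.Ω → LV), 0 < ε → ε < ε₀ →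
      S.Bdd B → umin ≤ u → L ≤ Lmax → ThN G → S.IsLabel K ε u L G (rd b a) →
      S.deficit γ ε u L G (rd b a) ≤ θ →
      S.P.entC (ori ε (a - b) G) (FLaw.pair S.T (S.Ct ε u)) / lg ε ≤ ν := by
  obtain ⟨ν', hν'⟩ : ∃ ν', ν' = ν / 4 := ⟨_, rfl⟩
  obtain ⟨η, hη⟩ : ∃ η, η = ν / (4 * (|Lmax| + 1)) := ⟨_, rfl⟩
  have hL1 : 0 < |Lmax| + 1 := by positivity
  have hν'0 : 0 < ν' := by rw [hν']; positivity
  have hη0 : 0 < η := by rw [hη]; positivity
  have hηL : η * (|Lmax| + 1) = ν / 4 := by rw [hη]; field_simp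
  obtain ⟨ε₁, hε₁0, hε₁1, hrep⟩ :=
    dc_rep γ (K + 1) B Lmax umin (γ * ν' * η) hγ0 hγ1 hu (by positivity)
  obtain ⟨ε₂, hε₂0, hε₂1, hsm⟩ :=
    tl_l2_small (Real.log 2 + Real.log 33 + η * Real.log 17 + Real.log 3) (ν / 4) (by positivity)
  refine ⟨min ε₁ ε₂, γ * ν' * η / 2, lt_min hε₁0 hε₂0, lt_of_le_of_lt (min_le_left _ _) hε₁1,
    by positivity, ?_⟩
  intro S ε u L b a G h0 hε hB huu hL hth hlab hdef
  have h1 : ε < 1 := lt_trans (lt_of_lt_of_le hε (min_le_left _ _)) hε₁1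
  have hl := tl_l2_lg_pos ε h0 h1
  -- the shape
  obtain ⟨ω₁, hω₁⟩ := ent_exists_supp S.P
  obtain ⟨c1, c2, c3, -⟩ := hlab ω₁ (lt_of_le_of_ne (S.P.nonneg _) (Ne.symm hω₁))
  have c1' : 0 ≤ b := c1
  have c2' : b ≤ a := c2
  have c3' : a + u ≤ L := c3
  obtain ⟨e, he⟩ : ∃ e, e = a - b := ⟨_, rfl⟩
  rw [← he]
  have he0 : 0 ≤ e := by rw [he]; linarith
  have heL : e ≤ |Lmax| := by
    have := le_abs_self Lmax
    rw [he]; linarith
  obtain ⟨d, hd⟩ : ∃ d, d = max (e - ν') 0 := ⟨_, rfl⟩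
  have hd0 : 0 ≤ d := by rw [hd]; exact le_max_right _ _
  have hde : d ≤ e := by rw [hd]; exact max_le (by linarith) he0
  have hed : e - d ≤ ν' := by
    have := le_max_left (e - ν') 0
    rw [← hd] at this
    linarith
  -- the two-copy system
  set C := FLaw.pair S.T (S.Ct ε u) with hC
  have hr := hrep (S.twin C) ε u L b a (fun x => G x.1) (fun x => G x.2) h0
    (lt_of_lt_of_le hε (min_le_left _ _)) (dc_rp_bdd S C B hB) (Or.inr huu) hL (fun x => hth x.1)
    (fun x => hth x.2)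
    (tl_label_mono _ K (K + 1) ε u u L L h0 h1 le_rfl le_rfl (by linarith) _ _ _
      (dc_rp_label_fst S C K ε u L _ G _ hlab))
    (dc_rp_label_snd S K ε u L h0 _ G _ hlab)
  rw [dc_rp_deficit_fst, dc_rp_deficit_snd S C Prod.fst (fun _ => rfl)] at hr
  have hmi : (S.twin C).P.miC (fun x => G x.1) (fun x => G x.2)
      (FLaw.pair (S.twin C).T ((S.twin C).Ct ε u)) = 0 := dc_rp_miC S.P C G G
  rw [hmi, zero_div, ← he] at hr
  -- Markov
  have hev : (S.twin C).P.ev (fun x => e - sepd ε e ((G x.1).1.th - (G x.2).1.th)) ≤ ν' * η := by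
    have : 2 * γ * (S.twin C).P.ev (fun x => e - sepd ε e ((G x.1).1.th - (G x.2).1.th))
        ≤ 2 * γ * (ν' * η) := by
      calc _ ≤ _ := hr
        _ ≤ γ * ν' * η / 2 + γ * ν' * η / 2 + 0 + γ * ν' * η := by linarith
        _ = 2 * γ * (ν' * η) := by ring
    exact le_of_mul_le_mul_left this (by positivity)
  have hmk : (S.twin C).P.pr (fun x => ν' ≤ e - sepd ε e ((G x.1).1.th - (G x.2).1.th)) ≤ η := by
    refine (ent_markov _ (fun x _ => ?_) hν'0).trans ?_
    · have := (dc_sepd_mem ε e ((G x.1).1.th - (G x.2).1.th) h0 h1 he0).2.1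
      linarith
    · rw [div_le_iff₀ hν'0]
      linarith
  -- collision
  have hcol : 1 - η ≤ (S.P.twin C).pr
      (fun x => ori ε d G x.1 ∈ dcNbr ε d (ori ε d G x.2)) := by
    have hn := ent_pr_not (S.P.twin C) (fun x => ori ε d G x.1 ∈ dcNbr ε d (ori ε d G x.2))
    have hle : (S.P.twin C).pr (fun x => ¬ ori ε d G x.1 ∈ dcNbr ε d (ori ε d G x.2)) ≤
        (S.P.twin C).pr (fun x => ν' ≤ e - sepd ε e ((G x.1).1.th - (G x.2).1.th)) := by
      refine ent_pr_mono _ fun x _ hx => ?_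
      by_contra hc
      apply hx
      obtain ⟨s1, s2, s3⟩ := dc_sepd_mem ε e ((G x.1).1.th - (G x.2).1.th) h0 h1 he0
      have hdv : d ≤ sepd ε e ((G x.1).1.th - (G x.2).1.th) := by
        rw [hd]; exact max_le (by linarith) s1
      exact dc_rp_nbr ε d _ _ h0 h1 hd0 (hth x.1).1 (hth x.1).2 (hth x.2).1 (hth x.2).2
        (s3.trans (Real.rpow_le_rpow_of_exponent_ge h0 h1.le hdv))
    have hmk' : (S.P.twin C).pr (fun x => ν' ≤ e - sepd ε e ((G x.1).1.th - (G x.2).1.th)) ≤ η := hmk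
    linarith
  obtain ⟨tab, htab⟩ := dc_rp_table_twin S.P C (ori ε d G) (fun k k' => k ∈ dcNbr ε d k')
  -- ambiguity
  have hpos : 0 < ε ^ (-d) := Real.rpow_pos_of_pos h0 _
  have hone : 1 ≤ ε ^ (-d) := Real.one_le_rpow_of_pos_of_le_one_of_nonpos h0 h1.le (by linarith)
  have hamb := ent_ambiguity S.P C (ori ε d G) (fun ω => ¬ ori ε d G ω ∈ dcNbr ε d (tab (C ω)))
    (N := 33) (M := 2 * (8 * ε ^ (-d)) + 1) (ζ := η) (by norm_num)
    (fun ω₀ => ⟨dcNbr ε d (tab (C ω₀)), dc_rp_nbr_card _ _ _, fun ω _ hω hCω => by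
      rw [← hCω]; exact not_not.1 hω⟩)
    ⟨_, ie_card_int_ball 0 (8 * ε ^ (-d)) (by positivity), fun ω _ =>
      dc_rp_ori_range ε d _ h0 h1 hd0 (hth ω).1 (hth ω).2⟩
    (by rw [ent_pr_not]; linarith)
  have hlogM : Real.log (2 * (8 * ε ^ (-d)) + 1) ≤ Real.log 17 + d * lg ε := by
    calc Real.log (2 * (8 * ε ^ (-d)) + 1) ≤ Real.log (17 * ε ^ (-d)) :=
          Real.log_le_log (by positivity) (by linarith)
      _ = Real.log 17 + d * lg ε := by
          rw [Real.log_mul (by norm_num) hpos.ne', dc_zoe_log_rpow ε _ h0]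
  -- refinement
  have hchain : S.P.entC (ori ε e G) C ≤ S.P.entC (ori ε d G) C + S.P.entC (ori ε e G) (ori ε d G) := by
    have s1 : S.P.entC (ori ε e G) C ≤ S.P.entC (FLaw.pair (ori ε d G) (ori ε e G)) C :=
      ent_entC_mono S.P _ _ C fun ω ω' _ _ h _ => (Prod.ext_iff.1 h).2
    have s2 := ent_entC_chain S.P (ori ε d G) (ori ε e G) C
    have s3 := ent_entC_pair_le S.P (ori ε e G) (ori ε d G) C
    linarith
  have href := dc_zoe_refine S.P ε d e h0 h1 hde G
  have hsm' := hsm ε h0 (lt_of_lt_of_le hε (min_le_right _ _))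
  rw [div_le_iff₀ hl] at hsm' ⊢
  have t1 : η * Real.log (2 * (8 * ε ^ (-d)) + 1) ≤ η * (Real.log 17 + d * lg ε) :=
    mul_le_mul_of_nonneg_left hlogM hη0.le
  have t2 : η * d * lg ε ≤ ν / 4 * lg ε := by
    refine mul_le_mul_of_nonneg_right ?_ hl.le
    calc η * d ≤ η * (|Lmax| + 1) := mul_le_mul_of_nonneg_left (by linarith) hη0.le
      _ = ν / 4 := hηL
  have t3 : (e - d) * lg ε ≤ ν / 4 * lg ε :=
    mul_le_mul_of_nonneg_right (by rw [← hν']; exact hed) hl.le
  nlinarith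

end Claimed.Agent.R255
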