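import Claimed.Agent.R255.Cl.Dich.Ns
import Claimed.Agent.R255.Cl.Dich.Zoe
import Claimed.Agent.R255.Cl.Dich.Coh
import Claimed.Agent.R255.Ent.Restr
import Claimed.Agent.R255.Iso.Grid

/-!
# Row 255 (BR paper), chapter DICHOTOMY (P4.6-P4.8), package DC-PATH      (architect helper40; prefix `dc_`)
Plan and vocabulary: `Cl/DichDefs.lean`.  The owner of the package edits ONLY this file (helper lemmas above the contracts, or in `Cl/Dich/Path/*.lean`).  Do not change the statements without asking helper40.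
Helper lemmas: prefix `dcp_` (helper171).
-/

set_option autoImplicit false

namespace Claimed.Agent.R255

open Filter Topology
open Classical

/-! ## helpers -/

theorem dcp_supp (S : CSys) : ∃ ω, 0 < S.P.p ω := by
  obtain ⟨ω, hω⟩ := ent_exists_supp S.P
  exact ⟨ω, lt_of_le_of_ne (S.P.nonneg ω) (Ne.symm hω)⟩

theorem dcp_ns_mono {γ ε e δ δ' : ℝ} (h : NS γ ε e δ) (hδ : δ ≤ δ') : NS γ ε e δ' := by
  obtain ⟨S, G, h1, h2, h3, h4⟩ := h
  exact ⟨S, G, h1, h2, h3, h4.trans hδ⟩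

theorem dcp_dy_pos {u : ℝ} (hu : u ∈ Dy) : 0 < u := by
  obtain ⟨k, j, hj, -, rfl⟩ := hu
  have : (0 : ℝ) < j := by exact_mod_cast hj
  positivity

theorem dcp_lg_pos {ε : ℝ} (h0 : 0 < ε) (h1 : ε < 1) : 0 < lg ε := by
  unfold lg
  exact Real.log_pos (by rw [lt_div_iff₀ h0]; linarith)

theorem dcp_lg_tendsto (Q : CSeq) : Tendsto (fun n => lg (Q.ε n)) uf atTop := by
  have h1 : Tendsto Q.ε uf (𝓝[>] 0) :=
    tendsto_nhdsWithin_iff.2 ⟨Q.lim, Eventually.of_forall fun n => (Q.pos n).1⟩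
  have h2 : Tendsto (fun n => (Q.ε n)⁻¹) uf atTop := tendsto_inv_nhdsGT_zero.comp h1
  have h3 := Real.tendsto_log_atTop.comp h2
  refine h3.congr fun n => ?_
  simp [lg, one_div]

/-- `c / ℓ → 0` -/
theorem dcp_const_div_lg (Q : CSeq) (c : ℝ) : Tendsto (fun n => c / lg (Q.ε n)) uf (𝓝 0) :=
  (dcp_lg_tendsto Q).const_div_atTop c

theorem dcp_eps_lt (Q : CSeq) {ε₀ : ℝ} (h : 0 < ε₀) : ∀ᶠ n in uf, Q.ε n < ε₀ :=
  Q.lim.eventually_lt_const h

theorem dcp_eps_rpow_lt (Q : CSeq) {h ε₀ : ℝ} (hh : 0 < h) (h0 : 0 < ε₀) :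
    ∀ᶠ n in uf, (Q.ε n) ^ h < ε₀ := by
  have h1 : Tendsto (fun n => (Q.ε n) ^ h) uf (𝓝 ((0 : ℝ) ^ h)) := Q.lim.rpow_const (Or.inr hh.le)
  rw [Real.zero_rpow hh.ne'] at h1
  exact h1.eventually_lt_const h0

/-- the orientation cells of a normalised label -/
theorem dcp_ori_mem {Ω : Type} (ε d : ℝ) (G : Ω → LV) (hG : ThN G) (ω : Ω) :
    ori ε d G ω ∈ Finset.Icc (0 : ℤ) (4 * 2 ^ (tlev ε d)) := by
  obtain ⟨h1, h2⟩ := hG ω
  have hp : (0 : ℝ) < 2 ^ (tlev ε d) := by positivity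
  rw [Finset.mem_Icc]
  unfold ori tcell
  refine ⟨Int.floor_nonneg.2 (mul_nonneg h1 hp.le), ?_⟩
  have h3 : (G ω).1.th * 2 ^ (tlev ε d) ≤ ((4 * 2 ^ (tlev ε d) : ℤ) : ℝ) := by
    push_cast
    have := Real.pi_lt_four
    nlinarith
  exact Int.floor_le_iff.2 (lt_of_le_of_lt h3 (by linarith)) |>.trans_eq rfl

theorem dcp_ori_card (ε d : ℝ) :
    ((Finset.Icc (0 : ℤ) (4 * 2 ^ (tlev ε d))).card : ℝ) = 4 * 2 ^ (tlev ε d) + 1 := by
  rw [Int.card_Icc]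
  have h : (0 : ℤ) ≤ 4 * 2 ^ (tlev ε d) + 1 - 0 := by
    rw [sub_zero]
    positivity
  have : (((4 * 2 ^ (tlev ε d) + 1 - 0 : ℤ).toNat : ℕ) : ℝ) = ((4 * 2 ^ (tlev ε d) + 1 - 0 : ℤ) : ℝ) := by
    exact_mod_cast Int.toNat_of_nonneg h
  rw [this]
  push_cast
  ring

/-- the depth-zero orientation cell carries no entropy in the limit -/
theorem dcp_ori_zero (Q : CSeq) (G : Q.Obs (fun _ => LV)) (hG : ∀ᶠ n in uf, ThN (G n))
    {β : ℕ → Type} (Y : Q.Obs β) :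
    Tendsto (fun n => (Q.S n).P.entC (ori (Q.ε n) 0 (G n)) (Y n) / lg (Q.ε n)) uf (𝓝 0) := by
  refine squeeze_zero' (Eventually.of_forall fun n =>
    div_nonneg (ent_entC_nonneg _ _ _) (dcp_lg_pos (Q.pos n).1 (Q.pos n).2).le) ?_
    (dcp_const_div_lg Q (Real.log 5))
  filter_upwards [hG] with n hn
  refine div_le_div_of_nonneg_right ?_ (dcp_lg_pos (Q.pos n).1 (Q.pos n).2).le
  refine (ent_entC_le _ _ _).trans ((ent_le_log_card _ _ _ fun ω _ => dcp_ori_mem (Q.ε n) 0 (G n) hn ω).trans ?_)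
  rw [dcp_ori_card, ig_lev_zero]
  norm_num

/-! ### trigonometry -/

theorem dcp_abs_sin_add (x y : ℝ) : |Real.sin (x + y)| ≤ |Real.sin x| + |Real.sin y| := by
  rw [Real.sin_add]
  refine (abs_add_le _ _).trans ?_
  rw [abs_mul, abs_mul]
  have h1 := Real.abs_cos_le_one y
  have h2 := Real.abs_cos_le_one x
  nlinarith [abs_nonneg (Real.sin x), abs_nonneg (Real.sin y)]

theorem dcp_sin_chain (x : ℕ → ℝ) (N : ℕ) (c : ℝ) (h : ∀ j < N, |Real.sin (x j - x (j + 1))| ≤ c) :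
    |Real.sin (x 0 - x N)| ≤ N * c := by
  induction N with
  | zero => simp
  | succ N ih =>
    have h1 := ih (fun j hj => h j (Nat.lt_succ_of_lt hj))
    have h2 := h N (Nat.lt_succ_self N)
    have h3 := dcp_abs_sin_add (x 0 - x N) (x N - x (N + 1))
    rw [show x 0 - x N + (x N - x (N + 1)) = x 0 - x (N + 1) by ring] at h3
    push_cast
    linarith

/-- Jordan's inequality, two-sided -/
theorem dcp_jordan (z : ℝ) (hz : |z| ≤ Real.pi / 2) : |z| ≤ Real.pi / 2 * |Real.sin z| := by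
  have hpi := Real.pi_pos
  have key : ∀ w : ℝ, 0 ≤ w → w ≤ Real.pi / 2 → w ≤ Real.pi / 2 * Real.sin w := by
    intro w h0 h1
    have h2 := Real.mul_le_sin h0 h1
    have h3 : Real.pi / 2 * (2 / Real.pi * w) = w := by field_simp
    calc w = Real.pi / 2 * (2 / Real.pi * w) := h3.symm
      _ ≤ Real.pi / 2 * Real.sin w := mul_le_mul_of_nonneg_left h2 (by positivity)
  rcases le_total 0 z with h | h
  · rw [abs_of_nonneg h] at hz ⊢
    exact (key z h hz).trans (mul_le_mul_of_nonneg_left (le_abs_self _) (by positivity))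
  · rw [abs_of_nonpos h] at hz ⊢
    refine (key (-z) (by linarith) hz).trans (mul_le_mul_of_nonneg_left ?_ (by positivity))
    rw [Real.sin_neg]
    exact neg_le_abs _

/-- two normalised angles with small `|sin|` of the difference differ by nearly a multiple of `π` -/
theorem dcp_sin_near (x y η : ℝ) (hx : 0 ≤ x ∧ x < Real.pi) (hy : 0 ≤ y ∧ y < Real.pi)
    (h : |Real.sin (x - y)| ≤ η) :
    ∃ s ∈ Finset.Icc (-1 : ℤ) 1, |y - x - s * Real.pi| ≤ Real.pi / 2 * η := by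
  have hpi := Real.pi_pos
  have hs : |Real.sin (y - x)| ≤ η := by
    rw [show y - x = -(x - y) by ring, Real.sin_neg, abs_neg]
    exact h
  have fin : ∀ z : ℝ, |z| ≤ Real.pi / 2 → |Real.sin z| = |Real.sin (y - x)| → |z| ≤ Real.pi / 2 * η := by
    intro z hz he
    refine (dcp_jordan z hz).trans (mul_le_mul_of_nonneg_left ?_ (by positivity))
    rw [he]
    exact hs
  by_cases c1 : |y - x| ≤ Real.pi / 2
  · refine ⟨0, by simp, ?_⟩
    simpa using fin (y - x) c1 rfl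
  · rcases le_total 0 (y - x) with c2 | c2
    · rw [abs_of_nonneg c2] at c1
      refine ⟨1, by simp, ?_⟩
      have := fin (y - x - Real.pi) (abs_le.2 ⟨by linarith, by linarith [hx.1, hy.2]⟩)
        (by rw [Real.sin_sub_pi, abs_neg])
      simpa using this
    · rw [abs_of_nonpos c2] at c1
      refine ⟨-1, by simp, ?_⟩
      have := fin (y - x + Real.pi) (abs_le.2 ⟨by linarith [hx.2, hy.1], by linarith⟩)
        (by rw [Real.sin_add_pi, abs_neg])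
      simpa using this

/-- the same for the cells of depth `d` -/
theorem dcp_cell_near (ε d : ℝ) (h0 : 0 < ε) (h1 : ε < 1) (hd : 0 ≤ d) (N : ℕ) (x y : ℝ)
    (hx : 0 ≤ x ∧ x < Real.pi) (hy : 0 ≤ y ∧ y < Real.pi)
    (h : |Real.sin (x - y)| ≤ 2 * N * ε ^ d) :
    ∃ s ∈ Finset.Icc (-1 : ℤ) 1,
      |(tcell ε d y : ℝ) - ((tcell ε d x : ℝ) + s * Real.pi * 2 ^ (tlev ε d))| ≤ 7 * N + 1 := by
  obtain ⟨s, hs, hb⟩ := dcp_sin_near x y _ hx hy h
  refine ⟨s, hs, ?_⟩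
  have hW : (0 : ℝ) < 2 ^ (tlev ε d) := by positivity
  have hW2 := ig_pow_lev_le ε d h0 h1 hd
  have hεd : 0 < ε ^ d := Real.rpow_pos_of_pos h0 d
  have hmul : ε ^ d * ε ^ (-d) = 1 := by
    rw [← Real.rpow_add h0]
    simp
  have hN : (0 : ℝ) ≤ N := Nat.cast_nonneg N
  have h2 : ε ^ d * 2 ^ (tlev ε d) ≤ 2 := by
    calc ε ^ d * 2 ^ (tlev ε d) ≤ ε ^ d * (2 * ε ^ (-d)) := mul_le_mul_of_nonneg_left hW2 hεd.le
      _ = 2 := by rw [mul_left_comm, hmul, mul_one]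
  have h3 : |y - x - s * Real.pi| * 2 ^ (tlev ε d) ≤ 7 * N := by
    have hpi := Real.pi_lt_d2
    have hpi0 := Real.pi_pos
    calc |y - x - s * Real.pi| * 2 ^ (tlev ε d)
        ≤ (Real.pi / 2 * (2 * N * ε ^ d)) * 2 ^ (tlev ε d) := mul_le_mul_of_nonneg_right hb hW.le
      _ = Real.pi * N * (ε ^ d * 2 ^ (tlev ε d)) := by ring
      _ ≤ Real.pi * N * 2 := mul_le_mul_of_nonneg_left h2 (by positivity)
      _ ≤ 7 * N := by nlinarith
  have h4 : |y * 2 ^ (tlev ε d) - x * 2 ^ (tlev ε d) - s * Real.pi * 2 ^ (tlev ε d)| ≤ 7 * N := by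
    have : y * 2 ^ (tlev ε d) - x * 2 ^ (tlev ε d) - s * Real.pi * 2 ^ (tlev ε d)
        = (y - x - s * Real.pi) * 2 ^ (tlev ε d) := by ring
    rw [this, abs_mul, abs_of_pos hW]
    exact h3
  have y1 : ((tcell ε d y : ℤ) : ℝ) ≤ y * 2 ^ (tlev ε d) := Int.floor_le _
  have y2 : y * 2 ^ (tlev ε d) < ((tcell ε d y : ℤ) : ℝ) + 1 := Int.lt_floor_add_one _
  have x1 : ((tcell ε d x : ℤ) : ℝ) ≤ x * 2 ^ (tlev ε d) := Int.floor_le _
  have x2 : x * 2 ^ (tlev ε d) < ((tcell ε d x : ℤ) : ℝ) + 1 := Int.lt_floor_add_one _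
  have h5 := abs_le.1 h4
  rw [abs_le]
  constructor <;> linarith [h5.1, h5.2]

/-- (2.3) for the orientation cells of two labels whose frames agree at depth `d` up to the factor `2 N` -/
theorem dcp_transfer (S : CSys) (ε d : ℝ) (h0 : 0 < ε) (h1 : ε < 1) (hd : 0 ≤ d) (N : ℕ)
    (G0 GN : S.Ω → LV) (hG0 : ThN G0) (hGN : ThN GN) :
    S.P.entC (ori ε d GN) (ori ε d G0) ≤ Real.log 2 + Real.log (3 * (14 * N + 3))
      + S.P.pr (fun ω => 2 * N * ε ^ d < |Real.sin ((G0 ω).1.th - (GN ω).1.th)|)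
        * (Real.log 10 + d * lg ε) := by
  have hN : (0 : ℝ) ≤ N := Nat.cast_nonneg N
  have hM : Real.log (10 * ε ^ (-d)) = Real.log 10 + d * lg ε := by
    rw [Real.log_mul (by norm_num) (Real.rpow_pos_of_pos h0 _).ne', Real.log_rpow h0]
    unfold lg
    rw [one_div, Real.log_inv]
    ring
  rw [← hM]
  refine ent_ambiguity S.P (ori ε d G0) (ori ε d GN)
    (fun ω => 2 * N * ε ^ d < |Real.sin ((G0 ω).1.th - (GN ω).1.th)|) (by nlinarith) ?_ ?_ le_rfl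
  · intro ω₀
    refine ⟨(Finset.Icc (-1 : ℤ) 1).biUnion (fun s =>
      Finset.Icc ⌈((ori ε d G0 ω₀ : ℝ) + s * Real.pi * 2 ^ (tlev ε d)) - (7 * N + 1)⌉
        ⌊((ori ε d G0 ω₀ : ℝ) + s * Real.pi * 2 ^ (tlev ε d)) + (7 * N + 1)⌋), ?_, ?_⟩
    · have hc := Finset.card_biUnion_le (s := Finset.Icc (-1 : ℤ) 1) (t := fun s =>
        Finset.Icc ⌈((ori ε d G0 ω₀ : ℝ) + s * Real.pi * 2 ^ (tlev ε d)) - (7 * N + 1)⌉
          ⌊((ori ε d G0 ω₀ : ℝ) + s * Real.pi * 2 ^ (tlev ε d)) + (7 * N + 1)⌋)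
      have hc' : (((Finset.Icc (-1 : ℤ) 1).biUnion (fun s =>
          Finset.Icc ⌈((ori ε d G0 ω₀ : ℝ) + s * Real.pi * 2 ^ (tlev ε d)) - (7 * N + 1)⌉
            ⌊((ori ε d G0 ω₀ : ℝ) + s * Real.pi * 2 ^ (tlev ε d)) + (7 * N + 1)⌋)).card : ℝ)
          ≤ ∑ s ∈ Finset.Icc (-1 : ℤ) 1, ((Finset.Icc
            ⌈((ori ε d G0 ω₀ : ℝ) + s * Real.pi * 2 ^ (tlev ε d)) - (7 * N + 1)⌉
            ⌊((ori ε d G0 ω₀ : ℝ) + s * Real.pi * 2 ^ (tlev ε d)) + (7 * N + 1)⌋).card : ℝ) := by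
        exact_mod_cast hc
      refine hc'.trans ((Finset.sum_le_sum fun s _ =>
        ie_card_int_ball _ (7 * (N : ℝ) + 1) (by positivity)).trans ?_)
      rw [Finset.sum_const, Int.card_Icc, show (1 + 1 - (-1) : ℤ).toNat = 3 from rfl, nsmul_eq_mul]
      push_cast
      linarith
    · intro ω _ hex hA
      have hex' : |Real.sin ((G0 ω).1.th - (GN ω).1.th)| ≤ 2 * N * ε ^ d := not_lt.1 hex
      obtain ⟨s, hs, hb⟩ := dcp_cell_near ε d h0 h1 hd N _ _ (hG0 ω) (hGN ω) hex'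
      rw [Finset.mem_biUnion]
      refine ⟨s, hs, ?_⟩
      have hA' : tcell ε d (G0 ω).1.th = ori ε d G0 ω₀ := hA
      rw [hA'] at hb
      have hb' := abs_le.1 hb
      rw [Finset.mem_Icc]
      exact ⟨Int.ceil_le.2 (by show _ ≤ ((tcell ε d (GN ω).1.th : ℤ) : ℝ); linarith [hb'.1]),
        Int.le_floor.2 (by show ((tcell ε d (GN ω).1.th : ℤ) : ℝ) ≤ _; linarith [hb'.2])⟩
  · refine ⟨_, ?_, fun ω _ => dcp_ori_mem ε d GN hGN ω⟩
    rw [dcp_ori_card]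
    have hW2 := ig_pow_lev_le ε d h0 h1 hd
    have hW1 : (1 : ℝ) ≤ 2 ^ (tlev ε d) := one_le_pow₀ (by norm_num)
    linarith

/-- a coarser orientation cell is a function of a finer one -/
theorem dcp_ori_nest {Ω : Type} (ε d e : ℝ) (h0 : 0 < ε) (h1 : ε < 1) (hde : d ≤ e) (G : Ω → LV)
    (ω ω' : Ω) (h : ori ε e G ω = ori ε e G ω') : ori ε d G ω = ori ε d G ω' := by
  unfold ori at h ⊢
  rw [ig_cell_nest ε d e _ h0 h1 hde, ig_cell_nest ε d e _ h0 h1 hde, h]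

/-! ## the contracts -/

theorem dc_path_adm {γ m : ℝ} (P : SPath γ m) :
    ∀ u ∈ Dy, 0 ≤ P.b u ∧ P.b u ≤ P.a u ∧ P.a u + u ≤ 1 + m := by
  intro u hu
  have := uf_neBot
  obtain ⟨n, hn⟩ := (P.isLab u hu).exists
  obtain ⟨ω, hω⟩ := dcp_supp (P.Q.S n)
  have h := hn ω hω
  exact ⟨h.1, h.2.1, h.2.2.1⟩

/-- localisation of the label at `t` to the time `r`, orientation depth `d` predicted by `(T, C_r)` -/
theorem dc_path_loc {γ m : ℝ} (h0 : 0 < γ) (h1 : γ < 1) (P : SPath γ m) (r t d : ℝ) (ht : t ∈ Dy)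
    (hr : r = 0 ∨ r ∈ Dy) (hrt : r < t) (hd0 : 0 ≤ d) (hd : d ≤ P.a t - P.b t)
    (hζ : Tendsto (fun n => (P.Q.S n).P.entC (ori (P.Q.ε n) d (P.lab t n))
      (FLaw.pair (P.Q.S n).T ((P.Q.S n).Ct (P.Q.ε n) r)) / lg (P.Q.ε n)) uf (𝓝 0)) :
    (P.a t - P.b t - d) / (t - r) ∈ AspSet γ := by
  have := uf_neBot
  have htr : 0 < t - r := by linarith
  refine ⟨div_nonneg (by linarith) htr.le, fun δ hδ ε₀ hε₀ => ?_⟩
  obtain ⟨tmin, htm, hr', hrt'⟩ : ∃ tmin : ℝ, 0 < tmin ∧ (r = 0 ∨ tmin ≤ r) ∧ r + tmin ≤ t := by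
    rcases hr with hr | hr
    · exact ⟨t - r, htr, Or.inl hr, by linarith⟩
    · exact ⟨min r (t - r), lt_min (dcp_dy_pos hr) htr, Or.inr (min_le_left _ _),
        by linarith [min_le_right r (t - r)]⟩
  have hν : 0 < δ * (t - r) / 3 := by positivity
  obtain ⟨ε₁, hε₁, -, H⟩ := dc_ns_of_loc γ 1 1 (1 + m) tmin (δ * (t - r) / 3) h0 h1 htm hν
  have e1 := dcp_eps_lt P.Q hε₁
  have e2 := dcp_eps_rpow_lt P.Q htr hε₀
  have e3 := (P.sat t ht).eventually_lt_const hν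
  have e4 := hζ.eventually_lt_const (show (0 : ℝ) < δ * (t - r) / 6 by positivity)
  obtain ⟨n, n1, n2, n3, n4, n5, n6⟩ :=
    (e1.and (e2.and (e3.and (e4.and (P.bdd.and (P.isLab t ht)))))).exists
  have hp := P.Q.pos n
  refine ⟨(P.Q.ε n) ^ (t - r), Real.rpow_pos_of_pos hp.1 _, n2, Real.rpow_lt_one hp.1.le hp.2 htr, ?_⟩
  refine dcp_ns_mono (H (P.Q.S n) (P.Q.ε n) r t (1 + m) (P.b t) (P.a t) d (P.lab t n) hp.1 n1 n5 n6
    le_rfl hr' hrt' hd0 hd) ?_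
  rw [div_le_iff₀ htr, mul_div_assoc]
  linarith

/-- `e(u)/u` is the aspect of a saturated normalised sequence (`r = d = 0`) -/
theorem dc_path_asp {γ m : ℝ} (h0 : 0 < γ) (h1 : γ < 1) (P : SPath γ m) (u : ℝ) (hu : u ∈ Dy) :
    (P.a u - P.b u) / u ∈ AspSet γ := by
  have h := dc_path_loc h0 h1 P 0 u 0 hu (Or.inl rfl) (dcp_dy_pos hu) le_rfl
    (by linarith [(dc_path_adm P u hu).2.1]) (dcp_ori_zero P.Q (P.lab u) (P.thn u hu) _)
  simpa using h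

theorem dc_path_zoe {γ m : ℝ} (h0 : 0 < γ) (h1 : γ < 1) (P : SPath γ m) (u : ℝ) (hu : u ∈ Dy) :
    Tendsto (fun n => (P.Q.S n).P.entC (ori (P.Q.ε n) (P.a u - P.b u) (P.lab u n))
      (FLaw.pair (P.Q.S n).T ((P.Q.S n).Ct (P.Q.ε n) u)) / lg (P.Q.ε n)) uf (𝓝 0) := by
  rw [Metric.tendsto_nhds]
  intro ν hν
  obtain ⟨ε₀, θ, hε₀, -, hθ, H⟩ := dc_zoe γ 1 1 (1 + m) u (ν / 2) h0 h1 (dcp_dy_pos hu) (half_pos hν)
  filter_upwards [dcp_eps_lt P.Q hε₀, P.bdd, P.thn u hu, P.isLab u hu,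
    (P.sat u hu).eventually_lt_const hθ] with n n1 n2 n3 n4 n5
  have hp := P.Q.pos n
  have h2 := H (P.Q.S n) (P.Q.ε n) u (1 + m) (P.b u) (P.a u) (P.lab u n) hp.1 n1 n2 le_rfl le_rfl n3 n4 n5.le
  have h3 : 0 ≤ (P.Q.S n).P.entC (ori (P.Q.ε n) (P.a u - P.b u) (P.lab u n))
      (FLaw.pair (P.Q.S n).T ((P.Q.S n).Ct (P.Q.ε n) u)) / lg (P.Q.ε n) :=
    div_nonneg (ent_entC_nonneg _ _ _) (dcp_lg_pos hp.1 hp.2).le
  rw [Real.dist_eq, sub_zero, abs_of_nonneg h3]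
  linarith

/-- coherence of one link -/
theorem dcp_link {γ m : ℝ} (h0 : 0 < γ) (h1 : γ < 1) (P : SPath γ m) (r t d : ℝ) (hr : r ∈ Dy)
    (ht : t ∈ Dy) (hrt : r ≤ t) (hd0 : 0 ≤ d) (hd : d < (P.a r - P.b r) - Kc γ * Dw P.b P.a r t) :
    Tendsto (fun n => (P.Q.S n).P.pr (fun ω => 2 * (P.Q.ε n) ^ d <
      |Real.sin ((P.lab r n ω).1.th - (P.lab t n ω).1.th)|)) uf (𝓝 0) := by
  rw [Metric.tendsto_nhds]
  intro ν hν
  obtain ⟨ε₀, θ, hε₀, -, hθ, H⟩ := dc_coh γ 1 1 (1 + m) r (ν / 2)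
    ((P.a r - P.b r) - Kc γ * Dw P.b P.a r t - d) h0 h1 (dcp_dy_pos hr) (half_pos hν) (by linarith)
  filter_upwards [dcp_eps_lt P.Q hε₀, P.bdd, P.thn r hr, P.thn t ht, P.isLab r hr, P.isLab t ht,
    (P.sat r hr).eventually_lt_const hθ, (P.sat t ht).eventually_lt_const hθ]
    with n n1 n2 n3 n4 n5 n6 n7 n8
  have hp := P.Q.pos n
  have h2 := H (P.Q.S n) (P.Q.ε n) r t (1 + m) (P.b r) (P.a r) (P.b t) (P.a t) d (P.lab r n) (P.lab t n)
    hp.1 n1 n2 le_rfl hrt le_rfl n3 n4 n5 n6 n7.le n8.le hd0 (by unfold Dw; linarith)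
  rw [Real.dist_eq, sub_zero, abs_of_nonneg (ent_pr_nonneg _ _)]
  linarith

/-- coherence along a chain: the frames at the two ends agree at the depth `d` up to the factor `2 N` -/
theorem dc_path_coh {γ m : ℝ} (h0 : 0 < γ) (h1 : γ < 1) (P : SPath γ m) (u : ℕ → ℝ) (N : ℕ)
    (hu : DyChain u N) (d : ℝ) (hd0 : 0 < d) (hd : CohDepth (Kc γ) P.b P.a u N d) :
    Tendsto (fun n => (P.Q.S n).P.pr (fun ω => 2 * N * (P.Q.ε n) ^ d <
      |Real.sin ((P.lab (u 0) n ω).1.th - (P.lab (u N) n ω).1.th)|)) uf (𝓝 0) := by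
  rcases hd with hd | ⟨-, hd⟩
  · exact absurd hd hd0.ne'
  have hl : ∀ j ∈ Finset.range N, Tendsto (fun n => (P.Q.S n).P.pr (fun ω => 2 * (P.Q.ε n) ^ d <
      |Real.sin ((P.lab (u j) n ω).1.th - (P.lab (u (j + 1)) n ω).1.th)|)) uf (𝓝 0) := by
    intro j hj
    have hj' := Finset.mem_range.1 hj
    refine dcp_link h0 h1 P (u j) (u (j + 1)) d (hu.1 j hj'.le) (hu.1 (j + 1) hj') (hu.2 j hj').le
      hd0.le ?_
    have := hd j hj'
    have h3 := min_le_left (P.a (u j) - P.b (u j)) (P.a (u (j + 1)) - P.b (u (j + 1)))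
    linarith
  have hs := tendsto_finsetSum (Finset.range N) hl
  rw [Finset.sum_const_zero] at hs
  refine squeeze_zero (fun n => ent_pr_nonneg _ _) (fun n => ?_) hs
  refine le_trans (ent_pr_mono _ fun ω _ hω => ?_) (ent_pr_exists_le _ (Finset.range N) _)
  by_contra hcon
  push Not at hcon
  have := dcp_sin_chain (fun j => (P.lab (u j) n ω).1.th) N (2 * (P.Q.ε n) ^ d)
    (fun j hj => hcon j (Finset.mem_range.2 hj))
  have h4 : 2 * (N : ℝ) * (P.Q.ε n) ^ d = N * (2 * (P.Q.ε n) ^ d) := by ring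
  rw [h4] at hω
  exact absurd hω (not_lt.2 this)

/-- **Tangent inequality** (first half of the proof of P4.8): `dc_path_zoe` at `u 0`, `dc_path_coh`, (2.3), `dc_path_loc` -/
theorem dc_path_tan {γ m : ℝ} (h0 : 0 < γ) (h1 : γ < 1) (P : SPath γ m) (u : ℕ → ℝ) (N : ℕ) (hN : 0 < N)
    (hu : DyChain u N) (d : ℝ) (hd : CohDepth (Kc γ) P.b P.a u N d) :
    (P.a (u N) - P.b (u N) - d) / (u N - u 0) ∈ AspSet γ := by
  have hmono : ∀ j, j ≤ N → 0 < j → u 0 < u j := by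
    intro j
    induction j with
    | zero => intro _ h; exact absurd h (lt_irrefl 0)
    | succ j ih =>
      intro hj _
      have h2 := hu.2 j hj
      rcases Nat.eq_zero_or_pos j with rfl | hj0
      · exact h2
      · exact (ih (Nat.le_of_succ_le hj) hj0).trans h2
  have h0N := hmono N le_rfl hN
  have hu0 := hu.1 0 (Nat.zero_le N)
  have huN := hu.1 N le_rfl
  have hK : 0 ≤ Kc γ := by unfold Kc; positivity
  have hDw : ∀ r t, 0 ≤ Kc γ * Dw P.b P.a r t := fun r t => mul_nonneg hK (by unfold Dw; positivity)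
  rcases hd with rfl | ⟨hd0, hd⟩
  · exact dc_path_loc h0 h1 P (u 0) (u N) 0 huN (Or.inr hu0) h0N le_rfl
      (by linarith [(dc_path_adm P (u N) huN).2.1]) (dcp_ori_zero P.Q (P.lab (u N)) (P.thn (u N) huN) _)
  · -- depth bounds at the two ends
    have hdN : d ≤ P.a (u N) - P.b (u N) := by
      have h2 := hd (N - 1) (by omega)
      rw [show N - 1 + 1 = N by omega] at h2
      have h3 := min_le_right (P.a (u (N - 1)) - P.b (u (N - 1))) (P.a (u N) - P.b (u N))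
      linarith [hDw (u (N - 1)) (u N)]
    have hd00 : d ≤ P.a (u 0) - P.b (u 0) := by
      have h2 := hd 0 hN
      have h3 := min_le_left (P.a (u 0) - P.b (u 0)) (P.a (u (0 + 1)) - P.b (u (0 + 1)))
      linarith [hDw (u 0) (u (0 + 1))]
    refine dc_path_loc h0 h1 P (u 0) (u N) d huN (Or.inr hu0) h0N hd0.le hdN ?_
    have z := dc_path_zoe h0 h1 P (u 0) hu0
    have c := dc_path_coh h0 h1 P u N hu d hd0 (Or.inr ⟨hd0, hd⟩)
    have l1 := dcp_const_div_lg P.Q (Real.log 2 + Real.log (3 * (14 * N + 3)))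
    have l2 := dcp_const_div_lg P.Q (Real.log 10)
    have lim := (z.add l1).add (c.mul (l2.add_const d))
    simp only [add_zero, zero_mul] at lim
    refine squeeze_zero' (Eventually.of_forall fun n =>
      div_nonneg (ent_entC_nonneg _ _ _) (dcp_lg_pos (P.Q.pos n).1 (P.Q.pos n).2).le) ?_ lim
    filter_upwards [P.thn (u 0) hu0, P.thn (u N) huN] with n n1 n2
    have hp := P.Q.pos n
    have hlg := dcp_lg_pos hp.1 hp.2
    have t1 := dcp_transfer (P.Q.S n) (P.Q.ε n) d hp.1 hp.2 hd0.le N (P.lab (u 0) n) (P.lab (u N) n) n1 n2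
    -- entropy bookkeeping
    have s1 : (P.Q.S n).P.entC (ori (P.Q.ε n) d (P.lab (u N) n))
          (FLaw.pair (P.Q.S n).T ((P.Q.S n).Ct (P.Q.ε n) (u 0)))
        ≤ (P.Q.S n).P.entC (FLaw.pair (ori (P.Q.ε n) d (P.lab (u 0) n)) (ori (P.Q.ε n) d (P.lab (u N) n)))
          (FLaw.pair (P.Q.S n).T ((P.Q.S n).Ct (P.Q.ε n) (u 0))) :=
      ent_entC_mono _ _ _ _ fun ω ω' _ _ h _ => (Prod.ext_iff.1 h).2
    have s2 := ent_entC_chain (P.Q.S n).P (ori (P.Q.ε n) d (P.lab (u 0) n))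
      (ori (P.Q.ε n) d (P.lab (u N) n)) (FLaw.pair (P.Q.S n).T ((P.Q.S n).Ct (P.Q.ε n) (u 0)))
    have s3 := ent_entC_pair_le (P.Q.S n).P (ori (P.Q.ε n) d (P.lab (u N) n))
      (ori (P.Q.ε n) d (P.lab (u 0) n)) (FLaw.pair (P.Q.S n).T ((P.Q.S n).Ct (P.Q.ε n) (u 0)))
    have s4 : (P.Q.S n).P.entC (ori (P.Q.ε n) d (P.lab (u 0) n))
          (FLaw.pair (P.Q.S n).T ((P.Q.S n).Ct (P.Q.ε n) (u 0)))
        ≤ (P.Q.S n).P.entC (ori (P.Q.ε n) (P.a (u 0) - P.b (u 0)) (P.lab (u 0) n))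
          (FLaw.pair (P.Q.S n).T ((P.Q.S n).Ct (P.Q.ε n) (u 0))) :=
      ent_entC_mono _ _ _ _ fun ω ω' _ _ h _ => dcp_ori_nest _ _ _ hp.1 hp.2 hd00 _ ω ω' h
    rw [div_le_iff₀ hlg]
    have e : ((P.Q.S n).P.entC (ori (P.Q.ε n) (P.a (u 0) - P.b (u 0)) (P.lab (u 0) n))
          (FLaw.pair (P.Q.S n).T ((P.Q.S n).Ct (P.Q.ε n) (u 0))) / lg (P.Q.ε n)
        + (Real.log 2 + Real.log (3 * (14 * N + 3))) / lg (P.Q.ε n)
        + (P.Q.S n).P.pr (fun ω => 2 * N * (P.Q.ε n) ^ d <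
            |Real.sin ((P.lab (u 0) n ω).1.th - (P.lab (u N) n ω).1.th)|)
          * (Real.log 10 / lg (P.Q.ε n) + d)) * lg (P.Q.ε n)
        = (P.Q.S n).P.entC (ori (P.Q.ε n) (P.a (u 0) - P.b (u 0)) (P.lab (u 0) n))
          (FLaw.pair (P.Q.S n).T ((P.Q.S n).Ct (P.Q.ε n) (u 0)))
        + (Real.log 2 + Real.log (3 * (14 * N + 3)))
        + (P.Q.S n).P.pr (fun ω => 2 * N * (P.Q.ε n) ^ d <
            |Real.sin ((P.lab (u 0) n ω).1.th - (P.lab (u N) n ω).1.th)|)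
          * (Real.log 10 + d * lg (P.Q.ε n)) := by
      field_simp
    rw [e]
    linarith

end Claimed.Agent.R255
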