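import Claimed.Agent.R255.Cl.Dich.Ra
import Claimed.Agent.R255.Cl.Dich.Path

/-!
# Row 255 (BR paper), chapter DICHOTOMY (P4.6-P4.8), package DC-LIN      (architect helper40; prefix `dc_`)
Plan and vocabulary: `Cl/DichDefs.lean`.  The owner of the package edits ONLY this file (helper lemmas above the contracts, or in `Cl/Dich/Lin/*.lean`).  Do not change the statements without asking helper40.
-/

set_option autoImplicit false

namespace Claimed.Agent.R255

open Filter Topology
open Classical

/-- `e(u) = m u` on the path of a positive least aspect -/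
theorem dc_path_linear {γ m : ℝ} (h0 : 0 < γ) (h1 : γ < 1) (hm : 0 < m) (hl : IsLeast (AspSet γ) m)
    (P : SPath γ m) : ∀ u ∈ Dy, P.a u - P.b u = m * u := by
  have hpos : ∀ u ∈ Dy, 0 < u := by
    rintro u ⟨k, j, hj, -, rfl⟩
    positivity
  refine dc_ra_linear m (Kc γ) hm (by unfold Kc; positivity) P.b P.a P.nest
    (fun u hu => (dc_path_adm P u hu).1) (fun u hu => ?_) (by rw [P.a_one, P.b_one, sub_zero])
    (fun u N hN hu d hd => ?_)
  · have := hl.2 (dc_path_asp h0 h1 P u hu)
    rwa [le_div_iff₀ (hpos u hu)] at this
  · have h := hl.2 (dc_path_tan h0 h1 P u N hN hu d hd)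
    have hlt : u 0 < u N := by
      have : ∀ j, j ≤ N → 0 < j → u 0 < u j := by
        intro j
        induction j with
        | zero => intro _ h; exact absurd h (lt_irrefl 0)
        | succ j ih =>
          intro hj _
          rcases Nat.eq_zero_or_pos j with rfl | hj0
          · exact hu.2 0 (by omega)
          · exact lt_trans (ih (by omega) hj0) (hu.2 j (by omega))
      exact this N le_rfl hN
    rwa [le_div_iff₀ (sub_pos.mpr hlt)] at h

end Claimed.Agent.R255
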