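import Claimed.Agent.R255.Cl.Dich.Ns

/-!
# Row 255 (BR paper), chapter DICHOTOMY (P4.6-P4.8), package DC-NEAR      (architect helper40; prefix `dc_`)
Plan and vocabulary: `Cl/DichDefs.lean`.  The owner of the package edits ONLY this file (helper lemmas above the contracts, or in `Cl/Dich/Near/*.lean`).  Do not change the statements without asking helper40.
-/

set_option autoImplicit false

namespace Claimed.Agent.R255

open Filter Topology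
open Classical

/-- some point of the support does not exceed the mean -/
theorem dc_near_exists_le {Ω : Type} [Fintype Ω] (P : FLaw Ω) (f : Ω → ℝ) :
    ∃ ω, P.p ω ≠ 0 ∧ f ω ≤ P.ev f := by
  by_contra hcon
  push Not at hcon
  obtain ⟨ω0, h0⟩ := ent_exists_supp P
  have : P.ev f < P.ev f := by
    calc P.ev f = ∑ ω, P.p ω * P.ev f := by rw [← Finset.sum_mul, P.sum_one, one_mul]
      _ < ∑ ω, P.p ω * f ω := by
          refine Finset.sum_lt_sum (fun ω _ => ?_) ⟨ω0, Finset.mem_univ _, ?_⟩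
          · by_cases h : P.p ω = 0
            · simp [h]
            · exact mul_le_mul_of_nonneg_left (hcon ω h).le (P.nonneg ω)
          · exact mul_lt_mul_of_pos_left (hcon ω0 h0) (lt_of_le_of_ne (P.nonneg ω0) (Ne.symm h0))
      _ = P.ev f := rfl
  exact lt_irrefl _ this

/-- the depth-zero orientation cell of a normalised label has at most four values -/
theorem dc_near_ori (S : CSys) (ε : ℝ) (G : S.Ω → LV) (hG : ThN G) {β : Type} (Y : S.Ω → β) :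
    S.P.entC (ori ε 0 G) Y ≤ Real.log 4 := by
  refine (ent_entC_le _ _ _).trans ?_
  have h := ent_le_log_card S.P (ori ε 0 G) (Finset.Icc (0 : ℤ) 3) (fun ω _ => by
    have h1 := hG ω
    have e : ori ε 0 G ω = ⌊(G ω).1.th⌋ := by
      unfold ori tcell tlev
      simp
    rw [e, Finset.mem_Icc]
    refine ⟨Int.floor_nonneg.2 h1.1, ?_⟩
    have : ⌊(G ω).1.th⌋ < 4 := by
      rw [Int.floor_lt]
      have := Real.pi_lt_four
      push_cast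
      linarith [h1.2]
    omega)
  simpa using h

/-- the best shape bin of mesh `ξ` (`tl_split_deficit`) -/
theorem dc_near_cell (S : CSys) (B γ K ε t L Lmax ξ : ℝ) (hB : S.Bdd B) (h0 : 0 < γ) (h1 : γ < 1)
    (hε0 : 0 < ε) (hε1 : ε < 1) (ht0 : 0 < t) (htL : t ≤ L) (hL : L ≤ Lmax) (hξ : 0 < ξ)
    (Γ : Type) (G : S.Ω → Γ) (geo : Γ → Geo) (hLab : S.IsLabel K ε t L G geo) :
    ∃ (S' : CSys) (G' : S'.Ω → Γ) (b' a' : ℝ), S'.Bdd B ∧ S'.IsLabel K ε t L G' geo ∧ 0 ≤ b' ∧ b' ≤ a' ∧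
      a' + t ≤ L ∧
      (∀ ω, 0 < S'.P.p ω → (b' ≤ (geo (G' ω)).b ∧ a' ≤ (geo (G' ω)).a) ∧ (geo (G' ω)).b ≤ b' + ξ ∧
        (geo (G' ω)).a ≤ a' + ξ) ∧
      S'.deficit γ ε t L G' geo ≤ S.deficit γ ε t L G geo +
        3 * Real.log (((Finset.Icc 0 ⌊Lmax / ξ⌋) ×ˢ (Finset.Icc 0 ⌊Lmax / ξ⌋) : Finset (ℤ × ℤ)).card) / lg ε := by
  have hlg : 0 < lg ε := tl_lg_pos hε0 hε1
  let Z : S.Ω → ℤ × ℤ := fun ω => (⌊(geo (G ω)).b / ξ⌋, ⌊(geo (G ω)).a / ξ⌋)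
  have hZ : ∀ ω, S.P.p ω ≠ 0 → Z ω ∈ ((Finset.Icc 0 ⌊Lmax / ξ⌋) ×ˢ (Finset.Icc 0 ⌊Lmax / ξ⌋) : Finset (ℤ × ℤ)) := by
    intro ω hω
    have hc := hLab ω (lt_of_le_of_ne (S.P.nonneg ω) (Ne.symm hω))
    obtain ⟨c1, c2, c3, -⟩ := hc
    rw [Finset.mem_product, Finset.mem_Icc, Finset.mem_Icc]
    refine ⟨⟨Int.floor_nonneg.2 (div_nonneg c1 hξ.le), Int.floor_le_floor ?_⟩,
      ⟨Int.floor_nonneg.2 (div_nonneg (c1.trans c2) hξ.le), Int.floor_le_floor ?_⟩⟩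
    · exact div_le_div_of_nonneg_right (by linarith) hξ.le
    · exact div_le_div_of_nonneg_right (by linarith) hξ.le
  have hentZ := ent_le_log_card S.P Z _ hZ
  have hsplit := tl_split_deficit S B γ ε t L hB h0 h1 hε0 hε1 (ht0.le.trans htL) Γ G geo _ Z
  obtain ⟨ω₀, hω₀, hbest⟩ := dc_near_exists_le S.P
    (fun ω => (S.condOn (fun ω' => Z ω' = Z ω)).deficit γ ε t L G geo)
  have hpr : 0 < S.P.pr (fun ω' => Z ω' = Z ω₀) := (ent_pr_pos_iff _ _).2 ⟨ω₀, rfl, hω₀⟩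
  have hsupp : ∀ ω, 0 < (S.condOn (fun ω' => Z ω' = Z ω₀)).P.p ω → Z ω = Z ω₀ ∧ 0 < S.P.p ω := by
    intro ω hω
    have h2 : (S.P.cnd (fun ω' => Z ω' = Z ω₀)).p ω ≠ 0 := ne_of_gt hω
    have h3 := (ent_cnd_supp S.P _ hpr).1 h2
    exact ⟨h3.1, lt_of_le_of_ne (S.P.nonneg ω) (Ne.symm h3.2)⟩
  have hc₀ := hLab ω₀ (lt_of_le_of_ne (S.P.nonneg ω₀) (Ne.symm hω₀))
  obtain ⟨c1, c2, c3, -⟩ := hc₀
  have hfl : ∀ x : ℝ, ξ * (⌊x / ξ⌋ : ℝ) ≤ x ∧ x ≤ ξ * (⌊x / ξ⌋ : ℝ) + ξ := by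
    intro x
    have e1 := Int.floor_le (x / ξ)
    have e2 := (Int.lt_floor_add_one (x / ξ)).le
    rw [le_div_iff₀ hξ] at e1
    rw [div_le_iff₀ hξ] at e2
    constructor <;> nlinarith
  refine ⟨S.condOn (fun ω' => Z ω' = Z ω₀), G, ξ * ((Z ω₀).1 : ℝ), ξ * ((Z ω₀).2 : ℝ),
    tl_condOn_bdd S B hB _, fun ω hω => hLab ω (hsupp ω hω).2, ?_, ?_, ?_, ?_, ?_⟩
  · exact mul_nonneg hξ.le (by exact_mod_cast Int.floor_nonneg.2 (div_nonneg c1 hξ.le))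
  · refine mul_le_mul_of_nonneg_left ?_ hξ.le
    exact_mod_cast Int.floor_le_floor (div_le_div_of_nonneg_right c2 hξ.le)
  · have : ξ * ((Z ω₀).2 : ℝ) ≤ (geo (G ω₀)).a := (hfl _).1
    linarith
  · intro ω hω
    have e := (hsupp ω hω).1
    rw [← e]
    exact ⟨⟨(hfl _).1, (hfl _).1⟩, (hfl _).2, (hfl _).2⟩
  · have e : 3 * S.P.ent Z / lg ε ≤ 3 * Real.log
        (((Finset.Icc 0 ⌊Lmax / ξ⌋) ×ˢ (Finset.Icc 0 ⌊Lmax / ξ⌋) : Finset (ℤ × ℤ)).card) / lg ε :=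
      div_le_div_of_nonneg_right (by linarith) hlg.le
    linarith

/-- Steps 0-2 of P4.6.  `tl_not_univBound` at `β' = β - η'`, `η' = min (η/8) (β/2)`, gives `K B Lmax tmin ν₁` and, for every `ε₀`, a system with `deficit ≤ η' t`.
Tag the shape on the mesh `ξ = η' tmin` (`tl_split_deficit`, best cell), coarsen to the lower corner (`dc_coarsen`, loss `≤ 2ξ`), `dc_toLV`, then `dc_ns_of_loc` with `r = d = 0` (`ori ε 0 G` has at most ... values only if the angle is bounded: first normalise the angle by `dc_reshape` with the same shape).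
`Emax = Lmax / tmin`; the new precision is `ε^t ≤ ε^tmin`. -/
theorem dc_near (γ : ℝ) (h0 : 0 < γ) (h1 : γ < 1) (hβ : γ < beta γ) (η : ℝ) (hη : 0 < η) :
    ∃ Emax : ℝ, ∀ ε₀ : ℝ, 0 < ε₀ → ∃ ε e : ℝ, 0 < ε ∧ ε < ε₀ ∧ ε < 1 ∧ 0 ≤ e ∧ e ≤ Emax ∧ NS γ ε e η := by
  have hβ0 : 0 < beta γ := h0.trans hβ
  obtain ⟨η', hη'0, hη'1, hη'2⟩ : ∃ η' : ℝ, 0 < η' ∧ η' ≤ η / 8 ∧ η' ≤ beta γ / 2 :=
    ⟨min (η / 8) (beta γ / 2), lt_min (by linarith) (by linarith), min_le_left _ _, min_le_right _ _⟩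
  have hnot := tl_not_univBound γ (beta γ - η') h0 h1 (by linarith) (by linarith)
  unfold UnivBound at hnot
  push Not at hnot
  obtain ⟨K, B, Lmax, tmin, ν₁, htmin, hν₁, H⟩ := hnot
  obtain ⟨ξ, hξdef⟩ : ∃ ξ : ℝ, ξ = η' * tmin := ⟨_, rfl⟩
  have hξ : 0 < ξ := by rw [hξdef]; positivity
  obtain ⟨C, hC⟩ := dc_reshape K
  obtain ⟨εa, εa0, εa1, hloc⟩ := dc_ns_of_loc γ 1 B Lmax tmin ξ h0 h1 htmin hξ
  obtain ⟨N, hN⟩ : ∃ N : ℝ, N = Real.log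
    (((Finset.Icc 0 ⌊Lmax / ξ⌋) ×ˢ (Finset.Icc 0 ⌊Lmax / ξ⌋) : Finset (ℤ × ℤ)).card) := ⟨_, rfl⟩
  obtain ⟨εb, εb0, εb1, hsm⟩ := tl_l2_small (3 * N + C + 2 * Real.log 4) ξ hξ
  refine ⟨Lmax / tmin, fun ε₀ hε₀ => ?_⟩
  have hc0 : 0 < ε₀ ^ (1 / tmin) := Real.rpow_pos_of_pos hε₀ _
  obtain ⟨ε, hε0, hεlt, t, L, ht, htL, hL, S, Γ, G, geo, hB, hLab, hsc⟩ :=
    H (min (min εa εb) (ε₀ ^ (1 / tmin))) (lt_min (lt_min εa0 εb0) hc0)
      (lt_of_le_of_lt ((min_le_left _ _).trans (min_le_left _ _)) εa1)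
  have hεa : ε < εa := hεlt.trans_le ((min_le_left _ _).trans (min_le_left _ _))
  have hεb : ε < εb := hεlt.trans_le ((min_le_left _ _).trans (min_le_right _ _))
  have hεc : ε < ε₀ ^ (1 / tmin) := hεlt.trans_le (min_le_right _ _)
  have hε1 : ε < 1 := hεa.trans εa1
  have ht0 : 0 < t := htmin.trans_le ht
  have hlg : 0 < lg ε := tl_lg_pos hε0 hε1
  have hD0 : S.deficit γ ε t L G geo ≤ η' * t := by
    unfold CSys.deficit
    nlinarith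
  obtain ⟨S', G', b', a', hB', hLab', hb'0, hba', ha't, hshape, hD1⟩ :=
    dc_near_cell S B γ K ε t L Lmax ξ hB h0 h1 hε0 hε1 ht0 htL hL hξ Γ G geo hLab
  rw [← hN] at hD1
  obtain ⟨hLab2, hD2⟩ := dc_coarsen S' γ K ε t L b' a' hε0 hε1 hb'0 hba' Γ G' geo
    hLab' (fun ω hω => (hshape ω hω).1)
  have hev : S'.P.ev (fun ω => wt γ (geo (G' ω))) ≤ (1 + γ) * b' + (1 - γ) * a' + 2 * ξ := by
    rw [← ent_ev_const S'.P ((1 + γ) * b' + (1 - γ) * a' + 2 * ξ)]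
    refine ent_ev_mono _ fun ω hω => ?_
    have e := (hshape ω (lt_of_le_of_ne (FLaw.nonneg _ ω) (Ne.symm hω))).2
    unfold wt
    nlinarith [e.1, e.2]
  obtain ⟨G'', hThN, -, -, -, hLab3, hD3⟩ := hC S' γ ε t L b' a' b' a' Γ G'
    (fun g => { geo g with b := b', a := a' }) h0 h1 hε0 hε1 ht0.le hLab2 (fun g => ⟨rfl, rfl⟩) hb'0 hba' ha't
  have hns := hloc S' ε 0 t L b' a' 0 G'' hε0 hεa hB' hLab3 hL (Or.inl rfl)
    (by linarith) le_rfl (by linarith)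
  simp only [sub_zero] at hns
  have hori := dc_near_ori S' ε G'' hThN (FLaw.pair S'.T (S'.Ct ε 0))
  refine ⟨ε ^ t, (a' - b') / t, Real.rpow_pos_of_pos hε0 _, ?_, Real.rpow_lt_one hε0.le hε1 ht0,
    div_nonneg (by linarith) ht0.le, ?_, ?_⟩
  · calc ε ^ t ≤ ε ^ tmin := Real.rpow_le_rpow_of_exponent_ge hε0 hε1.le ht
      _ < (ε₀ ^ (1 / tmin)) ^ tmin := Real.rpow_lt_rpow hε0.le hεc htmin
      _ = ε₀ := by rw [← Real.rpow_mul hε₀.le, one_div_mul_cancel htmin.ne', Real.rpow_one]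
  · have e1 : a' - b' ≤ Lmax := by linarith
    have e2 : 0 ≤ a' - b' := by linarith
    calc (a' - b') / t ≤ (a' - b') / tmin := div_le_div_of_nonneg_left e2 htmin ht
      _ ≤ Lmax / tmin := div_le_div_of_nonneg_right e1 htmin.le
  · obtain ⟨S2, G2, q1, q2, q3, q4⟩ := hns
    refine ⟨S2, G2, q1, q2, q3, q4.trans ?_⟩
    rw [div_le_iff₀ ht0]
    have hs := hsm ε hε0 hεb
    have e0 : (3 * N + C + 2 * Real.log 4) / lg ε = 3 * N / lg ε + C / lg ε + 2 * Real.log 4 / lg ε := by ring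
    have e1 : 2 * S'.P.entC (ori ε 0 G'') (FLaw.pair S'.T (S'.Ct ε 0)) / lg ε ≤ 2 * Real.log 4 / lg ε :=
      div_le_div_of_nonneg_right (by linarith) hlg.le
    have e2 : ξ ≤ η' * t := by rw [hξdef]; exact mul_le_mul_of_nonneg_left ht hη'0.le
    have e3 : η' * t ≤ η / 8 * t := mul_le_mul_of_nonneg_right hη'1 ht0.le
    simp only [sub_self, abs_zero, add_zero, mul_zero] at hD3
    have e4 : 0 ≤ η * t := by positivity
    linarith

end Claimed.Agent.R255
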