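import Claimed.Agent.R255.Cl.DichDefs

/-!
# Row 255 (BR paper), chapter DICHOTOMY (P4.6-P4.8), package DC-OPS      (architect helper40; prefix `dc_`)
Plan and vocabulary: `Cl/DichDefs.lean`.  The owner of the package edits ONLY this file (helper lemmas above the contracts, or in `Cl/Dich/Ops/*.lean`).  Do not change the statements without asking helper40.
-/

set_option autoImplicit false

namespace Claimed.Agent.R255

open Filter Topology
open Classical

/-- every label is (up to renaming of its values) `LV`-valued -/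
theorem dc_toLV (S : CSys) (Γ : Type) (G : S.Ω → Γ) (geo : Γ → Geo) :
    ∃ G' : S.Ω → LV, (∀ ω, (G' ω).1 = geo (G ω)) ∧ ∀ ω ω', G' ω = G' ω' ↔ G ω = G ω' := by
  let e := Fintype.equivFin S.Ω
  let A : Γ → Set ℕ := fun g => {n | ∃ ω', G ω' = g ∧ ((e ω' : Fin _) : ℕ) = n}
  have hne : ∀ ω, (A (G ω)).Nonempty := fun ω => ⟨_, ω, rfl, rfl⟩
  refine ⟨fun ω => (geo (G ω), sInf (A (G ω))), fun ω => rfl, fun ω ω' => ⟨fun h => ?_, fun h => ?_⟩⟩
  · have h2 : sInf (A (G ω)) = sInf (A (G ω')) := congrArg Prod.snd h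
    obtain ⟨ω₁, g1, n1⟩ := Nat.sInf_mem (hne ω)
    obtain ⟨ω₂, g2, n2⟩ := Nat.sInf_mem (hne ω')
    have h3 : e ω₁ = e ω₂ := Fin.ext (by rw [n1, n2, h2])
    have h4 : ω₁ = ω₂ := e.injective h3
    rw [← g1, ← g2, h4]
  · show (geo (G ω), sInf (A (G ω))) = (geo (G ω'), sInf (A (G ω')))
    rw [h]

/-- a label at duration `t`, horizon `L` is a label at every duration `r ≤ t` and horizon `L' ≥ L`, same read-out -/
theorem dc_label_mono (S : CSys) (K ε r t L L' : ℝ) (h0 : 0 < ε) (h1 : ε < 1) (hr : r ≤ t) (hL : L ≤ L')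
    (Γ : Type) (G : S.Ω → Γ) (geo : Γ → Geo) (H : S.IsLabel K ε t L G geo) : S.IsLabel K ε r L' G geo :=
  tl_label_mono S K K ε r t L L' h0 h1 hr hL le_rfl Γ G geo H

/-- change of the duration in the deficit (definitional) -/
theorem dc_deficit_dur (S : CSys) (γ ε r t L : ℝ) (Γ : Type) (G : S.Ω → Γ) (geo : Γ → Geo) :
    S.deficit γ ε r L G geo = S.deficit γ ε t L G geo - beta γ * (t - r) + 2 * (S.St ε t - S.St ε r) := by
  unfold CSys.deficit CSys.score
  ring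

/-- coarsening a label of variable shape to a fixed smaller shape: same observation, new read-out -/
theorem dc_coarsen (S : CSys) (γ K ε t L b' a' : ℝ) (h0 : 0 < ε) (h1 : ε < 1) (hb : 0 ≤ b') (hba : b' ≤ a')
    (Γ : Type) (G : S.Ω → Γ) (geo : Γ → Geo) (H : S.IsLabel K ε t L G geo)
    (hs : ∀ ω, 0 < S.P.p ω → b' ≤ (geo (G ω)).b ∧ a' ≤ (geo (G ω)).a) :
    S.IsLabel K ε t L G (fun g => { geo g with b := b', a := a' }) ∧
      S.deficit γ ε t L G (fun g => { geo g with b := b', a := a' }) =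
        S.deficit γ ε t L G geo + S.P.ev (fun ω => wt γ (geo (G ω))) - ((1 + γ) * b' + (1 - γ) * a') := by
  constructor
  · exact tl_label_coarsen S K ε t L h0 h1 Γ G geo _ H fun ω hω =>
      ⟨hb, hba, (hs ω hω).1, (hs ω hω).2, rfl, rfl, rfl, rfl⟩
  · have e : S.P.ev (fun ω => wt γ ({ geo (G ω) with b := b', a := a' } : Geo)) =
        (1 + γ) * b' + (1 - γ) * a' := ent_ev_const S.P ((1 + γ) * b' + (1 - γ) * a')
    unfold CSys.deficit CSys.score
    rw [e]
    ring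

/-- rectangles do not see a change of the angle by a multiple of `π` -/
theorem dc_inRect_shift (K ε b a th : ℝ) (k : ℤ) (z : ℝ × ℝ) :
    InRect K ε b a (th - k * Real.pi) z ↔ InRect K ε b a th z := by
  have hs : |((-1 : ℝ)) ^ k| = 1 := by rw [abs_zpow, abs_neg, abs_one, one_zpow]
  have e1 : ip z (tang (th - k * Real.pi)) = (-1) ^ k * ip z (tang th) := by
    simp only [ip, tang, Real.cos_sub_int_mul_pi, Real.sin_sub_int_mul_pi]; ring
  have e2 : ip z (nrm (th - k * Real.pi)) = (-1) ^ k * ip z (nrm th) := by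
    simp only [ip, nrm, Real.cos_sub_int_mul_pi, Real.sin_sub_int_mul_pi]; ring
  unfold InRect
  rw [e1, e2, abs_mul, abs_mul, hs, one_mul, one_mul]

/-- the angle reduced to `[0, π)` -/
noncomputable def dc_thN (th : ℝ) : ℝ := th - (⌊th / Real.pi⌋ : ℝ) * Real.pi

theorem dc_thN_mem (th : ℝ) : 0 ≤ dc_thN th ∧ dc_thN th < Real.pi := by
  have hp := Real.pi_pos
  have h1 := Int.floor_le (th / Real.pi)
  have h2 := Int.lt_floor_add_one (th / Real.pi)
  rw [le_div_iff₀ hp] at h1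
  rw [div_lt_iff₀ hp] at h2
  unfold dc_thN
  constructor <;> linarith

theorem dc_thN_sin (th : ℝ) : Real.sin (dc_thN th - th) = 0 := by
  have e : dc_thN th - th = -((⌊th / Real.pi⌋ : ℝ) * Real.pi) := by unfold dc_thN; ring
  rw [e, Real.sin_neg, Real.sin_int_mul_pi, neg_zero]

theorem dc_geo_eta (b' a' : ℝ) : ∀ g : Geo, g.b = b' → g.a = a' → ({ g with b := b', a := a' } : Geo) = g := by
  rintro ⟨b, a, tc, th, vc, xc⟩ rfl rfl
  rfl

/-- weight change against the entropy cost of a refinement, one coordinate -/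
theorem dc_wt_aux (c x x' : ℝ) (h0 : 0 ≤ c) (h2 : c ≤ 2) : c * (x - x') + 2 * max (x' - x) 0 ≤ 2 * |x' - x| := by
  rcases le_total x x' with h | h
  · rw [max_eq_left (by linarith), abs_of_nonneg (by linarith)]
    nlinarith
  · rw [max_eq_right (by linarith), abs_of_nonpos (by linarith)]
    nlinarith

/-- RESHAPE: from a fixed shape `(b, a)`, enlargement `K`, to any admissible shape `(b', a')`, enlargement `1`, normalised angle, same frame.
`G' = (G, actual cells)`: time index `⌊(c - tc)/ε^t⌋`, then the velocity indices in the frame `th` at widths `ε^b', ε^a'`, then the position indices at the new time representative.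
`H(G' | G) ≤ 2 ((b'-b)⁺ + (a'-a)⁺) ℓ + C(K)`; weight change `(1+γ)(b'-b) + (1-γ)(a'-a)`. -/
theorem dc_reshape (K : ℝ) : ∃ C : ℝ, ∀ (S : CSys) (γ ε t L b a b' a' : ℝ) (Γ : Type) (G : S.Ω → Γ)
    (geo : Γ → Geo), 0 < γ → γ < 1 → 0 < ε → ε < 1 → 0 ≤ t → S.IsLabel K ε t L G geo →
    (∀ g, (geo g).b = b ∧ (geo g).a = a) → 0 ≤ b' → b' ≤ a' → a' + t ≤ L →
    ∃ G' : S.Ω → LV, ThN G' ∧ (∀ ω, Real.sin ((G' ω).1.th - (geo (G ω)).th) = 0) ∧
      (∀ ω ω', G' ω = G' ω' → G ω = G ω') ∧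
      (∀ ω ω', G ω = G ω' → S.T ω = S.T ω' → S.c ω = S.c ω' → G' ω = G' ω') ∧
      S.IsLabel 1 ε t L G' (rd b' a') ∧
      S.deficit γ ε t L G' (rd b' a') ≤
        S.deficit γ ε t L G geo + 2 * (|b' - b| + |a' - a|) + C / lg ε := by
  obtain ⟨C, hC⟩ := tl_reshape_fn K
  refine ⟨C, ?_⟩
  intro S γ ε t L b a b' a' Γ G geo hγ0 hγ1 h0 h1 ht H hsh hb' hba' hL
  obtain ⟨I, geo', hg', hfn, hlab, hent⟩ := hC S ε t t L L b a b' a' Γ G geo h0 h1 ht le_rfl H hsh hb' hba' hL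
  have hl := tl_lg_pos h0 h1
  -- normalise the angle
  let geo'' : Γ × (ℤ × ℤ × ℤ × ℤ × ℤ) → Geo := fun x => { geo' x with th := dc_thN (geo' x).th }
  obtain ⟨G', hG1, hG2⟩ := dc_toLV S _ (FLaw.pair G I) geo''
  have hrd : ∀ ω, rd b' a' (G' ω) = geo'' (FLaw.pair G I ω) := by
    intro ω
    show ({ (G' ω).1 with b := b', a := a' } : Geo) = _
    rw [hG1 ω]
    exact dc_geo_eta b' a' _ (hg' _).1 (hg' _).2.1
  refine ⟨G', ?_, ?_, ?_, ?_, ?_, ?_⟩
  · intro ω
    rw [hG1 ω]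
    exact dc_thN_mem _
  · intro ω
    rw [hG1 ω]
    show Real.sin (dc_thN (geo' (FLaw.pair G I ω)).th - (geo (G ω)).th) = 0
    rw [(hg' (FLaw.pair G I ω)).2.2]
    exact dc_thN_sin _
  · intro ω ω' h
    exact congrArg Prod.fst ((hG2 ω ω').1 h)
  · intro ω ω' e1 e2 e3
    refine (hG2 ω ω').2 ?_
    show (G ω, I ω) = (G ω', I ω')
    rw [e1, hfn ω ω' e1 e2 e3]
  · intro ω hω
    rw [hrd ω]
    obtain ⟨c1, c2, c3, c4, c5, c6⟩ := hlab ω hω
    exact ⟨c1, c2, c3, c4, (dc_inRect_shift _ _ _ _ _ _ _).2 c5, (dc_inRect_shift _ _ _ _ _ _ _).2 c6⟩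
  · have ew' : S.P.ev (fun ω => wt γ (rd b' a' (G' ω))) = (1 + γ) * b' + (1 - γ) * a' :=
      ent_ev_const S.P ((1 + γ) * b' + (1 - γ) * a')
    have ew : S.P.ev (fun ω => wt γ (geo (G ω))) = (1 + γ) * b + (1 - γ) * a := by
      rw [← ent_ev_const S.P ((1 + γ) * b + (1 - γ) * a)]
      refine congrArg _ (funext fun ω => ?_)
      unfold wt
      rw [(hsh (G ω)).1, (hsh (G ω)).2]
    have em : S.P.mi S.T G' = S.P.mi S.T (FLaw.pair G I) :=
      ent_mi_congr S.P S.T S.T G' (FLaw.pair G I) (fun _ _ _ _ => Iff.rfl) (fun ω ω' _ _ => hG2 ω ω')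
    have e2 : S.P.mi S.T (FLaw.pair G I) ≤ S.P.mi S.T G + S.P.entC I G := by
      have e0 : S.P.mi S.T (FLaw.pair G I) ≤ S.P.mi S.T (FLaw.pair I G) := by
        refine ent_mi_mono S.P S.T _ _ fun ω ω' _ _ h => ?_
        simp only [FLaw.pair, Prod.mk.injEq] at h ⊢
        exact ⟨h.2, h.1⟩
      rw [ent_mi_chain S.P S.T I G] at e0
      linarith [ent_miC_le_right S.P S.T I G]
    have e3 : S.P.mi S.T G' / lg ε ≤
        S.P.mi S.T G / lg ε + (2 * (max (b' - b) 0 + max (a' - a) 0) + C / lg ε) := by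
      have : S.P.mi S.T G / lg ε + (2 * (max (b' - b) 0 + max (a' - a) 0) + C / lg ε) =
          (S.P.mi S.T G + (2 * (max (b' - b) 0 + max (a' - a) 0) * lg ε + C)) / lg ε := by
        field_simp
      rw [this, em]
      exact div_le_div_of_nonneg_right (by linarith) hl.le
    have w1 := dc_wt_aux (1 + γ) b b' (by linarith) (by linarith)
    have w2 := dc_wt_aux (1 - γ) a a' (by linarith) (by linarith)
    unfold CSys.deficit CSys.score
    rw [ew, ew']
    linarith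

/-- the universal bound as a lower bound for deficits; also at duration `0` (root supremum, `tl_score_le`, `tl_St_le`) -/
theorem dc_deficit_ge (γ K B Lmax tmin ν : ℝ) (hγ0 : 0 < γ) (hγ1 : γ < 1) (ht : 0 < tmin) (hν : 0 < ν) :
    ∃ ε₀ : ℝ, 0 < ε₀ ∧ ε₀ < 1 ∧ ∀ (S : CSys) (ε t L : ℝ) (Γ : Type) (G : S.Ω → Γ) (geo : Γ → Geo),
      0 < ε → ε < ε₀ → S.Bdd B → (t = 0 ∨ tmin ≤ t) → t ≤ L → L ≤ Lmax → S.IsLabel K ε t L G geo →
      - ν ≤ S.deficit γ ε t L G geo := by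
  obtain ⟨ε₁, a1, a2, hU⟩ := tl_univBound_beta γ hγ0 hγ1 K B Lmax tmin ν ht hν
  obtain ⟨C₁, hC₁⟩ := tl_score_le K B
  obtain ⟨C₂, hC₂⟩ := tl_St_le B
  obtain ⟨ε₂, b1, b2, hsm⟩ := tl_l2_small (2 * C₂ + C₁) ν hν
  refine ⟨min ε₁ ε₂, lt_min a1 b1, (min_le_left _ _).trans_lt a2, ?_⟩
  intro S ε t L Γ G geo h0 hε hB htt htL hL H
  have h1 : ε < 1 := hε.trans ((min_le_left _ _).trans_lt a2)
  rcases htt with rfl | htt
  · have s1 := hC₁ S γ ε 0 L Γ G geo hB hγ0 hγ1 h0 h1 le_rfl H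
    have s2 := hC₂ S ε 0 hB h0 h1 le_rfl
    have s3 := hsm ε h0 (hε.trans_le (min_le_right _ _))
    have s4 : (2 * C₂ + C₁) / lg ε = 2 * (C₂ / lg ε) + C₁ / lg ε := by ring
    unfold CSys.deficit
    linarith
  · have := hU ε h0 (hε.trans_le (min_le_left _ _)) t L htt htL hL S Γ G geo hB H
    unfold CSys.deficit
    linarith

/-- conditioning keeps boxes and labels -/
theorem dc_cond_keep (S : CSys) (E : S.Ω → Prop) :
    (∀ B, S.Bdd B → (S.condOn E).Bdd B) ∧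
      ∀ (K ε t L : ℝ) (Γ : Type) (G : S.Ω → Γ) (geo : Γ → Geo), S.IsLabel K ε t L G geo →
        (S.condOn E).IsLabel K ε t L G geo := by
  refine ⟨fun B hB => tl_condOn_bdd S B hB E, ?_⟩
  intro K ε t L Γ G geo H ω hω
  refine H ω ?_
  by_cases h : 0 < S.P.pr E
  · have h2 : (S.P.cnd E).p ω ≠ 0 := ne_of_gt hω
    exact lt_of_le_of_ne (S.P.nonneg ω) (Ne.symm ((ent_cnd_supp S.P E h).1 h2).2)
  · have : S.P.cnd E = S.P := by unfold FLaw.cnd; rw [dif_neg h]
    have h3 : 0 < (S.P.cnd E).p ω := hω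
    rwa [this] at h3

/-- deficits on an event: `P(E) Δ_E ≤ Δ + 3 log 2 / ℓ + ν` (binary splitting L4.3 + universal lower bound on the complement) -/
theorem dc_deficit_cond (γ K B Lmax tmin ν : ℝ) (hγ0 : 0 < γ) (hγ1 : γ < 1) (ht : 0 < tmin) (hν : 0 < ν) :
    ∃ ε₀ : ℝ, 0 < ε₀ ∧ ε₀ < 1 ∧ ∀ (S : CSys) (ε t L : ℝ) (Γ : Type) (G : S.Ω → Γ) (geo : Γ → Geo)
      (E : S.Ω → Prop), 0 < ε → ε < ε₀ → S.Bdd B → (t = 0 ∨ tmin ≤ t) → t ≤ L → L ≤ Lmax →
      S.IsLabel K ε t L G geo → 0 < S.P.pr E →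
      S.P.pr E * (S.condOn E).deficit γ ε t L G geo ≤ S.deficit γ ε t L G geo + ν := by
  obtain ⟨ε₁, a1, a2, hge⟩ := dc_deficit_ge γ K B Lmax tmin (ν / 2) hγ0 hγ1 ht (by linarith)
  obtain ⟨ε₂, b1, b2, hsm⟩ := tl_l2_small (3 * Real.log 2) (ν / 2) (by linarith)
  refine ⟨min ε₁ ε₂, lt_min a1 b1, (min_le_left _ _).trans_lt a2, ?_⟩
  intro S ε t L Γ G geo E h0 hε hB htt htL hL H hE
  have h1 : ε < 1 := hε.trans ((min_le_left _ _).trans_lt a2)
  have hl := tl_lg_pos h0 h1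
  have ht0 : 0 ≤ t := by rcases htt with rfl | h; exacts [le_rfl, ht.le.trans h]
  have hsplit := tl_split_deficit S B γ ε t L hB hγ0 hγ1 h0 h1 (ht0.trans htL) Γ G geo Prop E
  have hent : 3 * S.P.ent E / lg ε ≤ ν / 2 := by
    refine le_trans ?_ (hsm ε h0 (hε.trans_le (min_le_right _ _)))
    exact div_le_div_of_nonneg_right (by linarith [ent_prop_le S.P E]) hl.le
  -- the two cells
  have c1 : ∀ ω, E ω → (S.condOn (fun ω' => E ω' = E ω)).deficit γ ε t L G geo =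
      (S.condOn E).deficit γ ε t L G geo := by
    intro ω hω
    have : (fun ω' => E ω' = E ω) = E := funext fun ω' => by
      simp only [eq_iff_iff, hω, iff_true]
    exact congrArg (fun F : S.Ω → Prop => (S.condOn F).deficit γ ε t L G geo) this
  have c2 : ∀ ω, ¬ E ω → (S.condOn (fun ω' => E ω' = E ω)).deficit γ ε t L G geo =
      (S.condOn (fun ω' => ¬ E ω')).deficit γ ε t L G geo := by
    intro ω hω
    have : (fun ω' => E ω' = E ω) = (fun ω' => ¬ E ω') := funext fun ω' => by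
      simp only [eq_iff_iff, hω, iff_false]
    exact congrArg (fun F : S.Ω → Prop => (S.condOn F).deficit γ ε t L G geo) this
  have hev : S.P.ev (fun ω => (S.condOn (fun ω' => E ω' = E ω)).deficit γ ε t L G geo) =
      S.P.pr E * (S.condOn E).deficit γ ε t L G geo
        + S.P.pr (fun ω => ¬ E ω) * (S.condOn (fun ω' => ¬ E ω')).deficit γ ε t L G geo := by
    unfold FLaw.ev FLaw.pr
    rw [Finset.sum_mul, Finset.sum_mul, ← Finset.sum_add_distrib]
    refine Finset.sum_congr rfl fun ω _ => ?_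
    beta_reduce
    by_cases hω : E ω
    · rw [c1 ω hω, if_pos hω, if_neg (not_not.2 hω)]; ring
    · rw [c2 ω hω, if_neg hω, if_pos hω]; ring
  have hk := dc_cond_keep S (fun ω' => ¬ E ω')
  have hlow := hge (S.condOn (fun ω' => ¬ E ω')) ε t L Γ G geo h0 (hε.trans_le (min_le_left _ _))
    (hk.1 B hB) htt htL hL (hk.2 K ε t L Γ G geo H)
  have hp0 := ent_pr_nonneg S.P (fun ω => ¬ E ω)
  have hp1 := ent_pr_le_one S.P (fun ω => ¬ E ω)
  have : - (ν / 2) ≤ S.P.pr (fun ω => ¬ E ω) * (S.condOn (fun ω' => ¬ E ω')).deficit γ ε t L G geo := by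
    by_cases hd : 0 ≤ (S.condOn (fun ω' => ¬ E ω')).deficit γ ε t L G geo
    · have := mul_nonneg hp0 hd
      linarith
    · nlinarith
  linarith

/-- old labels on an extension by a kernel -/
theorem dc_adjoin_keep (S : CSys) (Γ' : Type) [Fintype Γ'] (κ : FLaw.Ker S.Ω Γ') :
    (∀ B, S.Bdd B → (S.adjoin κ).Bdd B) ∧
      ∀ (Γ : Type) (G : S.Ω → Γ) (geo : Γ → Geo),
        (∀ K ε t L : ℝ, S.IsLabel K ε t L G geo → (S.adjoin κ).IsLabel K ε t L (fun x => G x.1) geo) ∧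
        ∀ γ ε t L : ℝ, (S.adjoin κ).deficit γ ε t L (fun x => G x.1) geo = S.deficit γ ε t L G geo := by
  refine ⟨fun B hB x hx => hB x.1 (tl_l2_adj_pos S κ x hx), fun Γ G geo => ⟨?_, ?_⟩⟩
  · intro K ε t L H x hx
    exact H x.1 (tl_l2_adj_pos S κ x hx)
  · intro γ ε t L
    have hm := ent_ext_map_fst S.P κ
    have e1 : (S.P.ext κ).ev (fun x => wt γ (geo (G x.1))) = S.P.ev (fun ω => wt γ (geo (G ω))) := by
      conv_rhs => rw [← hm]
      rw [ent_map_ev]
    have e2 : (S.P.ext κ).mi (fun x => S.T x.1) (fun x => G x.1) = S.P.mi S.T G := by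
      conv_rhs => rw [← hm]
      rw [ent_map_mi]
    have e3 : (S.P.ext κ).entC (fun x => tcell ε t (S.c x.1)) (fun x => S.T x.1) =
        S.P.entC (S.Ct ε t) S.T := by
      conv_rhs => rw [← hm]
      rw [ent_map_entC]
      rfl
    unfold CSys.deficit
    rw [tl_tau_adjoin]
    congr 1
    show (S.P.ext κ).ev (fun x => wt γ (geo (G x.1))) - (S.P.ext κ).mi (fun x => S.T x.1) (fun x => G x.1) / lg ε
      + 2 * ((S.P.ext κ).entC (fun x => tcell ε t (S.c x.1)) (fun x => S.T x.1) / lg ε) = _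
    rw [e1, e2, e3]
    rfl

end Claimed.Agent.R255
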