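import Claimed.Agent.R255.Cl.Dich.Ach

/-!
# Row 255 (BR paper), chapter DICHOTOMY (P4.6-P4.8), package DC-PRED      (architect helper40; prefix `dc_`)
Plan and vocabulary: `Cl/DichDefs.lean`.  The owner of the package edits ONLY this file (helper lemmas above the contracts, or in `Cl/Dich/Pred/*.lean`).  Do not change the statements without asking helper40.

PROVED (helper26).  `dc_pred_new` (= `tl_loc_pred` with `d = 0`), `dc_pred_select` (a cell where ALL conditional deficits are small), `dc_pred_stage1` (one system), then compactness + `dc_ach_closed'`.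
-/

set_option autoImplicit false

namespace Claimed.Agent.R255

open Filter Topology
open Classical

/-- the new label of variable shape at duration `r` (`tl_loc_pred` with `p = ⟨b t, 0, r⟩`, `th = 0`) -/
theorem dc_pred_new (γ L tmin ν : ℝ) (hγ0 : 0 < γ) (hγ1 : γ < 1) (ht : 0 < tmin) (hν : 0 < ν) :
    ∃ (ε₀ K'' : ℝ), 0 < ε₀ ∧ ε₀ < 1 ∧ ∀ (S : CSys) (ε t r bt at' : ℝ) (G : S.Ω → LV), 0 < ε → ε < ε₀ →
      S.Bdd 1 → S.IsLabel 1 ε t L G (rd bt at') → tmin ≤ r → r + tmin ≤ t →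
      ∃ (Γ' : Type) (_ : Fintype Γ') (κ : FLaw.Ker S.Ω Γ')
        (N : S.Ω × Γ' → (ℤ × ℤ × ℤ × ℤ × ℤ × ℤ) × Γ')
        (geoC : (ℤ × ℤ × ℤ × ℤ × ℤ × ℤ) × Γ' → Geo),
        (∀ x, bt ≤ (geoC x).b ∧ (geoC x).a + r ≤ at' + t) ∧
        (S.adjoin κ).IsLabel K'' ε r L N geoC ∧
        (S.adjoin κ).deficit γ ε r L N geoC ≤ S.deficit γ ε t L G (rd bt at') + ν := by
  obtain ⟨ε₀, K'', e0, e1, H⟩ := tl_loc_pred γ 1 1 L tmin ν hγ0 hγ1 ht hν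
  refine ⟨ε₀, K'', e0, e1, fun S ε t r bt at' G h0 hε hB hlab hr hrt => ?_⟩
  obtain ⟨ω₀, hω₀⟩ := ent_exists_supp S.P
  obtain ⟨c1, c2, c3, -⟩ := hlab ω₀ (lt_of_le_of_ne (S.P.nonneg _) (Ne.symm hω₀))
  obtain ⟨Γ', i', κ, geoC, -, g2, g3, g4⟩ := H S ε t L bt at' ⟨bt, 0, r⟩ (fun _ => 0) LV G (rd bt at')
    h0 hε hB hlab le_rfl (fun g => ⟨rfl, rfl⟩) rfl le_rfl (sub_nonneg.2 c2) hr hrt
    (fun ω _ => by simpa using Real.abs_sin_le_one _)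
  refine ⟨Γ', i', κ, _, geoC, g2, g3, ?_⟩
  have z1 : S.P.entC (fun _ : S.Ω => tcell ε 0 0) (FLaw.pair S.T (S.Ct ε r)) = 0 :=
    ent_entC_eq_zero _ _ _ fun _ _ _ _ _ => rfl
  have z2 : S.P.entC (fun _ : S.Ω => tcell ε 0 0) G = 0 :=
    ent_entC_eq_zero _ _ _ fun _ _ _ _ _ => rfl
  have g5 : (S.adjoin κ).deficit γ ε r L (fun x => (S.J ε ⟨bt, 0, r⟩ (fun _ => 0) x.1, x.2)) geoC ≤
      S.deficit γ ε t L G (rd bt at')
        + 2 * S.P.entC (fun _ : S.Ω => tcell ε 0 0) (FLaw.pair S.T (S.Ct ε r)) / lg ε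
        + S.P.entC (fun _ : S.Ω => tcell ε 0 0) G / lg ε + ν := g4
  rw [z1, z2] at g5
  simpa using g5

/-- a point of the support where ALL the functions `f i` (bounded below, small in mean) are small -/
theorem dc_pred_select {Ω ι : Type} [Fintype Ω] (P : FLaw Ω) (s : Finset ι) (f : ι → Ω → ℝ) (d ν₂ : ℝ)
    (hν₂ : 0 ≤ ν₂) (hE : ∀ i ∈ s, P.ev (f i) ≤ d) (hlow : ∀ i ∈ s, ∀ ω, -ν₂ ≤ f i ω) :
    ∃ ω₀, 0 < P.p ω₀ ∧ ∀ i ∈ s, f i ω₀ ≤ s.card * (d + ν₂) := by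
  obtain ⟨ω₀, hω₀, hle⟩ := dc_exists_le_ev P (fun ω => ∑ i ∈ s, (f i ω + ν₂))
  refine ⟨ω₀, hω₀, fun i hi => ?_⟩
  have e1 : P.ev (fun ω => ∑ i ∈ s, (f i ω + ν₂)) ≤ s.card * (d + ν₂) := by
    rw [ent_ev_sum]
    calc ∑ i ∈ s, P.ev (fun ω => f i ω + ν₂) ≤ ∑ _i ∈ s, (d + ν₂) :=
          Finset.sum_le_sum fun i hi => by
            rw [ent_ev_add, ent_ev_const]
            linarith [hE i hi]
      _ = s.card * (d + ν₂) := by rw [Finset.sum_const, nsmul_eq_mul]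
  have e2 : f i ω₀ + ν₂ ≤ ∑ i ∈ s, (f i ω₀ + ν₂) :=
    Finset.single_le_sum (f := fun i => f i ω₀ + ν₂) (fun j hj => by linarith [hlow j hj ω₀]) hi
  linarith

/-- floor cells of a mesh -/
theorem dc_pred_floor {x ξ : ℝ} (hξ : 0 < ξ) : (⌊x / ξ⌋ : ℝ) * ξ ≤ x ∧ x ≤ (⌊x / ξ⌋ : ℝ) * ξ + ξ := by
  have h1 := Int.floor_le (x / ξ)
  have h2 := (Int.lt_floor_add_one (x / ξ)).le
  rw [le_div_iff₀ hξ] at h1
  rw [div_le_iff₀ hξ] at h2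
  exact ⟨h1, by linarith⟩

/-- the cell of the tag `Z` where all the conditional deficits are small (abstract system) -/
theorem dc_pred_sel (γ L K'' r δ : ℝ) (h0 : 0 < γ) (h1 : γ < 1) (hr0 : 0 < r) (hδ : 0 < δ) (D : Finset ℝ)
    (b a : ℝ → ℝ) (hD : ∀ u ∈ D, r < u ∧ u ≤ L) (hrL : r ≤ L) :
    ∃ ε₁ : ℝ, 0 < ε₁ ∧ ∀ (Sp : CSys) (ε : ℝ) (labp : ℝ → Sp.Ω → LV) (Γ : Type) (N : Sp.Ω → Γ)
      (geoC : Γ → Geo) (Y : Type) (Z : Sp.Ω → Y),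
      0 < ε → ε < ε₁ → ε < 1 → Sp.Bdd 1 → 3 * Sp.P.ent Z / lg ε ≤ δ →
      (∀ u ∈ D, Sp.IsLabel 1 ε u L (labp u) (rd (b u) (a u)) ∧
        Sp.deficit γ ε u L (labp u) (rd (b u) (a u)) ≤ 2 * δ) →
      Sp.IsLabel K'' ε r L N geoC → Sp.deficit γ ε r L N geoC ≤ 2 * δ →
      ∃ ω₀, 0 < Sp.P.p ω₀ ∧
        (Sp.condOn (fun ω' => Z ω' = Z ω₀)).deficit γ ε r L N geoC ≤ (insert r D).card * (4 * δ) ∧
        ∀ u ∈ D, (Sp.condOn (fun ω' => Z ω' = Z ω₀)).deficit γ ε u L (labp u) (rd (b u) (a u)) ≤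
          (insert r D).card * (4 * δ) := by
  obtain ⟨ε₂, b1, -, Hge1⟩ := dc_deficit_ge γ 1 1 L r δ h0 h1 hr0 hδ
  obtain ⟨ε₃, c1, -, Hge2⟩ := dc_deficit_ge γ K'' 1 L r δ h0 h1 hr0 hδ
  refine ⟨min ε₂ ε₃, lt_min b1 c1, ?_⟩
  intro Sp ε labp Γ N geoC Y Z p0 p1 p2 hB hZ hl g2 g3
  rw [lt_min_iff] at p1
  have hL0 : 0 ≤ L := hr0.le.trans hrL
  have hne : ∀ u ∈ D, u ≠ r := fun u hu => (hD u hu).1.ne'
  obtain ⟨f, hf⟩ : ∃ f : ℝ → Sp.Ω → ℝ, f = fun u ω =>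
      if u = r then (Sp.condOn (fun ω' => Z ω' = Z ω)).deficit γ ε r L N geoC
      else (Sp.condOn (fun ω' => Z ω' = Z ω)).deficit γ ε u L (labp u) (rd (b u) (a u)) := ⟨_, rfl⟩
  have fr : ∀ ω, f r ω = (Sp.condOn (fun ω' => Z ω' = Z ω)).deficit γ ε r L N geoC := by
    intro ω
    rw [hf]
    exact if_pos rfl
  have fu : ∀ u ∈ D, ∀ ω,
      f u ω = (Sp.condOn (fun ω' => Z ω' = Z ω)).deficit γ ε u L (labp u) (rd (b u) (a u)) := by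
    intro u hu ω
    rw [hf]
    exact if_neg (hne u hu)
  have hE : ∀ u ∈ insert r D, Sp.P.ev (f u) ≤ 3 * δ := by
    intro u hu
    rcases Finset.mem_insert.1 hu with hur | hu
    · have e : f u = fun ω => (Sp.condOn (fun ω' => Z ω' = Z ω)).deficit γ ε r L N geoC := by
        rw [hur]
        exact funext fr
      rw [e]
      have := tl_split_deficit Sp 1 γ ε r L hB h0 h1 p0 p2 hL0 Γ N geoC Y Z
      linarith
    · have e : f u = fun ω =>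
          (Sp.condOn (fun ω' => Z ω' = Z ω)).deficit γ ε u L (labp u) (rd (b u) (a u)) :=
        funext (fu u hu)
      rw [e]
      have := tl_split_deficit Sp 1 γ ε u L hB h0 h1 p0 p2 hL0 LV (labp u) (rd (b u) (a u)) Y Z
      have e3 := (hl u hu).2
      linarith
  have hlow : ∀ u ∈ insert r D, ∀ ω, -δ ≤ f u ω := by
    intro u hu ω
    obtain ⟨kc1, kc2⟩ := dc_cond_keep Sp (fun ω' => Z ω' = Z ω)
    rcases Finset.mem_insert.1 hu with hur | hu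
    · rw [hur, fr]
      exact Hge2 (Sp.condOn (fun ω' => Z ω' = Z ω)) ε r L Γ N geoC p0 p1.2 (kc1 1 hB) (Or.inr le_rfl) hrL
        le_rfl (kc2 K'' ε r L Γ N geoC g2)
    · rw [fu u hu]
      exact Hge1 (Sp.condOn (fun ω' => Z ω' = Z ω)) ε u L LV (labp u) (rd (b u) (a u)) p0 p1.1 (kc1 1 hB)
        (Or.inr (hD u hu).1.le) (hD u hu).2 le_rfl (kc2 1 ε u L LV (labp u) (rd (b u) (a u)) (hl u hu).1)
  obtain ⟨ω₀, hω₀, hsel⟩ := dc_pred_select Sp.P (insert r D) f (3 * δ) δ hδ.le hE hlow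
  have e4 : 3 * δ + δ = 4 * δ := by ring
  rw [e4] at hsel
  refine ⟨ω₀, hω₀, ?_, fun u hu => ?_⟩
  · rw [← fr]
    exact hsel r (Finset.mem_insert_self _ _)
  · rw [← fu u hu]
    exact hsel u (Finset.mem_insert_of_mem hu)

/-- a label of variable shape inside one mesh cell: coarsen to a fixed shape, refine to enlargement `1` -/
theorem dc_pred_shape (K'' : ℝ) : ∃ C : ℝ, ∀ (Sc : CSys) (γ ε r L ξ bt M k k' : ℝ) (Γ : Type) (N : Sc.Ω → Γ)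
    (geoC : Γ → Geo), 0 < γ → γ < 1 → 0 < ε → ε < 1 → 0 ≤ r → 0 ≤ bt → M ≤ L →
    Sc.IsLabel K'' ε r L N geoC →
    (∀ x, 0 < Sc.P.p x → bt ≤ (geoC (N x)).b ∧ (geoC (N x)).a + r ≤ M ∧ k ≤ (geoC (N x)).b ∧
      (geoC (N x)).b ≤ k + ξ ∧ k' ≤ (geoC (N x)).a ∧ (geoC (N x)).a ≤ k' + ξ) →
    ∃ (b' a' : ℝ) (G' : Sc.Ω → LV), bt ≤ b' ∧ b' ≤ a' ∧ a' + r ≤ M ∧ ThN G' ∧
      Sc.IsLabel 1 ε r L G' (rd b' a') ∧
      Sc.deficit γ ε r L G' (rd b' a') ≤ Sc.deficit γ ε r L N geoC + 2 * ξ + C / lg ε := by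
  obtain ⟨C, hC⟩ := dc_reshape K''
  refine ⟨C, ?_⟩
  intro Sc γ ε r L ξ bt M k k' Γ N geoC h0 h1 p0 p2 hr0 hbt0 hML g2 hcell
  obtain ⟨b', hb'⟩ : ∃ b' : ℝ, b' = max bt k := ⟨_, rfl⟩
  obtain ⟨a', ha'⟩ : ∃ a' : ℝ, a' = max b' k' := ⟨_, rfl⟩
  have hbt : bt ≤ b' := by rw [hb']; exact le_max_left _ _
  have hba : b' ≤ a' := by rw [ha']; exact le_max_left _ _
  have hb0 : 0 ≤ b' := hbt0.trans hbt
  have hshape : ∀ x, 0 < Sc.P.p x →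
      b' ≤ (geoC (N x)).b ∧ a' ≤ (geoC (N x)).a ∧ (geoC (N x)).b ≤ b' + ξ ∧ (geoC (N x)).a ≤ a' + ξ := by
    intro x hx
    obtain ⟨m0, -, m1, m2, m3, m4⟩ := hcell x hx
    have m5 : (geoC (N x)).b ≤ (geoC (N x)).a := (g2 x hx).2.1
    have n1 : b' ≤ (geoC (N x)).b := by rw [hb']; exact max_le m0 m1
    have n2 : k ≤ b' := by rw [hb']; exact le_max_right _ _
    have n3 : k' ≤ a' := by rw [ha']; exact le_max_right _ _
    refine ⟨n1, ?_, by linarith, by linarith⟩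
    rw [ha']
    exact max_le (n1.trans m5) m3
  obtain ⟨ω₀, hω₀⟩ := ent_exists_supp Sc.P
  have hω₀' : 0 < Sc.P.p ω₀ := lt_of_le_of_ne (Sc.P.nonneg _) (Ne.symm hω₀)
  have har : a' + r ≤ M := by
    have := (hshape ω₀ hω₀').2.1
    linarith [(hcell ω₀ hω₀').2.1]
  obtain ⟨co1, co2⟩ := dc_coarsen Sc γ K'' ε r L b' a' p0 p2 hb0 hba Γ N geoC g2
    (fun x hx => ⟨(hshape x hx).1, (hshape x hx).2.1⟩)
  have hwt : Sc.P.ev (fun ω => wt γ (geoC (N ω))) ≤ (1 + γ) * b' + (1 - γ) * a' + 2 * ξ := by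
    rw [← ent_ev_const Sc.P ((1 + γ) * b' + (1 - γ) * a' + 2 * ξ)]
    refine ent_ev_mono _ fun x hx => ?_
    obtain ⟨-, -, m3, m4⟩ := hshape x (lt_of_le_of_ne (FLaw.nonneg _ _) (Ne.symm hx))
    unfold wt
    nlinarith
  obtain ⟨G', r1, -, -, -, r5, r6⟩ := hC Sc γ ε r L b' a' b' a' Γ N
    (fun g => { geoC g with b := b', a := a' }) h0 h1 p0 p2 hr0 co1 (fun g => ⟨rfl, rfl⟩) hb0 hba
    (har.trans hML)
  refine ⟨b', a', G', hbt, hba, har, r1, r5, ?_⟩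
  rw [sub_self, sub_self, abs_zero, co2] at r6
  linarith

/-- entropy of the mesh tag of a label -/
theorem dc_pred_tag (Sp : CSys) (K'' ε r L ξ : ℝ) (hξ0 : 0 < ξ) (hr0 : 0 ≤ r) (Γ : Type) (N : Sp.Ω → Γ)
    (geoC : Γ → Geo) (g2 : Sp.IsLabel K'' ε r L N geoC) :
    Sp.P.ent (fun x => ((⌊(geoC (N x)).b / ξ⌋, ⌊(geoC (N x)).a / ξ⌋) : ℤ × ℤ)) ≤
      Real.log ((Finset.Icc 0 ⌊L / ξ⌋ ×ˢ Finset.Icc 0 ⌊L / ξ⌋ : Finset (ℤ × ℤ)).card) := by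
  refine ent_le_log_card _ _ _ fun x hx => ?_
  obtain ⟨w1, w2, w3, -⟩ := g2 x (lt_of_le_of_ne (Sp.P.nonneg x) (Ne.symm hx))
  refine Finset.mem_product.2 ⟨Finset.mem_Icc.2 ⟨?_, ?_⟩, Finset.mem_Icc.2 ⟨?_, ?_⟩⟩
  · exact Int.floor_nonneg.2 (div_nonneg w1 hξ0.le)
  · exact Int.floor_le_floor (div_le_div_of_nonneg_right (by linarith) hξ0.le)
  · exact Int.floor_nonneg.2 (div_nonneg (w1.trans w2) hξ0.le)
  · exact Int.floor_le_floor (div_le_div_of_nonneg_right (by linarith) hξ0.le)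

/-- Stage 1 on an abstract system `Sp` which already carries the old labels and the new label of variable shape -/
theorem dc_pred_core (γ L K'' : ℝ) (h0 : 0 < γ) (h1 : γ < 1) (D : Finset ℝ) (b a : ℝ → ℝ) (t r : ℝ)
    (hadm : ∀ u ∈ D, 0 ≤ b u ∧ b u ≤ a u ∧ a u + u ≤ L) (ht : t ∈ D) (hmin : ∀ u ∈ D, t ≤ u)
    (hr0 : 0 < r) (hrt : r < t) (ν δ : ℝ) (hν : 0 < ν) (hδ : δ = ν / (8 * ((insert r D).card : ℝ))) :
    ∃ ε₁ : ℝ, 0 < ε₁ ∧ ∀ (Sp : CSys) (ε : ℝ) (labp : ℝ → Sp.Ω → LV) (Γ : Type) (N : Sp.Ω → Γ)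
      (geoC : Γ → Geo), 0 < ε → ε < ε₁ → ε < 1 → Sp.Bdd 1 →
      (∀ u ∈ D, ThN (labp u) ∧ Sp.IsLabel 1 ε u L (labp u) (rd (b u) (a u)) ∧
        Sp.deficit γ ε u L (labp u) (rd (b u) (a u)) ≤ δ) →
      (∀ x, b t ≤ (geoC x).b ∧ (geoC x).a + r ≤ a t + t) →
      Sp.IsLabel K'' ε r L N geoC → Sp.deficit γ ε r L N geoC ≤ 2 * δ →
      ∃ b' a' : ℝ, b t ≤ b' ∧ b' ≤ a' ∧ a' + r ≤ a t + t ∧ ∃ (S : CSys) (lab : ℝ → S.Ω → LV),
        PSys γ ε L ν (insert r D) (Function.update b r b') (Function.update a r a') S lab := by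
  obtain ⟨at0, at1, at2⟩ := hadm t ht
  obtain ⟨n, hn⟩ : ∃ n : ℝ, n = ((insert r D).card : ℝ) := ⟨_, rfl⟩
  rw [← hn] at hδ
  have hn1 : 1 ≤ n := by
    rw [hn]
    exact_mod_cast Finset.card_pos.2 ⟨r, Finset.mem_insert_self _ _⟩
  have hδ0 : 0 < δ := by rw [hδ]; positivity
  have hnδ : n * (4 * δ) = ν / 2 := by rw [hδ]; field_simp; ring
  obtain ⟨ξ, hξ⟩ : ∃ ξ : ℝ, ξ = ν / 8 := ⟨_, rfl⟩
  have hξ0 : 0 < ξ := by rw [hξ]; positivity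
  have hD : ∀ u ∈ D, r < u ∧ u ≤ L := fun u hu => by
    obtain ⟨u1, u2, u3⟩ := hadm u hu
    exact ⟨hrt.trans_le (hmin u hu), by linarith⟩
  have hrL : r ≤ L := by linarith
  obtain ⟨ε₂, b1, Hsel⟩ := dc_pred_sel γ L K'' r δ h0 h1 hr0 hδ0 D b a hD hrL
  obtain ⟨C, hC⟩ := dc_pred_shape K''
  obtain ⟨ε₄, d1, -, Hsm1⟩ := dc_small_err
    (3 * Real.log ((Finset.Icc 0 ⌊L / ξ⌋ ×ˢ Finset.Icc 0 ⌊L / ξ⌋ : Finset (ℤ × ℤ)).card)) δ hδ0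
  obtain ⟨ε₅, e1, -, Hsm2⟩ := dc_small_err C (ν / 8) (by positivity)
  refine ⟨min ε₂ (min ε₄ ε₅), lt_min b1 (lt_min d1 e1), ?_⟩
  intro Sp ε labp Γ N geoC p0 p1 p2 hB hl g1 g2 g3
  simp only [lt_min_iff] at p1
  obtain ⟨q2, q4, q5⟩ := p1
  have hlg := tl_lg_pos p0 p2
  obtain ⟨Z, hZdef⟩ : ∃ Z : Sp.Ω → ℤ × ℤ,
      Z = fun x => (⌊(geoC (N x)).b / ξ⌋, ⌊(geoC (N x)).a / ξ⌋) := ⟨_, rfl⟩
  have hZ : 3 * Sp.P.ent Z / lg ε ≤ δ := by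
    have := dc_pred_tag Sp K'' ε r L ξ hξ0 hr0.le Γ N geoC g2
    rw [← hZdef] at this
    exact (div_le_div_of_nonneg_right (by linarith) hlg.le).trans (Hsm1 ε p0 q4)
  obtain ⟨ω₀, hω₀, sel1, sel2⟩ := Hsel Sp ε labp Γ N geoC (ℤ × ℤ) Z p0 q2 p2 hB hZ
    (fun u hu => ⟨(hl u hu).2.1, by linarith [(hl u hu).2.2]⟩) g2 g3
  rw [← hn, hnδ] at sel1 sel2
  obtain ⟨kc1, kc2⟩ := dc_cond_keep Sp (fun ω' => Z ω' = Z ω₀)
  have hpos : 0 < Sp.P.pr (fun ω' => Z ω' = Z ω₀) := (ent_pr_pos_iff _ _).2 ⟨ω₀, rfl, hω₀.ne'⟩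
  have hcell : ∀ x, 0 < (Sp.condOn (fun ω' => Z ω' = Z ω₀)).P.p x →
      b t ≤ (geoC (N x)).b ∧ (geoC (N x)).a + r ≤ a t + t ∧
      (⌊(geoC (N ω₀)).b / ξ⌋ : ℝ) * ξ ≤ (geoC (N x)).b ∧
      (geoC (N x)).b ≤ (⌊(geoC (N ω₀)).b / ξ⌋ : ℝ) * ξ + ξ ∧
      (⌊(geoC (N ω₀)).a / ξ⌋ : ℝ) * ξ ≤ (geoC (N x)).a ∧
      (geoC (N x)).a ≤ (⌊(geoC (N ω₀)).a / ξ⌋ : ℝ) * ξ + ξ := by
    intro x hx
    obtain ⟨s1, -⟩ := (ent_cnd_supp Sp.P _ hpos).1 (ne_of_gt hx)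
    rw [hZdef] at s1
    have t1 : ⌊(geoC (N x)).b / ξ⌋ = ⌊(geoC (N ω₀)).b / ξ⌋ := congrArg Prod.fst s1
    have t2 : ⌊(geoC (N x)).a / ξ⌋ = ⌊(geoC (N ω₀)).a / ξ⌋ := congrArg Prod.snd s1
    obtain ⟨f1, f2⟩ := dc_pred_floor (x := (geoC (N x)).b) hξ0
    obtain ⟨f3, f4⟩ := dc_pred_floor (x := (geoC (N x)).a) hξ0
    rw [t1] at f1 f2
    rw [t2] at f3 f4
    exact ⟨(g1 _).1, (g1 _).2, f1, f2, f3, f4⟩
  obtain ⟨b', a', G', hbt, hba, har, r1, r5, r6⟩ := hC (Sp.condOn (fun ω' => Z ω' = Z ω₀)) γ ε r L ξ (b t)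
    (a t + t) _ _ Γ N geoC h0 h1 p0 p2 hr0.le at0 at2 (kc2 K'' ε r L Γ N geoC g2) hcell
  have hne : ∀ u ∈ D, u ≠ r := fun u hu => (hD u hu).1.ne'
  obtain ⟨labc, hlr, hlu⟩ : ∃ labc : ℝ → (Sp.condOn (fun ω' => Z ω' = Z ω₀)).Ω → LV,
      labc r = G' ∧ ∀ u, u ≠ r → labc u = labp u :=
    ⟨fun u => if u = r then G' else labp u, if_pos rfl, fun u hu => if_neg hu⟩
  refine ⟨b', a', hbt, hba, har, Sp.condOn (fun ω' => Z ω' = Z ω₀), labc, kc1 1 hB, fun u hu => ?_⟩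
  rcases Finset.mem_insert.1 hu with hur | hu
  · rw [hur, Function.update_self, Function.update_self, hlr]
    refine ⟨r1, r5, ?_⟩
    have s2 := Hsm2 ε p0 q5
    rw [hξ] at r6
    linarith
  · have hur := hne u hu
    rw [Function.update_of_ne hur, Function.update_of_ne hur, hlu u hur]
    refine ⟨(hl u hu).1, kc2 1 ε u L LV (labp u) (rd (b u) (a u)) (hl u hu).2.1, ?_⟩
    have := sel2 u hu
    linarith

/-- Stage 1: one system carrying the old labels and a new label at duration `r` -/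
theorem dc_pred_stage1 (γ L : ℝ) (h0 : 0 < γ) (h1 : γ < 1) (D : Finset ℝ) (b a : ℝ → ℝ) (t r : ℝ)
    (hA : Ach γ L D b a) (ht : t ∈ D) (hmin : ∀ u ∈ D, t ≤ u) (hr0 : 0 < r) (hrt : r < t)
    (ν : ℝ) (hν : 0 < ν) (ε₀ : ℝ) (hε₀ : 0 < ε₀) :
    ∃ b' a' : ℝ, b t ≤ b' ∧ b' ≤ a' ∧ a' + r ≤ a t + t ∧ ∃ ε : ℝ, 0 < ε ∧ ε < ε₀ ∧ ε < 1 ∧
      ∃ (S : CSys) (lab : ℝ → S.Ω → LV),
        PSys γ ε L ν (insert r D) (Function.update b r b') (Function.update a r a') S lab := by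
  have hadm := dc_ach_adm γ L D b a hA
  obtain ⟨δ, hδ⟩ : ∃ δ : ℝ, δ = ν / (8 * ((insert r D).card : ℝ)) := ⟨_, rfl⟩
  have hδ0 : 0 < δ := by
    have : 0 < ((insert r D).card : ℝ) := by
      exact_mod_cast Finset.card_pos.2 ⟨r, Finset.mem_insert_self _ _⟩
    rw [hδ]
    positivity
  obtain ⟨ε₁, K'', a1, -, Hnew⟩ :=
    dc_pred_new γ L (min r (t - r)) δ h0 h1 (lt_min hr0 (by linarith)) hδ0
  obtain ⟨ε₂, b1, Hcore⟩ := dc_pred_core γ L K'' h0 h1 D b a t r hadm ht hmin hr0 hrt ν δ hν hδ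
  obtain ⟨ε, p0, p1, p2, S, lab, hB, hl⟩ := hA δ hδ0 (min ε₀ (min ε₁ ε₂)) (lt_min hε₀ (lt_min a1 b1))
  simp only [lt_min_iff] at p1
  obtain ⟨q0, q1, q2⟩ := p1
  obtain ⟨-, lt2, lt3⟩ := hl t ht
  obtain ⟨Γ', i', κ, N, geoC, g1, g2, g3⟩ := Hnew S ε t r (b t) (a t) (lab t) p0 q1 hB lt2
    (min_le_left _ _) (by linarith [min_le_right r (t - r)])
  obtain ⟨kB, kL⟩ := dc_adjoin_keep S Γ' κ
  obtain ⟨b', a', c1, c2, c3, Sc, labc, hP⟩ := Hcore (S.adjoin κ) ε (fun u x => lab u x.1) _ N geoC p0 q2 p2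
    (kB 1 hB)
    (fun u hu => ⟨fun x => (hl u hu).1 x.1, (kL LV (lab u) (rd (b u) (a u))).1 1 ε u L (hl u hu).2.1,
      ((kL LV (lab u) (rd (b u) (a u))).2 γ ε u L).le.trans (hl u hu).2.2⟩)
    g1 g2 (by linarith)
  exact ⟨b', a', c1, c2, c3, ε, p0, q0, p2, Sc, labc, hP⟩

/-- **One saturated predecessor.**  `t = min D`, `0 < r < t`.
Stage 1 (for each `ν, ε₀`): take a system of `Ach` with deficits `≤ θ`; `tl_loc_pred` with `p = ⟨b t, 0, r⟩`, `th = 0` gives `S⁺ = S.adjoin κ` and a label `(J, D')` at duration `r` of VARIABLE shape `(p, q)`, `b t ≤ p`, `q + r ≤ a t + t`, deficit `≤ θ + ν'`; the old labels survive (`dc_adjoin_keep`).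
Tag the new shape on a mesh `ξ`; `tl_split_deficit` for all `|D| + 1` labels, `dc_deficit_ge` for all cells: the cell minimising the SUM of the deficits has all deficits small; `dc_cond_keep`.
Coarsen the new label to `b' = max (b t) (k ξ)`, `a' = max b' (k' ξ)` (`dc_coarsen`, loss `≤ 2ξ`), refine to enlargement `1` (`dc_reshape`, same shape).
Stage 2: the shapes `(b'_k, a'_k)` obtained for `ν = ε₀ = 1/k` lie in a compact set; take their limit along `uf`; `dc_ach_closed`. -/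
theorem dc_ach_pred (γ L : ℝ) (h0 : 0 < γ) (h1 : γ < 1) (D : Finset ℝ) (b a : ℝ → ℝ) (t r : ℝ)
    (hA : Ach γ L D b a) (ht : t ∈ D) (hmin : ∀ u ∈ D, t ≤ u) (hr0 : 0 < r) (hrt : r < t) :
    ∃ b' a' : ℝ, b t ≤ b' ∧ b' ≤ a' ∧ a' + r ≤ a t + t ∧
      Ach γ L (insert r D) (Function.update b r b') (Function.update a r a') := by
  have hs := fun k : ℕ => dc_pred_stage1 γ L h0 h1 D b a t r hA ht hmin hr0 hrt (1 / ((k : ℝ) + 1))
    (by positivity) (1 / ((k : ℝ) + 1)) (by positivity)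
  choose bs as s1 s2 s3 s4 using hs
  have hK : IsCompact {x : ℝ × ℝ | b t ≤ x.1 ∧ x.1 ≤ x.2 ∧ x.2 + r ≤ a t + t} := by
    refine (isCompact_Icc (a := ((b t, b t) : ℝ × ℝ)) (b := (a t + t - r, a t + t - r))).of_isClosed_subset
      ?_ ?_
    · exact (isClosed_le continuous_const continuous_fst).inter
        ((isClosed_le continuous_fst continuous_snd).inter
          (isClosed_le (continuous_snd.add continuous_const) continuous_const))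
    · rintro ⟨x, y⟩ ⟨m1, m2, m3⟩
      simp only at m1 m2 m3
      exact ⟨⟨m1, m1.trans m2⟩, ⟨by show x ≤ _; linarith, by show y ≤ _; linarith⟩⟩
  obtain ⟨⟨b', a'⟩, hmem, φ, hφ, hlim⟩ := hK.tendsto_subseq (x := fun k => (bs k, as k))
    (fun k => ⟨s1 k, s2 k, s3 k⟩)
  refine ⟨b', a', hmem.1, hmem.2.1, hmem.2.2, ?_⟩
  refine dc_ach_closed' γ L h0 h1 (insert r D) _ _ ?_ fun ρ hρ ν hν ε₀ hε₀ => ?_
  · intro u hu
    rcases Finset.mem_insert.1 hu with rfl | hu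
    · exact hr0.le
    · linarith [hmin u hu]
  have ev1 : ∀ᶠ k in atTop, dist (bs (φ k), as (φ k)) (b', a') < ρ := Metric.tendsto_nhds.1 hlim ρ hρ
  have ev2 : ∀ᶠ k in atTop, 1 / ((φ k : ℝ) + 1) < min ν ε₀ :=
    (tendsto_one_div_add_atTop_nhds_zero_nat.comp hφ.tendsto_atTop).eventually_lt_const
      (lt_min hν hε₀)
  obtain ⟨k, hk1, hk2⟩ := (ev1.and ev2).exists
  obtain ⟨ε, p0, p1, p2, S, lab, hB, hl⟩ := s4 (φ k)
  rw [lt_min_iff] at hk2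
  refine ⟨Function.update b r (bs (φ k)), Function.update a r (as (φ k)), ?_, ε, p0, p1.trans hk2.2, p2,
    S, lab, hB, fun u hu => ⟨(hl u hu).1, (hl u hu).2.1, (hl u hu).2.2.trans hk2.1.le⟩⟩
  intro u _
  by_cases hur : u = r
  · subst hur
    rw [Function.update_self, Function.update_self, Function.update_self, Function.update_self]
    rw [Prod.dist_eq, max_lt_iff, Real.dist_eq, Real.dist_eq] at hk1
    exact ⟨hk1.1.le, hk1.2.le⟩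
  · rw [Function.update_of_ne hur, Function.update_of_ne hur, Function.update_of_ne hur,
      Function.update_of_ne hur, sub_self, sub_self, abs_zero]
    exact ⟨hρ.le, hρ.le⟩

end Claimed.Agent.R255
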