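import Claimed.Agent.R255.Cl.DichDefs

/-!
# Row 255 (BR paper), chapter DICHOTOMY (P4.6-P4.8), package DC-RA      (architect helper40; prefix `dc_`)
Plan and vocabulary: `Cl/DichDefs.lean`.  The owner of the package edits ONLY this file (helper lemmas above the contracts, or in `Cl/Dich/Ra/*.lean`).  Do not change the statements without asking helper40.
-/

set_option autoImplicit false

namespace Claimed.Agent.R255

open Filter Topology
open Classical

/-! ### helper lemmas (helper95).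
ELEMENTARY PROOF of `dc_ra_linear` (no differentiation): `g = a - b + id` is nondecreasing on the dyadics.  Let `Λ` be the infimum of the slopes of `g` over all dyadic intervals `[i/2^k, (i+1)/2^k]`, `i ≥ 1`.
If `Λ < m + 1`, take an interval of slope `< Λ + τ`; its `N = 2^p` children have slopes `≥ Λ` and average `< Λ + τ`, hence slopes `≤ Λ + N τ ≤ m + 1 - σ`.  So along the chain of the children `e = a - b` increases by at most
`(m - σ) h` per link, all width changes are `≤ (m + 3) h`, `h = η / N`, and the tangent inequality with the depth `d = e(t) - (m - σ) η - σ η / 2` gives `m η ≤ (m - σ / 2) η`: contradiction (`dcra_chain`).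
Hence all slopes are `≥ m + 1` (`dcra_slope`) and `g 1 - g u ≥ (m + 1)(1 - u)`. -/

/-- the dyadic point `i / 2 ^ k` -/
noncomputable def dcraX (k i : ℕ) : ℝ := (i : ℝ) / 2 ^ k

theorem dcraX_mem {k i : ℕ} (h0 : 0 < i) (h1 : i ≤ 2 ^ k) : dcraX k i ∈ Dy := ⟨k, i, h0, h1, rfl⟩

theorem dcraX_refine (k p i : ℕ) : dcraX (k + p) (i * 2 ^ p) = dcraX k i := by
  unfold dcraX
  push_cast
  rw [pow_add]
  field_simp

theorem dcraX_lt {k i j : ℕ} (h : i < j) : dcraX k i < dcraX k j := by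
  unfold dcraX
  exact div_lt_div_of_pos_right (by exact_mod_cast h) (by positivity)

theorem dcraX_succ (k i : ℕ) : dcraX k (i + 1) - dcraX k i = 1 / 2 ^ k := by
  unfold dcraX
  push_cast
  ring

/-- the width change is bounded by the increment of `a - b + id` -/
theorem dcra_Dw_le {b a : ℝ → ℝ} (hnest : Nested Dy b a) {r t : ℝ} (hr : r ∈ Dy) (ht : t ∈ Dy)
    (hrt : r < t) : Dw b a r t ≤ (a t - b t + t) - (a r - b r + r) + 2 * (t - r) := by
  obtain ⟨h1, h2⟩ := hnest r hr t ht hrt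
  unfold Dw
  rw [abs_of_nonneg (by linarith : 0 ≤ b r - b t), abs_of_pos (by linarith : 0 < t - r)]
  have : |a r - a t| ≤ (a t + t - a r - r) + (t - r) := by
    rw [abs_le]; constructor <;> linarith
  linarith

/-- a chain of `N` equal links of length `h` on which `a - b + id` has slope `≤ m + 1 - σ` contradicts the tangent inequality -/
theorem dcra_chain (m K : ℝ) (hm : 0 < m) (hK : 0 ≤ K) (b a : ℝ → ℝ) (hnest : Nested Dy b a)
    (hlow : ∀ u ∈ Dy, m * u ≤ a u - b u)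
    (htan : ∀ (u : ℕ → ℝ) (N : ℕ), 0 < N → DyChain u N → ∀ d, CohDepth K b a u N d →
      m * (u N - u 0) ≤ a (u N) - b (u N) - d)
    (σ h η : ℝ) (N : ℕ) (u : ℕ → ℝ) (hσ0 : 0 < σ) (hσ2 : σ ≤ m) (hh0 : 0 < h) (hN0 : 0 < N)
    (hηh : η = N * h) (huD : ∀ j, j ≤ N → u j ∈ Dy) (hulk : ∀ j, u (j + 1) - u j = h)
    (hup : ∀ j, j < N → (a (u (j + 1)) - b (u (j + 1)) + u (j + 1)) - (a (u j) - b (u j) + u j)
      ≤ (m + 1 - σ) * h)
    (hKN : K * (m + 3) ≤ σ / 4 * N) (huN2 : 2 * η ≤ u N) (hlen : u N - u 0 = η) : False := by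
  have hη0 : 0 < η := by rw [hηh]; positivity
  have hult : ∀ j, u j < u (j + 1) := fun j => by have := hulk j; linarith
  have hchain : DyChain u N := ⟨huD, fun j _ => hult j⟩
  obtain ⟨e, he⟩ : ∃ e : ℝ → ℝ, ∀ x, e x = a x - b x := ⟨_, fun _ => rfl⟩
  have hlink : ∀ j, j < N → e (u (j + 1)) - e (u j) ≤ (m - σ) * h := by
    intro j hj
    have h1 := hup j hj
    have h2 := hulk j
    rw [← he, ← he] at h1
    have h3 : (m + 1 - σ) * h = (m - σ) * h + h := by ring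
    linarith
  have hacc : ∀ n j, j + n ≤ N → e (u (j + n)) - e (u j) ≤ n * ((m - σ) * h) := by
    intro n
    induction n with
    | zero => intro j _; simp
    | succ n ih =>
      intro j hj
      have h1 := ih j (by omega)
      have h2 := hlink (j + n) (by omega)
      push_cast
      rw [← add_assoc]
      linarith
  have hmσ : 0 ≤ (m - σ) * h := mul_nonneg (by linarith) hh0.le
  have hall : ∀ j, j ≤ N → e (u N) - (m - σ) * η ≤ e (u j) := by
    intro j hj
    have h1 := hacc (N - j) j (by omega)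
    rw [show j + (N - j) = N by omega] at h1
    have h2 : ((N - j : ℕ) : ℝ) ≤ N := by exact_mod_cast Nat.sub_le N j
    have h3 : ((N - j : ℕ) : ℝ) * ((m - σ) * h) ≤ N * ((m - σ) * h) :=
      mul_le_mul_of_nonneg_right h2 hmσ
    have h4 : (m - σ) * η = N * ((m - σ) * h) := by rw [hηh]; ring
    linarith
  have hDw : ∀ j, j < N → K * Dw b a (u j) (u (j + 1)) ≤ σ / 4 * η := by
    intro j hj
    have h1 := dcra_Dw_le hnest (huD j hj.le) (huD (j + 1) hj) (hult j)
    have h2 := hup j hj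
    have h3 := hulk j
    have h4 : Dw b a (u j) (u (j + 1)) ≤ (m + 3) * h := by
      have : (m + 1 - σ) * h ≤ (m + 1) * h := by nlinarith
      rw [h3] at h1
      linarith
    calc K * Dw b a (u j) (u (j + 1)) ≤ K * ((m + 3) * h) := mul_le_mul_of_nonneg_left h4 hK
      _ = K * (m + 3) * h := by ring
      _ ≤ σ / 4 * N * h := mul_le_mul_of_nonneg_right hKN hh0.le
      _ = σ / 4 * η := by rw [hηh]; ring
  obtain ⟨d, hd⟩ : ∃ d : ℝ, d = e (u N) - (m - σ) * η - σ / 4 * η - σ / 4 * η := ⟨_, rfl⟩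
  have hσCη : 0 < σ * η := mul_pos hσ0 hη0
  have hd0 : 0 < d := by
    have h1 := hlow (u N) (huD N le_rfl)
    have h2 : m * (2 * η) ≤ m * u N := mul_le_mul_of_nonneg_left huN2 hm.le
    have h3 : 0 < m * η := mul_pos hm hη0
    rw [← he] at h1
    rw [hd]
    nlinarith
  have hcoh : CohDepth K b a u N d := by
    refine Or.inr ⟨hd0, fun j hj => ?_⟩
    have h1 := hall j hj.le
    have h2 := hall (j + 1) hj
    have h3 := hDw j hj
    have h4 : e (u N) - (m - σ) * η ≤ min (a (u j) - b (u j)) (a (u (j + 1)) - b (u (j + 1))) := by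
      rw [← he, ← he]; exact le_min h1 h2
    rw [hd]
    linarith
  have hfin := htan u N hN0 hchain d hcoh
  rw [hlen, ← he, hd] at hfin
  nlinarith

/-- every dyadic interval has slope at least `m + 1` -/
theorem dcra_slope (m K : ℝ) (hm : 0 < m) (hK : 0 ≤ K) (b a : ℝ → ℝ) (hnest : Nested Dy b a)
    (hlow : ∀ u ∈ Dy, m * u ≤ a u - b u)
    (htan : ∀ (u : ℕ → ℝ) (N : ℕ), 0 < N → DyChain u N → ∀ d, CohDepth K b a u N d →
      m * (u N - u 0) ≤ a (u N) - b (u N) - d) (k i : ℕ) (hi : 0 < i) (hik : i + 1 ≤ 2 ^ k) :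
    (m + 1) / 2 ^ k ≤
      (a (dcraX k (i + 1)) - b (dcraX k (i + 1)) + dcraX k (i + 1)) -
        (a (dcraX k i) - b (dcraX k i) + dcraX k i) := by
  obtain ⟨g, hg⟩ : ∃ g : ℝ → ℝ, ∀ x, g x = a x - b x + x := ⟨_, fun _ => rfl⟩
  simp only [← hg]
  have gmono : ∀ r ∈ Dy, ∀ t ∈ Dy, r < t → g r ≤ g t := by
    intro r hr t ht hrt
    obtain ⟨h1, h2⟩ := hnest r hr t ht hrt
    rw [hg, hg]; linarith
  let S : Set ℝ := {s | ∃ k i : ℕ, 0 < i ∧ i + 1 ≤ 2 ^ k ∧
    s = (g (dcraX k (i + 1)) - g (dcraX k i)) * 2 ^ k}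
  have hSb : BddBelow S := by
    refine ⟨0, ?_⟩
    rintro s ⟨k, i, h0, h1, rfl⟩
    have := gmono _ (dcraX_mem h0 (by omega)) _ (dcraX_mem (Nat.succ_pos i) h1)
      (dcraX_lt (Nat.lt_succ_self i))
    have h2 : (0 : ℝ) < 2 ^ k := by positivity
    exact mul_nonneg (by linarith) h2.le
  have hSne : S.Nonempty := ⟨_, k, i, hi, hik, rfl⟩
  obtain ⟨Λ, hΛ⟩ : ∃ Λ : ℝ, Λ = sInf S := ⟨_, rfl⟩
  suffices hmain : m + 1 ≤ Λ by
    have h1 : Λ ≤ (g (dcraX k (i + 1)) - g (dcraX k i)) * 2 ^ k :=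
      hΛ ▸ csInf_le hSb ⟨k, i, hi, hik, rfl⟩
    have h2 : (0 : ℝ) < 2 ^ k := by positivity
    rw [div_le_iff₀ h2]
    exact hmain.trans h1
  by_contra hcon
  push_neg at hcon
  clear hi hik
  clear i k
  obtain ⟨gap, hgap⟩ : ∃ gap : ℝ, gap = m + 1 - Λ := ⟨_, rfl⟩
  have hgap0 : 0 < gap := by linarith
  obtain ⟨σ, hσ0, hσ1, hσ2⟩ : ∃ σ : ℝ, 0 < σ ∧ σ ≤ gap / 2 ∧ σ ≤ m :=
    ⟨min (gap / 2) m, lt_min (by linarith) hm, min_le_left _ _, min_le_right _ _⟩
  obtain ⟨p, hp⟩ := pow_unbounded_of_one_lt (K * (m + 3) * 4 / σ) (one_lt_two : (1 : ℝ) < 2)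
  obtain ⟨N, hN⟩ : ∃ N : ℕ, N = 2 ^ p := ⟨_, rfl⟩
  have hN0 : 0 < N := by rw [hN]; positivity
  have hNr : (N : ℝ) = 2 ^ p := by simp [hN]
  have hNr0 : (0 : ℝ) < N := by exact_mod_cast hN0
  have hKN : K * (m + 3) ≤ σ / 4 * N := by
    rw [div_lt_iff₀ hσ0] at hp
    rw [hNr]; linarith
  obtain ⟨τ, hτ⟩ : ∃ τ : ℝ, τ = gap / (2 * N) := ⟨_, rfl⟩
  have hτ0 : 0 < τ := by rw [hτ]; positivity
  obtain ⟨s, ⟨k, i, hi, hik, rfl⟩, hs⟩ :=
    exists_lt_of_csInf_lt hSne (show sInf S < Λ + τ by rw [← hΛ]; linarith)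
  obtain ⟨u, hu⟩ : ∃ u : ℕ → ℝ, ∀ j, u j = dcraX (k + p) (i * N + j) := ⟨_, fun _ => rfl⟩
  obtain ⟨h, hh⟩ : ∃ h : ℝ, h = 1 / 2 ^ (k + p) := ⟨_, rfl⟩
  obtain ⟨η, hη⟩ : ∃ η : ℝ, η = 1 / 2 ^ k := ⟨_, rfl⟩
  have hh0 : 0 < h := by rw [hh]; positivity
  have hη0 : 0 < η := by rw [hη]; positivity
  have hηh : η = N * h := by
    rw [hη, hh, hNr, pow_add]; field_simp
  have hle : ∀ j, j ≤ N → i * N + j ≤ 2 ^ (k + p) := by
    intro j hj
    calc i * N + j ≤ i * N + N := by omega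
      _ = (i + 1) * N := by ring
      _ ≤ 2 ^ k * N := Nat.mul_le_mul_right _ hik
      _ = 2 ^ (k + p) := by rw [hN, pow_add]
  have hpos : ∀ j, 0 < i * N + j := fun j => by
    have : 0 < i * N := Nat.mul_pos hi hN0
    omega
  have huD : ∀ j, j ≤ N → u j ∈ Dy := fun j hj => by rw [hu]; exact dcraX_mem (hpos j) (hle j hj)
  have hulk : ∀ j, u (j + 1) - u j = h := fun j => by
    rw [hu, hu, hh, ← add_assoc]; exact dcraX_succ (k + p) (i * N + j)
  have hu0 : u 0 = dcraX k i := by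
    rw [hu, add_zero, hN]; exact dcraX_refine k p i
  have huN : u N = dcraX k (i + 1) := by
    have : i * N + N = (i + 1) * 2 ^ p := by rw [hN]; ring
    rw [hu, this]; exact dcraX_refine k p (i + 1)
  have hlowΔ : ∀ j, j < N → Λ * h ≤ g (u (j + 1)) - g (u j) := by
    intro j hj
    have h1 : Λ ≤ (g (u (j + 1)) - g (u j)) * 2 ^ (k + p) := by
      rw [hΛ, hu, hu, ← add_assoc]
      exact csInf_le hSb ⟨k + p, i * N + j, hpos j, hle (j + 1) hj, rfl⟩
    have h2 : (0 : ℝ) < 2 ^ (k + p) := by positivity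
    rw [hh, mul_one_div, div_le_iff₀ h2]
    exact h1
  have hsum : ∑ j ∈ Finset.range N, (g (u (j + 1)) - g (u j)) = g (u N) - g (u 0) :=
    Finset.sum_range_sub (fun j => g (u j)) N
  have htot : g (u N) - g (u 0) < (Λ + τ) * η := by
    rw [huN, hu0, hη, mul_one_div, lt_div_iff₀ (by positivity)]
    exact hs
  have hupΔ : ∀ j, j < N → g (u (j + 1)) - g (u j) ≤ (m + 1 - σ) * h := by
    intro j hj
    have h1 : g (u (j + 1)) - g (u j) - Λ * h ≤
        ∑ j ∈ Finset.range N, (g (u (j + 1)) - g (u j) - Λ * h) :=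
      Finset.single_le_sum (f := fun j => g (u (j + 1)) - g (u j) - Λ * h)
        (fun j hj => by have := hlowΔ j (Finset.mem_range.1 hj); linarith) (Finset.mem_range.2 hj)
    rw [Finset.sum_sub_distrib, hsum, Finset.sum_const, Finset.card_range, nsmul_eq_mul] at h1
    have h2 : τ * η = gap / 2 * h := by
      rw [hτ, hηh]; field_simp
    have h3 : (Λ + gap / 2) * h ≤ (m + 1 - σ) * h := by
      have : Λ + gap / 2 ≤ m + 1 - σ := by rw [hgap] at hσ1 ⊢; linarith
      exact mul_le_mul_of_nonneg_right this hh0.le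
    have h4 : (Λ + τ) * η = Λ * (N * h) + gap / 2 * h := by rw [add_mul, h2, hηh]
    have h5 : (N : ℝ) * (Λ * h) = Λ * (N * h) := by ring
    have h6 : (Λ + gap / 2) * h = Λ * h + gap / 2 * h := by ring
    linarith
  have huN2 : 2 * η ≤ u N := by
    rw [huN, hη]
    unfold dcraX
    rw [mul_one_div]
    apply div_le_div_of_nonneg_right _ (by positivity)
    have : (1 : ℝ) ≤ i := by exact_mod_cast hi
    push_cast; linarith
  have hlen : u N - u 0 = η := by
    rw [huN, hu0, hη]; exact dcraX_succ k i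
  exact dcra_chain m K hm hK b a hnest hlow htan σ h η N u hσ0 hσ2 hh0 hN0 hηh huD hulk
    (fun j hj => by rw [← hg, ← hg]; exact hupΔ j hj) hKN huN2 hlen

/-- dyadic points approximate from the right -/
theorem dcra_dense {x : ℝ} (h0 : 0 < x) (h1 : x ≤ 1) {ε : ℝ} (hε : 0 < ε) :
    ∃ v ∈ Dy, x ≤ v ∧ v < x + ε := by
  obtain ⟨k, hk⟩ := pow_unbounded_of_one_lt (1 / ε) (one_lt_two : (1 : ℝ) < 2)
  have h2 : (0 : ℝ) < 2 ^ k := by positivity
  have hx2 : 0 < x * 2 ^ k := mul_pos h0 h2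
  refine ⟨(⌈x * 2 ^ k⌉₊ : ℝ) / 2 ^ k, ⟨k, ⌈x * 2 ^ k⌉₊, Nat.ceil_pos.2 hx2, ?_, rfl⟩, ?_, ?_⟩
  · rw [Nat.ceil_le]
    push_cast
    nlinarith
  · rw [le_div_iff₀ h2]
    exact Nat.le_ceil _
  · rw [div_lt_iff₀ h2]
    have h3 := Nat.ceil_lt_add_one hx2.le
    have h4 : 1 < ε * 2 ^ k := by
      rw [div_lt_iff₀ hε] at hk
      linarith
    linarith

/-- **Real analysis of P4.8.**  `b` nonincreasing, `a + id` nondecreasing on the dyadics of `(0,1]`, `e = a - b ≥ m u`, `e 1 = m`, and the tangent inequality along every dyadic chain.  Then `e u = m u`.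
PROOF (paper): extend `-b` and `a + id` to monotone functions on `ℝ` (right limits along dyadics); at a common differentiability point `x ∈ (0,1)` (`Monotone.ae_differentiableAt`) take dyadic `r < x < t`, `t - r = η`, the chain = a dyadic mesh of `[r,t]` of step `o(η)`:
`D_max = o(η)`, `e t - e_min ≤ max (e' x) 0 · η + o(η)`, `d = (e_min - K D_max - δ)₊`, so `m η ≤ e t - d ≤ max (e' x) 0 η + o(η)`: `e' ≥ m` a.e.;
`g = e + id` is monotone, `g 1 - g u ≥ ∫ g'` (`MonotoneOn.intervalIntegral_deriv_mem_uIcc`) `≥ (m+1)(1-u)`. -/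
theorem dc_ra_linear (m K : ℝ) (hm : 0 < m) (hK : 0 ≤ K) (b a : ℝ → ℝ) (hnest : Nested Dy b a)
    (hb : ∀ u ∈ Dy, 0 ≤ b u) (hlow : ∀ u ∈ Dy, m * u ≤ a u - b u) (h1 : a 1 - b 1 = m)
    (htan : ∀ (u : ℕ → ℝ) (N : ℕ), 0 < N → DyChain u N → ∀ d, CohDepth K b a u N d →
      m * (u N - u 0) ≤ a (u N) - b (u N) - d) :
    ∀ u ∈ Dy, a u - b u = m * u := by
  rintro u ⟨k, j, hj0, hjk, rfl⟩
  refine le_antisymm ?_ (hlow _ ⟨k, j, hj0, hjk, rfl⟩)
  have hacc : ∀ n, j + n ≤ 2 ^ k → n * ((m + 1) / 2 ^ k) ≤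
      (a (dcraX k (j + n)) - b (dcraX k (j + n)) + dcraX k (j + n)) -
        (a (dcraX k j) - b (dcraX k j) + dcraX k j) := by
    intro n
    induction n with
    | zero => intro _; simp
    | succ n ih =>
      intro hn
      have h2 := ih (by omega)
      have h3 := dcra_slope m K hm hK b a hnest hlow htan k (j + n) (by omega) (by omega)
      push_cast
      rw [← add_assoc]
      linarith
  have h2 := hacc (2 ^ k - j) (by omega)
  rw [show j + (2 ^ k - j) = 2 ^ k by omega] at h2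
  have h3 : dcraX k (2 ^ k) = 1 := by
    unfold dcraX; push_cast; field_simp
  rw [h3] at h2
  have h4 : ((2 ^ k - j : ℕ) : ℝ) = 2 ^ k - j := by
    rw [Nat.cast_sub hjk]; push_cast; ring
  rw [h4] at h2
  have h5 : ((2 : ℝ) ^ k - j) * ((m + 1) / 2 ^ k) = (m + 1) * (1 - dcraX k j) := by
    unfold dcraX; field_simp
  rw [h5] at h2
  change a (dcraX k j) - b (dcraX k j) ≤ m * dcraX k j
  linarith

/-- extension of a monotone Lipschitz function from the dyadics to `(0, 1]` -/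
theorem dc_ra_ext (c : ℝ) (b : ℝ → ℝ)
    (h : ∀ r ∈ Dy, ∀ t ∈ Dy, r < t → b t ≤ b r ∧ b r - b t ≤ c * (t - r)) :
    ∃ b' : ℝ → ℝ, (∀ u ∈ Dy, b' u = b u) ∧
      ∀ r t : ℝ, 0 < r → r ≤ t → t ≤ 1 → b' t ≤ b' r ∧ b' r - b' t ≤ c * (t - r) := by
  have hc : 0 ≤ c := by
    have h1 : (1 / 2 : ℝ) ∈ Dy := ⟨1, 1, one_pos, by norm_num, by norm_num⟩
    have h2 : (1 : ℝ) ∈ Dy := ⟨0, 1, one_pos, by norm_num, by norm_num⟩
    obtain ⟨h3, h4⟩ := h _ h1 _ h2 (by norm_num)
    nlinarith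
  have hL : LipschitzOnWith c.toNNReal b Dy := by
    refine LipschitzOnWith.of_dist_le_mul fun x hx y hy => ?_
    rw [Real.coe_toNNReal c hc, Real.dist_eq, Real.dist_eq]
    rcases lt_trichotomy x y with hxy | hxy | hxy
    · obtain ⟨h3, h4⟩ := h x hx y hy hxy
      rw [abs_of_nonneg (by linarith), abs_of_neg (by linarith)]
      linarith
    · subst hxy; simp
    · obtain ⟨h3, h4⟩ := h y hy x hx hxy
      rw [abs_of_nonpos (by linarith), abs_of_pos (by linarith)]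
      linarith
  obtain ⟨b', hb'L, hb'eq⟩ := hL.extend_real
  have hlip : ∀ x y : ℝ, |b' x - b' y| ≤ c * |x - y| := by
    intro x y
    have := hb'L.dist_le_mul x y
    rwa [Real.coe_toNNReal c hc, Real.dist_eq, Real.dist_eq] at this
  refine ⟨b', fun u hu => (hb'eq hu).symm, fun r t hr hrt ht => ⟨?_, ?_⟩⟩
  · rcases hrt.eq_or_lt with rfl | hlt
    · exact le_rfl
    refine le_of_forall_pos_le_add fun ε hε => ?_
    obtain ⟨δ, hδ0, hδ⟩ : ∃ δ : ℝ, 0 < δ ∧ 2 * c * δ ≤ ε := by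
      refine ⟨ε / (2 * c + 1), by positivity, ?_⟩
      rw [mul_div_assoc', div_le_iff₀ (by positivity)]
      nlinarith
    obtain ⟨r', hr'D, hr'1, hr'2⟩ := dcra_dense hr (hrt.trans ht) (lt_min hδ0 (sub_pos.2 hlt))
    obtain ⟨t', ht'D, ht'1, ht'2⟩ := dcra_dense (hr.trans hlt) ht hδ0
    have h1 : r' < r + δ := hr'2.trans_le (by linarith [min_le_left δ (t - r)])
    have h2 : r' < t := hr'2.trans_le (by linarith [min_le_right δ (t - r)])
    obtain ⟨h3, -⟩ := h r' hr'D t' ht'D (h2.trans_le ht'1)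
    rw [hb'eq hr'D, hb'eq ht'D] at h3
    have h4 := (abs_le.1 (hlip t t')).2
    have h5 := (abs_le.1 (hlip r' r)).2
    rw [abs_of_nonpos (by linarith : t - t' ≤ 0)] at h4
    rw [abs_of_nonneg (by linarith : 0 ≤ r' - r)] at h5
    have h6 : c * -(t - t') ≤ c * δ := mul_le_mul_of_nonneg_left (by linarith) hc
    have h7 : c * (r' - r) ≤ c * δ := mul_le_mul_of_nonneg_left (by linarith) hc
    linarith
  · have h1 := hlip r t
    rw [abs_of_nonpos (by linarith : r - t ≤ 0)] at h1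
    have h2 := le_abs_self (b' r - b' t)
    linarith

end Claimed.Agent.R255
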