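import Claimed.Agent.R255.Cl.Dich.Rep
import Claimed.Agent.R255.Ent.Restr
import Claimed.Agent.R255.Iso.Grid

/-!
# Row 255 (BR paper), chapter DICHOTOMY (P4.6-P4.8): THE REPLICA KIT      (helper174; prefix `dc_rp_`)

Shared by DC-ZOE, DC-COH (and usable by DC-BDASP).   PAPER-FREE.
* `S.twin C` : the two-copy system on `S.Ω × S.Ω`: the first coordinate is the old sample point (it carries `T`, `c`), the second coordinate is a fresh
  sample point drawn from `P( · | C)` (`S.adjoin (S.P.kerOf id C)`).  A label `G` of `S` gives the old label `fun x => G x.1` and its REPLICA `fun x => G x.2`.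
* support `dc_rp_supp`, marginals `dc_rp_pr_fst`, `dc_rp_pr_snd`, conditional independence `dc_rp_ci`, `dc_rp_miC`, after conditioning `dc_rp_miC_cond`,
  deficit of the replica `dc_rp_deficit`, the replica is a label `dc_rp_label` (given `(T, C_u)`, enlargement `K + 1`),
  predictor from a collision bound `dc_rp_table`.
* scalar geometry: `dc_rp_sin_near` (small `|sin|` ⟹ close to a multiple of `π`), `dc_rp_sin_tri`, neighbouring orientation cells `dc_rp_nbr`.
-/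

set_option autoImplicit false

namespace Claimed.Agent.R255

open Filter Topology
open Classical
open FLaw

/-! ## the two-copy law -/

section Law

variable {Ω : Type} [Fintype Ω] {α β γ' δ : Type}

/-- the two-copy law -/
noncomputable def FLaw.twin (P : FLaw Ω) (C : Ω → γ') : FLaw (Ω × Ω) := P.ext (P.kerOf (fun ω => ω) C)

theorem dc_rp_pr_fst (P : FLaw Ω) (C : Ω → γ') (E : Ω → Prop) :
    (P.twin C).pr (fun x => E x.1) = P.pr E := ent_ext_pr_fst P _ E

theorem dc_rp_pr_mix (P : FLaw Ω) (C : Ω → γ') (F : Ω → γ' → Prop) :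
    (P.twin C).pr (fun x => F x.2 (C x.1)) = P.pr (fun ω => F ω (C ω)) :=
  ent_aux_kerOf_pr P (fun ω => ω) C F

theorem dc_rp_pr_snd (P : FLaw Ω) (C : Ω → γ') (E : Ω → Prop) :
    (P.twin C).pr (fun x => E x.2) = P.pr E := dc_rp_pr_mix P C (fun u _ => E u)

theorem dc_rp_supp (P : FLaw Ω) (C : Ω → γ') (x : Ω × Ω) (hx : (P.twin C).p x ≠ 0) :
    P.p x.1 ≠ 0 ∧ P.p x.2 ≠ 0 ∧ C x.2 = C x.1 := by
  have h1 : P.p x.1 ≠ 0 := by
    intro h
    apply hx
    show P.p x.1 * _ = 0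
    rw [h, zero_mul]
  have h2 : (P.twin C).pr (fun y => ¬ (P.p y.2 ≠ 0 ∧ C y.2 = C y.1)) = 0 := by
    rw [dc_rp_pr_mix P C (fun u c => ¬ (P.p u ≠ 0 ∧ C u = c))]
    exact ent_pr_eq_zero P fun ω hω h => h ⟨hω, rfl⟩
  by_contra hc
  have h3 : 0 < (P.twin C).pr (fun y => ¬ (P.p y.2 ≠ 0 ∧ C y.2 = C y.1)) :=
    (ent_pr_pos_iff _ _).2 ⟨x, fun h => hc ⟨h1, h.1, h.2⟩, hx⟩
  rw [h2] at h3
  exact lt_irrefl _ h3

theorem dc_rp_ent_mix (P : FLaw Ω) (C : Ω → γ') (g : Ω → γ' → δ) :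
    (P.twin C).ent (fun x => g x.2 (C x.1)) = P.ent (fun ω => g ω (C ω)) :=
  ent_kerOf_ent P (fun ω => ω) C g

/-- the two copies are conditionally independent given `C` -/
theorem dc_rp_ci (P : FLaw Ω) (C : Ω → γ') (X : Ω → α) (Y : Ω → β) :
    (P.twin C).CI (fun x => X x.1) (fun x => Y x.2) (fun x => C x.1) := by
  have h := ent_resample_ci P (P.kerOf (fun ω => ω) C) C
    (fun ω ω' h => ent_kerOf_congr P (fun ω => ω) C h) (fun ω => ω)
  have h2 := ent_ci_comp _ _ _ _ h (fun u _ => Y u) (fun v _ => X v)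
  exact ent_ci_symm _ _ _ _ h2

theorem dc_rp_miC (P : FLaw Ω) (C : Ω → γ') (X : Ω → α) (Y : Ω → β) :
    (P.twin C).miC (fun x => X x.1) (fun x => Y x.2) (fun x => C x.1) = 0 :=
  (ent_ci_iff _ _ _ _).1 (dc_rp_ci P C X Y)

/-- after conditioning on an event of the two-copy space (BR L2.3) -/
theorem dc_rp_miC_cond (P : FLaw Ω) (C : Ω → γ') (X : Ω → α) (Y : Ω → β) (A : Ω × Ω → Prop)
    (hA : 0 < (P.twin C).pr A) :
    ((P.twin C).cnd A).miC (fun x => X x.1) (fun x => Y x.2) (fun x => C x.1)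
      ≤ Real.log (1 / (P.twin C).pr A) :=
  ent_ci_dom (P.twin C) _ (ent_cnd_dom _ A hA) _ _ _ (dc_rp_ci P C X Y)

/-- **predictor from a collision bound**: for a kernel which only depends on `C`, the best value of the new label in each cell of `C` does at least as well as the random one -/
theorem dc_rp_table {Γ : Type} [Fintype Γ] [Nonempty Γ] (P : FLaw Ω) (κ : Ker Ω Γ) (C : Ω → γ')
    (hκ : ∀ ω ω', C ω = C ω' → κ.k ω = κ.k ω') (R : Ω → Γ → Prop) :
    ∃ t : γ' → Γ, (P.ext κ).pr (fun x => R x.1 x.2) ≤ P.pr (fun ω => R ω (t (C ω))) := by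
  -- mass of `R · g` in the cell `c`
  let F : γ' → Γ → ℝ := fun c g => ∑ ω, if C ω = c then (if R ω g then P.p ω else 0) else 0
  have hmax : ∀ c, ∃ g, ∀ g', F c g' ≤ F c g := by
    intro c
    obtain ⟨g, -, hg⟩ := Finset.exists_max_image (Finset.univ : Finset Γ) (F c) Finset.univ_nonempty
    exact ⟨g, fun g' => hg g' (Finset.mem_univ _)⟩
  choose t ht using hmax
  refine ⟨t, ?_⟩
  let I : Finset γ' := Finset.univ.image C
  have hI : ∀ ω, C ω ∈ I := fun ω => Finset.mem_image_of_mem _ (Finset.mem_univ _)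
  -- right hand side
  have hr : P.pr (fun ω => R ω (t (C ω))) = ∑ c ∈ I, F c (t c) := by
    unfold FLaw.pr
    rw [Finset.sum_comm]
    refine Finset.sum_congr rfl fun ω _ => ?_
    rw [Finset.sum_eq_single (C ω)]
    · rw [if_pos rfl]
    · intro c _ hc
      rw [if_neg (Ne.symm hc)]
    · intro h
      exact absurd (hI ω) h
  -- left hand side
  have hl : (P.ext κ).pr (fun x => R x.1 x.2)
      = ∑ c ∈ I, ∑ ω, if C ω = c then ∑ g, κ.k ω g * (if R ω g then P.p ω else 0) else 0 := by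
    unfold FLaw.pr
    rw [Fintype.sum_prod_type]
    conv_rhs => rw [Finset.sum_comm]
    refine Finset.sum_congr rfl fun ω _ => ?_
    rw [Finset.sum_eq_single (C ω)]
    · rw [if_pos rfl]
      refine Finset.sum_congr rfl fun g _ => ?_
      show (if R ω g then P.p ω * κ.k ω g else (0 : ℝ)) = κ.k ω g * (if R ω g then P.p ω else 0)
      split_ifs
      · ring
      · ring
    · intro c _ hc
      rw [if_neg (Ne.symm hc)]
    · intro h
      exact absurd (hI ω) h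
  rw [hl, hr]
  refine Finset.sum_le_sum fun c hc => ?_
  obtain ⟨ω₀, -, rfl⟩ := Finset.mem_image.1 hc
  have e1 : (∑ ω, if C ω = C ω₀ then ∑ g, κ.k ω g * (if R ω g then P.p ω else 0) else 0)
      = ∑ g, κ.k ω₀ g * F (C ω₀) g := by
    simp only [F, Finset.mul_sum]
    rw [Finset.sum_comm]
    refine Finset.sum_congr rfl fun ω _ => ?_
    by_cases h : C ω = C ω₀
    · simp only [if_pos h, hκ ω ω₀ h]
    · simp only [if_neg h, mul_zero, Finset.sum_const_zero]
  rw [e1]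
  calc ∑ g, κ.k ω₀ g * F (C ω₀) g ≤ ∑ g, κ.k ω₀ g * F (C ω₀) (t (C ω₀)) :=
        Finset.sum_le_sum fun g _ => mul_le_mul_of_nonneg_left (ht _ g) (κ.nonneg _ _)
    _ = F (C ω₀) (t (C ω₀)) := by rw [← Finset.sum_mul, κ.sum_one, one_mul]

/-- the predictor for the two-copy law -/
theorem dc_rp_table_twin (P : FLaw Ω) (C : Ω → γ') (N : Ω → α) (rel : α → α → Prop) :
    ∃ tab : γ' → α, (P.twin C).pr (fun x => rel (N x.1) (N x.2)) ≤ P.pr (fun ω => rel (N ω) (tab (C ω))) := by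
  obtain ⟨ω₁, -⟩ := ent_exists_supp P
  have : Nonempty Ω := ⟨ω₁⟩
  obtain ⟨t, ht⟩ := dc_rp_table P (P.kerOf (fun ω => ω) C) C
    (fun ω ω' h => ent_kerOf_congr P (fun ω => ω) C h) (fun ω g => rel (N ω) (N g))
  exact ⟨fun c => N (t c), ht⟩

end Law

/-! ## the two-copy system -/

/-- the two-copy system: the first coordinate is the old sample point, the second one is resampled given `C` -/
noncomputable def CSys.twin (S : CSys) {γ' : Type} (C : S.Ω → γ') : CSys :=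
  S.adjoin (S.P.kerOf (fun ω => ω) C)

section Sys

variable (S : CSys) {γ' : Type} (C : S.Ω → γ')

theorem dc_rp_P : (S.twin C).P = S.P.twin C := rfl

theorem dc_rp_bdd (B : ℝ) (hB : S.Bdd B) : (S.twin C).Bdd B := tl_l2_adj_bdd S B hB _

theorem dc_rp_St (ε r : ℝ) : (S.twin C).St ε r = S.St ε r := tl_l2_adj_St S ε r _

theorem dc_rp_tau (γ ε L : ℝ) : (S.twin C).tau γ ε L = S.tau γ ε L := tl_tau_adjoin S γ ε L _ _

/-- old labels -/
theorem dc_rp_label_fst (K ε t L : ℝ) (Γ : Type) (G : S.Ω → Γ) (geo : Γ → Geo)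
    (H : S.IsLabel K ε t L G geo) : (S.twin C).IsLabel K ε t L (fun x => G x.1) geo :=
  fun x hx => H x.1 (tl_l2_adj_pos S _ x hx)

theorem dc_rp_deficit_fst (γ ε t L : ℝ) (Γ : Type) (G : S.Ω → Γ) (geo : Γ → Geo) :
    (S.twin C).deficit γ ε t L (fun x => G x.1) geo = S.deficit γ ε t L G geo := by
  unfold CSys.deficit CSys.score
  rw [dc_rp_tau, dc_rp_St]
  have e1 : (S.twin C).P.ev (fun ω => wt γ (geo (G ω.1))) = S.P.ev (fun ω => wt γ (geo (G ω))) :=
    ent_ext_ev_fst S.P _ (fun ω => wt γ (geo (G ω)))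
  have e2 : (S.twin C).P.mi (S.twin C).T (fun x => G x.1) = S.P.mi S.T G :=
    ent_ext_mi_fst S.P _ S.T G
  rw [e1, e2]

/-- the score of a label of fixed shape -/
theorem dc_rp_score_rd (S : CSys) (γ ε t b a : ℝ) (G : S.Ω → LV) :
    S.score γ ε t G (rd b a) = (1 + γ) * b + (1 - γ) * a - S.P.mi S.T G / lg ε + 2 * S.St ε t := by
  unfold CSys.score
  have : (fun ω => wt γ (rd b a (G ω))) = fun _ => (1 + γ) * b + (1 - γ) * a := rfl
  rw [this, ent_ev_const]

/-- the replica of a label of fixed shape has the same deficit (`T` is a function of `C`) -/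
theorem dc_rp_deficit_snd (τ : γ' → S.ι) (hτ : ∀ ω, S.T ω = τ (C ω)) (γ ε t L b a : ℝ) (G : S.Ω → LV) :
    (S.twin C).deficit γ ε t L (fun x => G x.2) (rd b a) = S.deficit γ ε t L G (rd b a) := by
  unfold CSys.deficit
  rw [dc_rp_score_rd, dc_rp_score_rd, dc_rp_tau, dc_rp_St]
  have e : (S.twin C).P.mi (S.twin C).T (fun x => G x.2) = S.P.mi S.T G := by
    unfold FLaw.mi
    have e1 : (S.twin C).P.ent (S.twin C).T = S.P.ent S.T := ent_ext_ent_fst S.P _ S.T
    have e2 : (S.twin C).P.ent (fun x => G x.2) = S.P.ent G := dc_rp_ent_mix S.P C (fun u _ => G u)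
    have e3 : (S.twin C).P.ent (pair (S.twin C).T (fun x => G x.2)) = S.P.ent (pair S.T G) := by
      have h := dc_rp_ent_mix S.P C (fun u c => (τ c, G u))
      have h1 : (fun x : S.Ω × S.Ω => (τ (C x.1), G x.2)) = pair (S.twin C).T (fun x => G x.2) := by
        funext x
        show (τ (C x.1), G x.2) = (S.T x.1, G x.2)
        rw [hτ]
      have h2 : (fun ω => (τ (C ω), G ω)) = pair S.T G := by
        funext ω
        show (τ (C ω), G ω) = (S.T ω, G ω)
        rw [hτ]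
      rw [h1, h2] at h
      exact h
    rw [e1, e2, e3]
  rw [e]

end Sys

/-! ## projection of a law on the two-copy space to the first copy

`((S.twin C).withLaw R)` and `S.withLaw (R.map Prod.fst)` give the same values to everything which only depends on the first copy.
(Used to apply contracts which CONSTRUCT a label, e.g. `dc_reshape`, on the first copy of a conditioned two-copy system: the new label is then a function of the first copy.) -/

section Proj

variable (S : CSys) {γ' : Type} (C : S.Ω → γ') (R : FLaw (S.Ω × S.Ω))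

theorem dc_rp_proj_supp (ω : S.Ω) (h : 0 < (R.map Prod.fst).p ω) : ∃ x : S.Ω × S.Ω, x.1 = ω ∧ R.p x ≠ 0 :=
  (ent_pr_pos_iff R (fun x => x.1 = ω)).1 h

theorem dc_rp_proj_tau (γ ε L : ℝ) :
    ((S.twin C).withLaw R).tau γ ε L = (S.withLaw (R.map Prod.fst)).tau γ ε L := by
  have h : ∀ i, (R.map Prod.fst).pr (fun ω => S.T ω = i) = R.pr (fun x => S.T x.1 = i) :=
    fun i => ent_map_pr R Prod.fst (fun ω => S.T ω = i)
  unfold CSys.tau
  congr 1
  ext x
  constructor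
  · rintro ⟨Ω', i', P', T', Γ, D, geo, h1, h2, h3⟩
    exact ⟨Ω', i', P', T', Γ, D, geo, fun i => (h1 i).trans (h i).symm, h2, h3⟩
  · rintro ⟨Ω', i', P', T', Γ, D, geo, h1, h2, h3⟩
    exact ⟨Ω', i', P', T', Γ, D, geo, fun i => (h1 i).trans (h i), h2, h3⟩

theorem dc_rp_proj_deficit (γ ε t L : ℝ) (Γ : Type) (X : S.Ω → Γ) (geo : Γ → Geo) :
    ((S.twin C).withLaw R).deficit γ ε t L (fun x => X x.1) geo =
      (S.withLaw (R.map Prod.fst)).deficit γ ε t L X geo := by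
  unfold CSys.deficit
  rw [dc_rp_proj_tau]
  congr 1
  unfold CSys.score CSys.St
  have e1 : (R.map Prod.fst).ev (fun ω => wt γ (geo (X ω))) = R.ev (fun x => wt γ (geo (X x.1))) :=
    ent_map_ev R Prod.fst _
  have e2 : (R.map Prod.fst).mi S.T X = R.mi (fun x => S.T x.1) (fun x => X x.1) :=
    ent_map_mi R Prod.fst _ _
  have e3 : (R.map Prod.fst).entC (S.Ct ε t) S.T = R.entC (fun x => S.Ct ε t x.1) (fun x => S.T x.1) :=
    ent_map_entC R Prod.fst _ _
  show R.ev (fun x => wt γ (geo (X x.1))) - R.mi (fun x => S.T x.1) (fun x => X x.1) / lg ε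
      + 2 * (R.entC (fun x => S.Ct ε t x.1) (fun x => S.T x.1) / lg ε) =
    (R.map Prod.fst).ev (fun ω => wt γ (geo (X ω))) - (R.map Prod.fst).mi S.T X / lg ε
      + 2 * ((R.map Prod.fst).entC (S.Ct ε t) S.T / lg ε)
  rw [e1, e2, e3]

theorem dc_rp_proj_label (K ε t L : ℝ) (Γ : Type) (X : S.Ω → Γ) (geo : Γ → Geo) :
    ((S.twin C).withLaw R).IsLabel K ε t L (fun x => X x.1) geo ↔
      (S.withLaw (R.map Prod.fst)).IsLabel K ε t L X geo := by
  constructor
  · intro H ω hω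
    obtain ⟨x, rfl, hx⟩ := dc_rp_proj_supp S R ω hω
    exact H x (lt_of_le_of_ne (R.nonneg _) (Ne.symm hx))
  · intro H x hx
    exact H x.1 (lt_of_le_of_ne ((R.map Prod.fst).nonneg _)
      (Ne.symm (ent_map_supp R Prod.fst (ne_of_gt hx))))

theorem dc_rp_proj_bdd (B : ℝ) (H : ((S.twin C).withLaw R).Bdd B) : (S.withLaw (R.map Prod.fst)).Bdd B := by
  intro ω hω
  obtain ⟨x, rfl, hx⟩ := dc_rp_proj_supp S R ω hω
  exact H x (lt_of_le_of_ne (R.nonneg _) (Ne.symm hx))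

end Proj

/-- two points of one time cell -/
theorem dc_rp_cell_dist (ε u c c' : ℝ) (h0 : 0 < ε) (h : tcell ε u c = tcell ε u c') : |c - c'| ≤ ε ^ u := by
  have a1 := ig_cell_le ε u c
  have a2 := ig_lt_cell ε u c
  have b1 := ig_cell_le ε u c'
  have b2 := ig_lt_cell ε u c'
  have hm := ig_msh_le ε u h0
  rw [h] at a1 a2
  rw [abs_le]
  constructor <;> nlinarith

/-- the replica given `(T, C_u)` of a label at duration `u` is a label, enlargement `K + 1` -/
theorem dc_rp_label_snd (S : CSys) (K ε u L : ℝ) (h0 : 0 < ε) (Γ : Type) (G : S.Ω → Γ) (geo : Γ → Geo)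
    (H : S.IsLabel K ε u L G geo) :
    (S.twin (pair S.T (S.Ct ε u))).IsLabel (K + 1) ε u L (fun x => G x.2) geo := by
  intro x hx
  obtain ⟨-, h2, h3⟩ := dc_rp_supp S.P (pair S.T (S.Ct ε u)) x (ne_of_gt hx)
  have hT : S.T x.2 = S.T x.1 := congrArg Prod.fst h3
  have hC : tcell ε u (S.c x.2) = tcell ε u (S.c x.1) := congrArg Prod.snd h3
  obtain ⟨c1, c2, c3, c4, c5, c6⟩ := H x.2 (lt_of_le_of_ne (S.P.nonneg _) (Ne.symm h2))
  rw [hT] at c5 c6
  have hd := dc_rp_cell_dist ε u _ _ h0 hC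
  have hmono : ∀ s : ℝ, K * ε ^ s ≤ (K + 1) * ε ^ s := fun s => by
    have := (Real.rpow_pos_of_pos h0 s).le
    nlinarith
  refine ⟨c1, c2, c3, ?_, ⟨c5.1.trans (hmono _), c5.2.trans (hmono _)⟩,
    ⟨c6.1.trans (hmono _), c6.2.trans (hmono _)⟩⟩
  show |S.c x.1 - (geo (G x.2)).tc| ≤ (K + 1) * ε ^ u
  have : |S.c x.1 - (geo (G x.2)).tc| ≤ |S.c x.2 - S.c x.1| + |S.c x.2 - (geo (G x.2)).tc| := by
    have := abs_sub_le (S.c x.1) (S.c x.2) (geo (G x.2)).tc
    rwa [abs_sub_comm (S.c x.1) (S.c x.2)] at this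
  linarith

/-! ## scalar geometry of frames -/

theorem dc_rp_sin_tri (x y z : ℝ) : |Real.sin (x - z)| ≤ |Real.sin (x - y)| + |Real.sin (y - z)| := by
  have e : x - z = (x - y) + (y - z) := by ring
  rw [e, Real.sin_add]
  refine (abs_add_le _ _).trans ?_
  rw [abs_mul, abs_mul]
  have h1 := Real.abs_cos_le_one (y - z)
  have h2 := Real.abs_cos_le_one (x - y)
  have h3 := abs_nonneg (Real.sin (x - y))
  have h4 := abs_nonneg (Real.sin (y - z))
  nlinarith

/-- a small `|sin θ|`, `|θ| < π`, forces `θ` to be close to `-π`, `0` or `π` -/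
theorem dc_rp_sin_near (θ : ℝ) (h1 : -Real.pi < θ) (h2 : θ < Real.pi) :
    ∃ j : ℤ, (j = -1 ∨ j = 0 ∨ j = 1) ∧ |θ - j * Real.pi| ≤ Real.pi / 2 * |Real.sin θ| := by
  have hpi := Real.pi_pos
  have key : ∀ x : ℝ, |x| ≤ Real.pi / 2 → |x| ≤ Real.pi / 2 * |Real.sin x| := by
    intro x hx
    have := Real.mul_abs_le_abs_sin hx
    have h3 : Real.pi / 2 * (2 / Real.pi * |x|) = |x| := by field_simp
    calc |x| = Real.pi / 2 * (2 / Real.pi * |x|) := h3.symm
      _ ≤ Real.pi / 2 * |Real.sin x| := mul_le_mul_of_nonneg_left this (by positivity)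
  by_cases c1 : θ < -(Real.pi / 2)
  · refine ⟨-1, Or.inl rfl, ?_⟩
    have e : θ - ((-1 : ℤ) : ℝ) * Real.pi = θ + Real.pi := by push_cast; ring
    rw [e]
    have := key (θ + Real.pi) (by rw [abs_le]; constructor <;> linarith)
    rwa [Real.sin_add_pi, abs_neg] at this
  · by_cases c2 : Real.pi / 2 < θ
    · refine ⟨1, Or.inr (Or.inr rfl), ?_⟩
      have e : θ - ((1 : ℤ) : ℝ) * Real.pi = θ - Real.pi := by push_cast; ring
      rw [e]
      have := key (θ - Real.pi) (by rw [abs_le]; constructor <;> linarith)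
      rwa [Real.sin_sub_pi, abs_neg] at this
    · refine ⟨0, Or.inr (Or.inl rfl), ?_⟩
      have e : θ - ((0 : ℤ) : ℝ) * Real.pi = θ := by push_cast; ring
      rw [e]
      exact key θ (by rw [abs_le]; constructor <;> linarith)

/-- the candidates for the orientation cell of depth `d` of a frame which is `ε^d`-close to a frame with cell `k` -/
noncomputable def dcNbr (ε d : ℝ) (k : ℤ) : Finset ℤ :=
  (Finset.Icc ⌈((k : ℝ) - Real.pi * 2 ^ tlev ε d) - 5⌉ ⌊((k : ℝ) - Real.pi * 2 ^ tlev ε d) + 5⌋) ∪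
    ((Finset.Icc ⌈(k : ℝ) - 5⌉ ⌊(k : ℝ) + 5⌋) ∪
      (Finset.Icc ⌈((k : ℝ) + Real.pi * 2 ^ tlev ε d) - 5⌉ ⌊((k : ℝ) + Real.pi * 2 ^ tlev ε d) + 5⌋))

theorem dc_rp_nbr_card (ε d : ℝ) (k : ℤ) : ((dcNbr ε d k).card : ℝ) ≤ 33 := by
  unfold dcNbr
  have h1 := ie_card_int_ball ((k : ℝ) - Real.pi * 2 ^ tlev ε d) 5 (by norm_num)
  have h2 := ie_card_int_ball (k : ℝ) 5 (by norm_num)
  have h3 := ie_card_int_ball ((k : ℝ) + Real.pi * 2 ^ tlev ε d) 5 (by norm_num)
  have u1 := Finset.card_union_le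
    (Finset.Icc ⌈((k : ℝ) - Real.pi * 2 ^ tlev ε d) - 5⌉ ⌊((k : ℝ) - Real.pi * 2 ^ tlev ε d) + 5⌋)
    ((Finset.Icc ⌈(k : ℝ) - 5⌉ ⌊(k : ℝ) + 5⌋) ∪
      (Finset.Icc ⌈((k : ℝ) + Real.pi * 2 ^ tlev ε d) - 5⌉ ⌊((k : ℝ) + Real.pi * 2 ^ tlev ε d) + 5⌋))
  have u2 := Finset.card_union_le (Finset.Icc ⌈(k : ℝ) - 5⌉ ⌊(k : ℝ) + 5⌋)
      (Finset.Icc ⌈((k : ℝ) + Real.pi * 2 ^ tlev ε d) - 5⌉ ⌊((k : ℝ) + Real.pi * 2 ^ tlev ε d) + 5⌋)
  have u1' := (Nat.cast_le (α := ℝ)).2 u1
  have u2' := (Nat.cast_le (α := ℝ)).2 u2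
  push_cast at u1' u2'
  linarith

/-- close frames have neighbouring orientation cells -/
theorem dc_rp_nbr (ε d th th' : ℝ) (h0 : 0 < ε) (h1 : ε < 1) (hd : 0 ≤ d) (a1 : 0 ≤ th) (a2 : th < Real.pi)
    (b1 : 0 ≤ th') (b2 : th' < Real.pi) (h : |Real.sin (th - th')| ≤ ε ^ d) :
    tcell ε d th ∈ dcNbr ε d (tcell ε d th') := by
  obtain ⟨j, hj, hn⟩ := dc_rp_sin_near (th - th') (by linarith) (by linarith)
  have hpi := Real.pi_pos
  have hpi4 := Real.pi_lt_four
  set n := tlev ε d with hn'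
  have hp : (0 : ℝ) < 2 ^ n := by positivity
  have hm : ε ^ d * 2 ^ n ≤ 2 := by
    have := ig_le_msh ε d h0 h1 hd
    unfold msh at this
    rw [← hn', mul_one_div, le_div_iff₀ hp] at this
    exact this
  -- scaled distance
  have hs : |th * 2 ^ n - th' * 2 ^ n - j * (Real.pi * 2 ^ n)| ≤ Real.pi := by
    have e : th * 2 ^ n - th' * 2 ^ n - j * (Real.pi * 2 ^ n) = (th - th' - j * Real.pi) * 2 ^ n := by ring
    rw [e, abs_mul, abs_of_pos hp]
    calc |th - th' - j * Real.pi| * 2 ^ n ≤ (Real.pi / 2 * ε ^ d) * 2 ^ n := by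
          refine mul_le_mul_of_nonneg_right (hn.trans ?_) hp.le
          exact mul_le_mul_of_nonneg_left h (by positivity)
      _ = Real.pi / 2 * (ε ^ d * 2 ^ n) := by ring
      _ ≤ Real.pi / 2 * 2 := mul_le_mul_of_nonneg_left hm (by positivity)
      _ = Real.pi := by ring
  have f1 : ((tcell ε d th : ℤ) : ℝ) ≤ th * 2 ^ n := Int.floor_le _
  have f2 : th * 2 ^ n < (tcell ε d th : ℝ) + 1 := Int.lt_floor_add_one _
  have g1 : ((tcell ε d th' : ℤ) : ℝ) ≤ th' * 2 ^ n := Int.floor_le _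
  have g2 : th' * 2 ^ n < (tcell ε d th' : ℝ) + 1 := Int.lt_floor_add_one _
  rw [abs_le] at hs
  have key : ∀ c : ℝ, c = (tcell ε d th' : ℝ) + j * (Real.pi * 2 ^ n) →
      tcell ε d th ∈ Finset.Icc ⌈c - 5⌉ ⌊c + 5⌋ := by
    intro c hc
    rw [Finset.mem_Icc]
    exact ⟨Int.ceil_le.2 (by rw [hc]; linarith [hs.1]), Int.le_floor.2 (by rw [hc]; linarith [hs.2])⟩
  unfold dcNbr
  rw [← hn']
  rcases hj with rfl | rfl | rfl
  · exact Finset.mem_union_left _ (key _ (by push_cast; ring))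
  · exact Finset.mem_union_right _ (Finset.mem_union_left _ (key _ (by push_cast; ring)))
  · exact Finset.mem_union_right _ (Finset.mem_union_right _ (key _ (by push_cast; ring)))

/-- the orientation cells of normalised angles -/
theorem dc_rp_ori_range (ε d th : ℝ) (h0 : 0 < ε) (h1 : ε < 1) (hd : 0 ≤ d) (a1 : 0 ≤ th) (a2 : th < Real.pi) :
    tcell ε d th ∈ Finset.Icc ⌈(0 : ℝ) - 8 * ε ^ (-d)⌉ ⌊(0 : ℝ) + 8 * ε ^ (-d)⌋ := by
  have hp : (0 : ℝ) < 2 ^ tlev ε d := by positivity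
  have hle := ig_pow_lev_le ε d h0 h1 hd
  have hpos : 0 < ε ^ (-d) := Real.rpow_pos_of_pos h0 _
  have f1 : ((tcell ε d th : ℤ) : ℝ) ≤ th * 2 ^ tlev ε d := Int.floor_le _
  have f2 : (0 : ℝ) ≤ (tcell ε d th : ℝ) := by
    have : (0 : ℤ) ≤ tcell ε d th := Int.floor_nonneg.2 (by positivity)
    exact_mod_cast this
  have hpi4 := Real.pi_lt_four
  rw [Finset.mem_Icc]
  refine ⟨Int.ceil_le.2 (by linarith), Int.le_floor.2 ?_⟩
  have : th * 2 ^ tlev ε d ≤ 4 * (2 * ε ^ (-d)) :=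
    mul_le_mul (by linarith) hle hp.le (by norm_num)
  linarith

theorem dc_rp_eqns_cite : True := by
  have := @FLaw.twin.eq_1
  have := @CSys.twin.eq_1
  have := @dcNbr.eq_1
  trivial

end Claimed.Agent.R255
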